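import Vale.Agent.P073.SCH.Amb

/-!
# P073, block SCH: conical arcs
-/

open Set Metric Topology Filter

namespace P073

variable {E F G : Type*} [NormedAddCommGroup E] [NormedSpace ℝ E]
  [NormedAddCommGroup F] [NormedSpace ℝ F] [NormedAddCommGroup G] [NormedSpace ℝ G]

/-- `A` is a conical arc from `p` to `q` -/
def IsArc (A : Set E) (p q : E) : Prop :=
  ∃ φ : ConHomeo (Icc (0:ℝ) 1) A, φ.toFun 0 = p ∧ φ.toFun 1 = q

/-- affine reparametrisation of an interval -/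
noncomputable def intervalHomeo {a b : ℝ} (hab : a < b) : ConHomeo (Icc a b) (Icc (0:ℝ) 1) where
  toFun := fun t => (b - a)⁻¹ * (t - a)
  invFun := fun s => a + (b - a) * s
  mapsTo := by
    intro t ht
    have h : 0 < b - a := sub_pos.2 hab
    refine ⟨mul_nonneg (inv_nonneg.2 h.le) (sub_nonneg.2 ht.1), ?_⟩
    rw [inv_mul_le_iff₀ h]; linarith [ht.2]
  mapsTo_inv := by
    intro s hs
    have h : 0 < b - a := sub_pos.2 hab
    exact ⟨by nlinarith [hs.1], by nlinarith [hs.2]⟩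
  left_inv := by
    intro t _
    have h : b - a ≠ 0 := (sub_pos.2 hab).ne'
    simp only
    field_simp
    ring
  right_inv := by
    intro s _
    have h : b - a ≠ 0 := (sub_pos.2 hab).ne'
    simp only
    field_simp
    ring
  cont := by fun_prop
  cont_inv := by fun_prop
  conical := by
    have hc : ConicalSet (Icc a b) := Convex.conicalSet (convex_Icc a b)
    have := ((conicalOn_id hc).sub (conicalOn_const a hc)).const_smul (b - a)⁻¹
    simpa [smul_eq_mul] using this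

theorem intervalHomeo_left {a b : ℝ} (hab : a < b) : (intervalHomeo hab).toFun a = 0 := by
  show (b - a)⁻¹ * (a - a) = 0
  simp

theorem intervalHomeo_right {a b : ℝ} (hab : a < b) : (intervalHomeo hab).toFun b = 1 := by
  show (b - a)⁻¹ * (b - a) = 1
  exact inv_mul_cancel₀ (sub_pos.2 hab).ne'

/-- reversal of the unit interval -/
noncomputable def intervalRev : ConHomeo (Icc (0:ℝ) 1) (Icc (0:ℝ) 1) where
  toFun := fun t => 1 - t
  invFun := fun t => 1 - t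
  mapsTo := fun t ht => ⟨by linarith [ht.2], by linarith [ht.1]⟩
  mapsTo_inv := fun t ht => ⟨by linarith [ht.2], by linarith [ht.1]⟩
  left_inv := fun t _ => by simp
  right_inv := fun t _ => by simp
  cont := by fun_prop
  cont_inv := by fun_prop
  conical := by
    have hc : ConicalSet (Icc (0:ℝ) 1) := Convex.conicalSet (convex_Icc 0 1)
    exact (conicalOn_const 1 hc).sub (conicalOn_id hc)

namespace IsArc

variable {A B : Set E} {p q r : E}

theorem exists_param (h : IsArc A p q) {a b : ℝ} (hab : a < b) :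
    ∃ φ : ConHomeo (Icc a b) A, φ.toFun a = p ∧ φ.toFun b = q := by
  obtain ⟨φ, h0, h1⟩ := h
  refine ⟨(intervalHomeo hab).trans φ, ?_, ?_⟩
  · show φ.toFun ((intervalHomeo hab).toFun a) = p
    rw [intervalHomeo_left, h0]
  · show φ.toFun ((intervalHomeo hab).toFun b) = q
    rw [intervalHomeo_right, h1]

theorem of_param {a b : ℝ} (hab : a < b) (φ : ConHomeo (Icc a b) A) (h0 : φ.toFun a = p)
    (h1 : φ.toFun b = q) : IsArc A p q := by
  refine ⟨(intervalHomeo hab).symm.trans φ, ?_, ?_⟩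
  · show φ.toFun ((intervalHomeo hab).invFun 0) = p
    have : (intervalHomeo hab).invFun 0 = a := by
      show a + (b - a) * 0 = a
      ring
    rw [this, h0]
  · show φ.toFun ((intervalHomeo hab).invFun 1) = q
    have : (intervalHomeo hab).invFun 1 = b := by
      show a + (b - a) * 1 = b
      ring
    rw [this, h1]

theorem left_mem (h : IsArc A p q) : p ∈ A := by
  obtain ⟨φ, h0, h1⟩ := h
  exact h0 ▸ φ.mapsTo ⟨le_refl _, zero_le_one⟩

theorem right_mem (h : IsArc A p q) : q ∈ A := by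
  obtain ⟨φ, h0, h1⟩ := h
  exact h1 ▸ φ.mapsTo ⟨zero_le_one, le_refl _⟩

theorem ne (h : IsArc A p q) : p ≠ q := by
  obtain ⟨φ, h0, h1⟩ := h
  intro hpq
  have := φ.injOn ⟨le_refl _, zero_le_one⟩ ⟨zero_le_one, le_refl _⟩
    (h0.trans (hpq.trans h1.symm))
  exact zero_ne_one this

theorem isCompact (h : IsArc A p q) : IsCompact A := by
  obtain ⟨φ, _, _⟩ := h
  exact φ.isCompact_right isCompact_Icc

theorem isClosed (h : IsArc A p q) : IsClosed A := h.isCompact.isClosed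

theorem conicalSet (h : IsArc A p q) : ConicalSet A := by
  obtain ⟨φ, _, _⟩ := h
  exact φ.conicalSet_right

theorem isConnected (h : IsArc A p q) : IsConnected A := by
  obtain ⟨φ, _, _⟩ := h
  rw [← φ.image_eq]
  exact (isConnected_Icc zero_le_one).image _ φ.cont

theorem symm (h : IsArc A p q) : IsArc A q p := by
  obtain ⟨φ, h0, h1⟩ := h
  refine ⟨intervalRev.trans φ, ?_, ?_⟩
  · show φ.toFun (1 - 0) = q
    rw [sub_zero, h1]
  · show φ.toFun (1 - 1) = p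
    rw [sub_self, h0]

theorem image (h : IsArc A p q) {X : Set E} {Y : Set F} (Φ : ConHomeo X Y) (hA : A ⊆ X) :
    IsArc (Φ.toFun '' A) (Φ.toFun p) (Φ.toFun q) := by
  have hc := h.conicalSet
  obtain ⟨φ, h0, h1⟩ := h
  refine ⟨φ.trans (Φ.restr hc hA), ?_, ?_⟩
  · show Φ.toFun (φ.toFun 0) = _
    rw [h0]
  · show Φ.toFun (φ.toFun 1) = _
    rw [h1]

theorem trans (h : IsArc A p q) (h' : IsArc B q r) (hAB : A ∩ B ⊆ {q}) : IsArc (A ∪ B) p r := by
  have hA := h.isClosed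
  have hB := h'.isClosed
  obtain ⟨φ, h0, h1⟩ := h.exists_param (show (0:ℝ) < 1 by norm_num)
  obtain ⟨ψ, k0, k1⟩ := h'.exists_param (show (1:ℝ) < 2 by norm_num)
  have hinter : Icc (0:ℝ) 1 ∩ Icc 1 2 = {1} := by
    ext t; simp only [mem_inter_iff, mem_Icc, mem_singleton_iff]
    constructor
    · rintro ⟨h1, h2⟩; linarith [h1.2, h2.1]
    · rintro rfl; norm_num
  have hun : Icc (0:ℝ) 1 ∪ Icc 1 2 = Icc 0 2 := Icc_union_Icc_eq_Icc (by norm_num) (by norm_num)
  have hag : EqOn φ.toFun ψ.toFun (Icc (0:ℝ) 1 ∩ Icc 1 2) := by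
    rw [hinter]
    intro t ht
    rw [mem_singleton_iff.1 ht, h1, k0]
  have himg : A ∩ B ⊆ φ.toFun '' (Icc (0:ℝ) 1 ∩ Icc 1 2) := by
    intro x hx
    rw [hinter, image_singleton, h1]
    exact hAB hx
  let g := ConHomeo.glue φ ψ isClosed_Icc isClosed_Icc hA hB hag himg
  have hg1 : EqOn g.toFun φ.toFun (Icc 0 1) :=
    ConHomeo.glue_left φ ψ isClosed_Icc isClosed_Icc hA hB hag himg
  have hg2 : EqOn g.toFun ψ.toFun (Icc 1 2) :=
    ConHomeo.glue_right φ ψ isClosed_Icc isClosed_Icc hA hB hag himg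
  refine of_param (show (0:ℝ) < 2 by norm_num) (g.cast hun rfl) ?_ ?_
  · show g.toFun 0 = p
    rw [hg1 ⟨le_refl _, zero_le_one⟩, h0]
  · show g.toFun 2 = r
    rw [hg2 ⟨by norm_num, le_refl _⟩, k1]

theorem exists_homeo (h : IsArc A p q) {A' : Set F} {p' q' : F} (h' : IsArc A' p' q') :
    ∃ φ : ConHomeo A A', φ.toFun p = p' ∧ φ.toFun q = q' := by
  obtain ⟨φ, h0, h1⟩ := h
  obtain ⟨ψ, k0, k1⟩ := h'
  refine ⟨φ.symm.trans ψ, ?_, ?_⟩
  · show ψ.toFun (φ.invFun p) = p'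
    rw [← h0, φ.left_inv ⟨le_refl _, zero_le_one⟩, k0]
  · show ψ.toFun (φ.invFun q) = q'
    rw [← h1, φ.left_inv ⟨zero_le_one, le_refl _⟩, k1]

/-- circles made of two arcs are conically homeomorphic, with marked arcs -/
theorem exists_homeo_union (hA : IsArc A p q) (hB : IsArc B p q) (hAB : A ∩ B ⊆ {p, q})
    {A' B' : Set F} {p' q' : F} (hA' : IsArc A' p' q') (hB' : IsArc B' p' q')
    (hAB' : A' ∩ B' ⊆ {p', q'}) :
    ∃ φ : ConHomeo (A ∪ B) (A' ∪ B'), φ.toFun p = p' ∧ φ.toFun q = q' ∧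
      φ.toFun '' A = A' ∧ φ.toFun '' B = B' := by
  obtain ⟨φ, h0, h1⟩ := hA.exists_homeo hA'
  obtain ⟨ψ, k0, k1⟩ := hB.exists_homeo hB'
  have hag : EqOn φ.toFun ψ.toFun (A ∩ B) := by
    intro x hx
    rcases hAB hx with h | h
    · rw [h, h0, k0]
    · rw [mem_singleton_iff.1 h, h1, k1]
  have himg : A' ∩ B' ⊆ φ.toFun '' (A ∩ B) := by
    intro x hx
    rcases hAB' hx with h | h
    · exact ⟨p, ⟨hA.left_mem, hB.left_mem⟩, by rw [h, h0]⟩
    · exact ⟨q, ⟨hA.right_mem, hB.right_mem⟩, by rw [mem_singleton_iff.1 h, h1]⟩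
  have e1 := ConHomeo.glue_left φ ψ hA.isClosed hB.isClosed hA'.isClosed hB'.isClosed hag himg
  have e2 := ConHomeo.glue_right φ ψ hA.isClosed hB.isClosed hA'.isClosed hB'.isClosed hag himg
  refine ⟨ConHomeo.glue φ ψ hA.isClosed hB.isClosed hA'.isClosed hB'.isClosed hag himg,
    ?_, ?_, ?_, ?_⟩
  · rw [e1 hA.left_mem, h0]
  · rw [e1 hA.right_mem, h1]
  · rw [e1.image_eq, φ.image_eq]
  · rw [e2.image_eq, ψ.image_eq]

end IsArc

theorem isArc_segment {p q : E} (h : p ≠ q) : IsArc (segment ℝ p q) p q := by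
  have hc : ConicalSet (Icc (0:ℝ) 1) := Convex.conicalSet (convex_Icc 0 1)
  have h1 : ContinuousOn (fun t : ℝ => AffineMap.lineMap p q t) (Icc (0:ℝ) 1) :=
    AffineMap.lineMap_continuous.continuousOn
  have h2 : InjOn (fun t : ℝ => AffineMap.lineMap p q t) (Icc (0:ℝ) 1) := fun t _ s _ hts =>
    (AffineMap.lineMap_injective ℝ h) hts
  have h3 : ConicalOn (fun t : ℝ => AffineMap.lineMap p q t) (Icc (0:ℝ) 1) :=
    conicalOn_of_affine (AffineMap.lineMap p q) hc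
  have h4 : (fun t : ℝ => AffineMap.lineMap p q t) '' (Icc (0:ℝ) 1) = segment ℝ p q :=
    (segment_eq_image_lineMap ℝ p q).symm
  refine ⟨ConHomeo.ofCompact isCompact_Icc _ h1 h2 h3 h4, ?_, ?_⟩
  · rw [ConHomeo.ofCompact_toFun]; simp
  · rw [ConHomeo.ofCompact_toFun]; simp

/-! ### Planar models -/

theorem isArc_lowerSquare : IsArc (segment ℝ ((-1, -1) : ℝ × ℝ) (1, -1) ∪ segment ℝ (1, -1) (1, 1))
    (-1, -1) (1, 1) := by
  refine (isArc_segment ?_).trans (isArc_segment ?_) ?_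
  · intro h; have := congrArg Prod.fst h; norm_num at this
  · intro h; have := congrArg Prod.snd h; norm_num at this
  · rintro ⟨x, y⟩ ⟨h1, h2⟩
    rw [← Prod.image_mk_segment_left] at h1
    rw [← Prod.image_mk_segment_right] at h2
    obtain ⟨a, ha, h1⟩ := h1
    obtain ⟨b, hb, h2⟩ := h2
    simp only [Prod.mk.injEq] at h1 h2
    rw [mem_singleton_iff, Prod.mk.injEq]
    exact ⟨h2.1.symm, h1.2.symm⟩

theorem isArc_upperSquare : IsArc (segment ℝ ((-1, -1) : ℝ × ℝ) (-1, 1) ∪ segment ℝ (-1, 1) (1, 1))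
    (-1, -1) (1, 1) := by
  refine (isArc_segment ?_).trans (isArc_segment ?_) ?_
  · intro h; have := congrArg Prod.snd h; norm_num at this
  · intro h; have := congrArg Prod.fst h; norm_num at this
  · rintro ⟨x, y⟩ ⟨h1, h2⟩
    rw [← Prod.image_mk_segment_right] at h1
    rw [← Prod.image_mk_segment_left] at h2
    obtain ⟨a, ha, h1⟩ := h1
    obtain ⟨b, hb, h2⟩ := h2
    simp only [Prod.mk.injEq] at h1 h2
    rw [mem_singleton_iff, Prod.mk.injEq]
    exact ⟨h1.1.symm, h2.2.symm⟩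

theorem mem_hseg {x y a b c : ℝ} (hab : a ≤ b) :
    ((x, y) : ℝ × ℝ) ∈ segment ℝ (a, c) (b, c) ↔ a ≤ x ∧ x ≤ b ∧ y = c := by
  rw [← Prod.image_mk_segment_left, segment_eq_Icc hab]
  constructor
  · rintro ⟨t, ht, h⟩
    simp only [Prod.mk.injEq] at h
    exact ⟨h.1 ▸ ht.1, h.1 ▸ ht.2, h.2.symm⟩
  · rintro ⟨h1, h2, h3⟩
    exact ⟨x, ⟨h1, h2⟩, by rw [h3]⟩

theorem mem_vseg {x y a b c : ℝ} (hab : a ≤ b) :
    ((x, y) : ℝ × ℝ) ∈ segment ℝ (c, a) (c, b) ↔ x = c ∧ a ≤ y ∧ y ≤ b := by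
  rw [← Prod.image_mk_segment_right, segment_eq_Icc hab]
  constructor
  · rintro ⟨t, ht, h⟩
    simp only [Prod.mk.injEq] at h
    exact ⟨h.1.symm, h.2 ▸ ht.1, h.2 ▸ ht.2⟩
  · rintro ⟨h1, h2, h3⟩
    exact ⟨y, ⟨h2, h3⟩, by rw [h1]⟩

theorem sphere_eq_union_arcs : sphere (0 : ℝ × ℝ) 1 =
    (segment ℝ ((-1, -1) : ℝ × ℝ) (1, -1) ∪ segment ℝ (1, -1) (1, 1)) ∪
    (segment ℝ ((-1, -1) : ℝ × ℝ) (-1, 1) ∪ segment ℝ (-1, 1) (1, 1)) := by
  ext ⟨x, y⟩
  simp only [mem_union]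
  rw [mem_hseg (by norm_num), mem_vseg (by norm_num), mem_vseg (by norm_num),
    mem_hseg (by norm_num), mem_sphere_zero_iff_norm, Prod.norm_def]
  simp only [Real.norm_eq_abs]
  constructor
  · intro h
    have h1 : |x| ≤ 1 := h ▸ le_max_left _ _
    have h2 : |y| ≤ 1 := h ▸ le_max_right _ _
    rw [abs_le] at h1 h2
    rcases max_choice |x| |y| with h3 | h3
    · rw [h3] at h
      rcases eq_or_eq_neg_of_abs_eq h with h4 | h4
      · exact Or.inl (Or.inr ⟨h4, h2.1, h2.2⟩)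
      · exact Or.inr (Or.inl ⟨h4, h2.1, h2.2⟩)
    · rw [h3] at h
      rcases eq_or_eq_neg_of_abs_eq h with h4 | h4
      · exact Or.inr (Or.inr ⟨h1.1, h1.2, h4⟩)
      · exact Or.inl (Or.inl ⟨h1.1, h1.2, h4⟩)
  · rintro ((⟨h1, h2, h3⟩ | ⟨h1, h2, h3⟩) | (⟨h1, h2, h3⟩ | ⟨h1, h2, h3⟩))
    · rw [h3, abs_neg, abs_one]; exact max_eq_right (abs_le.2 ⟨h1, h2⟩)
    · rw [h1, abs_one]; exact max_eq_left (abs_le.2 ⟨h2, h3⟩)
    · rw [h1, abs_neg, abs_one]; exact max_eq_left (abs_le.2 ⟨h2, h3⟩)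
    · rw [h3, abs_one]; exact max_eq_right (abs_le.2 ⟨h1, h2⟩)

theorem square_arcs_inter :
    (segment ℝ ((-1, -1) : ℝ × ℝ) (1, -1) ∪ segment ℝ (1, -1) (1, 1)) ∩
    (segment ℝ ((-1, -1) : ℝ × ℝ) (-1, 1) ∪ segment ℝ (-1, 1) (1, 1)) ⊆ {(-1, -1), (1, 1)} := by
  rintro ⟨x, y⟩ ⟨h1, h2⟩
  simp only [mem_union] at h1 h2
  rw [mem_hseg (by norm_num), mem_vseg (by norm_num)] at h1
  rw [mem_hseg (by norm_num), mem_vseg (by norm_num)] at h2
  simp only [mem_insert_iff, mem_singleton_iff, Prod.mk.injEq]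
  rcases h1 with ⟨a1, a2, a3⟩ | ⟨a1, a2, a3⟩ <;> rcases h2 with ⟨b1, b2, b3⟩ | ⟨b1, b2, b3⟩
  · left; exact ⟨b1, a3⟩
  · exfalso; rw [a3] at b3; norm_num at b3
  · exfalso; rw [a1] at b1; norm_num at b1
  · right; exact ⟨a1, b3⟩

/-- a set is a conical circle if it is conically homeomorphic to the boundary of the square -/
def IsCircle (C : Set E) : Prop := Nonempty (ConHomeo (sphere (0 : ℝ × ℝ) 1) C)

theorem isCircle_of_arcs {A B : Set E} {p q : E} (hA : IsArc A p q) (hB : IsArc B p q)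
    (hAB : A ∩ B ⊆ {p, q}) : IsCircle (A ∪ B) := by
  obtain ⟨φ, _⟩ := isArc_lowerSquare.exists_homeo_union isArc_upperSquare square_arcs_inter
    hA hB hAB
  exact ⟨φ.cast sphere_eq_union_arcs.symm rfl⟩

/-- every conical circle is a union of two arcs -/
theorem IsCircle.exists_arcs {C : Set E} (h : IsCircle C) :
    ∃ A B : Set E, ∃ p q : E, IsArc A p q ∧ IsArc B p q ∧ A ∩ B ⊆ {p, q} ∧ C = A ∪ B := by
  obtain ⟨φ⟩ := h
  have h1 : (segment ℝ ((-1, -1) : ℝ × ℝ) (1, -1) ∪ segment ℝ (1, -1) (1, 1)) ⊆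
      sphere (0 : ℝ × ℝ) 1 := by rw [sphere_eq_union_arcs]; exact subset_union_left
  have h2 : (segment ℝ ((-1, -1) : ℝ × ℝ) (-1, 1) ∪ segment ℝ (-1, 1) (1, 1)) ⊆
      sphere (0 : ℝ × ℝ) 1 := by rw [sphere_eq_union_arcs]; exact subset_union_right
  refine ⟨_, _, _, _, isArc_lowerSquare.image φ h1, isArc_upperSquare.image φ h2, ?_, ?_⟩
  · rw [← φ.injOn.image_inter h1 h2]
    refine (image_mono square_arcs_inter).trans ?_
    rw [image_pair]
  · rw [← image_union, ← sphere_eq_union_arcs, φ.image_eq]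

end P073
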