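import Vale.Agent.P073.SCH.Poly

/-!
# P073, block SCH: compact local cones are preserved by conical homeomorphisms (not only ambient)
-/

open Set Metric Topology Filter

namespace P073

variable {E F : Type*} [NormedAddCommGroup E] [NormedSpace ℝ E]
  [NormedAddCommGroup F] [NormedSpace ℝ F]

/-- the image of a compact local cone under a conical homeomorphism is a local cone -/
theorem LocCone.of_conHomeo {X : Set E} {Y : Set F} (hX : IsCompact X) (hc : LocCone X)
    (φ : ConHomeo X Y) : LocCone Y := by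
  intro y
  have hY : IsCompact Y := φ.isCompact_right hX
  by_cases hy : y ∈ Y
  swap
  · exact locConeAt_of_compl_mem_nhds (hY.isClosed.isOpen_compl.mem_nhds hy)
  obtain ⟨x, hx, rfl⟩ : ∃ x ∈ X, φ.toFun x = y := by
    rw [← φ.image_eq] at hy; exact hy
  obtain ⟨r₀, hr₀, H₀⟩ := hc x
  obtain ⟨r₁, hr₁, H₁⟩ := φ.conical x hx
  obtain ⟨r, hr, hrr₀, hrr₁⟩ : ∃ r : ℝ, 0 < r ∧ r ≤ r₀ ∧ r ≤ r₁ :=
    ⟨min r₀ r₁, lt_min hr₀ hr₁, min_le_left _ _, min_le_right _ _⟩
  -- lower bound on the sphere
  obtain ⟨m, hm, Hm⟩ : ∃ m > 0, ∀ z ∈ X, ‖z - x‖ = r → m ≤ ‖φ.toFun z - φ.toFun x‖ := by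
    have hS : IsCompact (X ∩ sphere x r) := hX.inter_right isClosed_sphere
    by_cases hne : (X ∩ sphere x r).Nonempty
    · obtain ⟨z, hz, hmin⟩ := hS.exists_isMinOn hne
        (f := fun z => ‖φ.toFun z - φ.toFun x‖)
        (((φ.cont.mono inter_subset_left).sub continuousOn_const).norm)
      refine ⟨‖φ.toFun z - φ.toFun x‖, ?_, fun w hw hwr => hmin ⟨hw, by
        rw [mem_sphere, dist_eq_norm]; exact hwr⟩⟩
      rw [gt_iff_lt, norm_pos_iff, sub_ne_zero]
      intro h
      have := φ.injOn hz.1 hx h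
      have h2 := hz.2
      rw [this, mem_sphere, dist_self] at h2
      exact hr.ne h2
    · exact ⟨1, one_pos, fun w hw hwr => absurd ⟨w, hw, by
        rw [mem_sphere, dist_eq_norm]; exact hwr⟩ hne⟩
  have hcont : ∀ᶠ z in 𝓝[Y] (φ.toFun x), φ.invFun z ∈ closedBall (φ.invFun (φ.toFun x)) r :=
    (φ.cont_inv _ hy) (closedBall_mem_nhds _ hr)
  obtain ⟨ρ, hρ, hb⟩ := exists_radius_of_nhdsWithin hcont
  rw [φ.left_inv hx] at hb
  refine ⟨min ρ m, lt_min hρ hm, fun w hw t ht => ⟨fun hmem => ?_, fun hmem => ?_⟩⟩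
  · have hw1 : ‖t • w‖ ≤ ρ := norm_smul_le_of_mem_Icc ⟨ht.1.le, ht.2⟩ (hw.trans (min_le_left _ _))
    have h1 : ‖φ.invFun (φ.toFun x + t • w) - x‖ ≤ r := by
      have := hb _ hw1 hmem
      rwa [mem_closedBall, dist_eq_norm] at this
    set u : E := φ.invFun (φ.toFun x + t • w) - x with hu
    have hxu : x + u = φ.invFun (φ.toFun x + t • w) := by rw [hu]; abel
    have hxuX : x + u ∈ X := hxu ▸ φ.mapsTo_inv hmem
    have hφu : φ.toFun (x + u) = φ.toFun x + t • w := by rw [hxu, φ.right_inv hmem]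
    by_cases hu0 : u = 0
    · rw [hu0, add_zero] at hφu
      have h2 : t • w = 0 := by
        have := hφu.symm
        rwa [add_eq_left] at this
      rcases smul_eq_zero.1 h2 with h3 | h3
      · exact absurd h3 ht.1.ne'
      · rw [h3, add_zero]; exact φ.mapsTo hx
    · have hupos : 0 < ‖u‖ := norm_pos_iff.2 hu0
      set u' : E := (r / ‖u‖) • u with hu'
      have hu'n : ‖u'‖ = r := by
        rw [hu', norm_smul, Real.norm_of_nonneg (by positivity)]
        field_simp
      have hsc : (‖u‖ / r) • u' = u := by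
        rw [hu', smul_smul]
        have : ‖u‖ / r * (r / ‖u‖) = 1 := by field_simp
        rw [this, one_smul]
      have hcoef : ‖u‖ / r ∈ Ioc (0:ℝ) 1 := ⟨by positivity, (div_le_one hr).2 h1⟩
      have hxu' : x + u' ∈ X := by
        rw [← H₀ u' (hu'n.le.trans hrr₀) _ hcoef, hsc]; exact hxuX
      have h3 := (H₁ u' (hu'n.le.trans hrr₁) hxu' _ ⟨hcoef.1.le, hcoef.2⟩).2
      rw [hsc, hφu] at h3
      have h4 : t • w = (‖u‖ / r) • (φ.toFun (x + u') - φ.toFun x) := add_left_cancel h3
      set c : ℝ := t⁻¹ * (‖u‖ / r) with hcdef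
      have hw' : w = c • (φ.toFun (x + u') - φ.toFun x) := by
        rw [hcdef, mul_smul, ← h4, smul_smul, inv_mul_cancel₀ ht.1.ne', one_smul]
      have hc0 : 0 ≤ c := mul_nonneg (inv_nonneg.2 ht.1.le) hcoef.1.le
      have hc1 : c ≤ 1 := by
        have h5 : ‖w‖ = c * ‖φ.toFun (x + u') - φ.toFun x‖ := by
          conv_lhs => rw [hw']
          rw [norm_smul, Real.norm_of_nonneg hc0]
        have h6 : m ≤ ‖φ.toFun (x + u') - φ.toFun x‖ := Hm _ hxu' (by
          rw [add_sub_cancel_left]; exact hu'n)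
        have h7 : ‖w‖ ≤ m := hw.trans (min_le_right _ _)
        by_contra hlt
        push Not at hlt
        have : m < c * ‖φ.toFun (x + u') - φ.toFun x‖ := by
          calc m ≤ ‖φ.toFun (x + u') - φ.toFun x‖ := h6
            _ = 1 * ‖φ.toFun (x + u') - φ.toFun x‖ := (one_mul _).symm
            _ < c * ‖φ.toFun (x + u') - φ.toFun x‖ :=
              mul_lt_mul_of_pos_right hlt (hm.trans_le h6)
        linarith
      obtain ⟨h8, h9⟩ := H₁ u' (hu'n.le.trans hrr₁) hxu' c ⟨hc0, hc1⟩
      rw [← hw'] at h9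
      rw [← h9]
      exact φ.mapsTo h8
  · have hw1 : ‖w‖ ≤ ρ := hw.trans (min_le_left _ _)
    have h1 : ‖φ.invFun (φ.toFun x + w) - x‖ ≤ r := by
      have := hb _ hw1 hmem
      rwa [mem_closedBall, dist_eq_norm] at this
    set u : E := φ.invFun (φ.toFun x + w) - x with hu
    have hxu : x + u = φ.invFun (φ.toFun x + w) := by rw [hu]; abel
    have hxuX : x + u ∈ X := hxu ▸ φ.mapsTo_inv hmem
    have hφu : φ.toFun (x + u) = φ.toFun x + w := by rw [hxu, φ.right_inv hmem]
    obtain ⟨h2, h3⟩ := H₁ u (h1.trans hrr₁) hxuX t ⟨ht.1.le, ht.2⟩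
    rw [hφu, add_sub_cancel_left] at h3
    rw [← h3]
    exact φ.mapsTo h2

theorem locCone_Icc (a b : ℝ) : LocCone (Icc a b) := by
  have hc : ConicalOn (fun x : ℝ => x) univ := conicalOn_id (IsOpen.conicalSet isOpen_univ)
  exact (locCone_setOf_ge continuous_id hc a).inter (locCone_setOf_le continuous_id hc b)

theorem IsArc.locCone {A : Set E} {p q : E} (h : IsArc A p q) : LocCone A := by
  obtain ⟨φ, _, _⟩ := h
  exact LocCone.of_conHomeo isCompact_Icc (locCone_Icc 0 1) φ

theorem locCone_segment {p q : E} : LocCone (segment ℝ p q) := by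
  by_cases h : p = q
  · rw [h, segment_same]
    intro x
    by_cases hx : x = q
    · subst hx
      refine ⟨1, one_pos, fun v _ t ht => ?_⟩
      simp only [mem_singleton_iff, add_eq_left, smul_eq_zero]
      exact ⟨fun h => h.resolve_left ht.1.ne', Or.inr⟩
    · exact locConeAt_of_compl_mem_nhds (isClosed_singleton.isOpen_compl.mem_nhds hx)
  · exact (isArc_segment h).locCone

theorem SCH.locCone_pcar (l : List E) : LocCone (SCH.pcar l) := by
  induction l with
  | nil => exact locCone_empty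
  | cons a l ih =>
    cases l with
    | nil =>
      have := locCone_segment (p := a) (q := a)
      rwa [segment_same] at this
    | cons b l => exact locCone_segment.union ih

theorem isClosed_segment' (p q : E) : IsClosed (segment ℝ p q) := by
  by_cases h : p = q
  · rw [h, segment_same]; exact isClosed_singleton
  · exact (isArc_segment h).isClosed

theorem SCH.isClosed_pcar (l : List E) : IsClosed (SCH.pcar l) := by
  induction l with
  | nil => exact isClosed_empty
  | cons a l ih =>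
    cases l with
    | nil => exact isClosed_singleton
    | cons b l => exact (isClosed_segment' a b).union ih

theorem locCone_closedBall_prod (r : ℝ) : LocCone (closedBall (0 : ℝ × ℝ) r) := by
  have h1 : ConicalOn (fun p : ℝ × ℝ => p.1) univ := conicalOn_clm (ContinuousLinearMap.fst ℝ ℝ ℝ)
  have h2 : ConicalOn (fun p : ℝ × ℝ => p.2) univ := conicalOn_clm (ContinuousLinearMap.snd ℝ ℝ ℝ)
  have : closedBall (0 : ℝ × ℝ) r = ({p | -r ≤ p.1} ∩ {p | p.1 ≤ r}) ∩
      ({p | -r ≤ p.2} ∩ {p | p.2 ≤ r}) := by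
    ext ⟨x, y⟩
    rw [mem_closedBall_zero_iff, Prod.norm_def]
    simp only [Real.norm_eq_abs, max_le_iff, abs_le, mem_inter_iff, mem_ofPred_eq]
  rw [this]
  exact ((locCone_setOf_ge continuous_fst h1 _).inter (locCone_setOf_le continuous_fst h1 _)).inter
    ((locCone_setOf_ge continuous_snd h2 _).inter (locCone_setOf_le continuous_snd h2 _))

theorem locCone_sphere_prod : LocCone (sphere (0 : ℝ × ℝ) 1) := by
  rw [← frontier_closedBall _ one_ne_zero]
  exact (locCone_closedBall_prod 1).frontier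

theorem IsCircle.locCone {C : Set E} (h : IsCircle C) : LocCone C := by
  obtain ⟨φ⟩ := h
  exact LocCone.of_conHomeo (isCompact_sphere _ _) locCone_sphere_prod φ

theorem IsCircle.isCompact {C : Set E} (h : IsCircle C) : IsCompact C := by
  obtain ⟨φ⟩ := h
  exact φ.isCompact_right (isCompact_sphere _ _)

theorem ConBall.locCone {n : ℕ} {C B : Set E} (h : ConBall n C B) : LocCone C := by
  obtain ⟨_, φ, _⟩ := h
  exact LocCone.of_conHomeo (isCompact_closedBall _ _) (locCone_closedBall_pi n 1) φ.symm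

theorem locCone_sphere_pi (n : ℕ) : LocCone (sphere (0 : Fin n → ℝ) 1) := by
  rcases Nat.eq_zero_or_pos n with h | h
  · subst h
    have : sphere (0 : Fin 0 → ℝ) 1 = ∅ := by
      ext x
      rw [mem_sphere_zero_iff_norm]
      have : x = 0 := Subsingleton.elim _ _
      rw [this, norm_zero]
      simp
    rw [this]; exact locCone_empty
  · have : Nonempty (Fin n) := ⟨⟨0, h⟩⟩
    have h1 : sphere (0 : Fin n → ℝ) 1 = frontier (closedBall 0 1) :=
      (frontier_closedBall _ one_ne_zero).symm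
    rw [h1]
    exact (locCone_closedBall_pi n 1).frontier

theorem ConBall.locCone_bdry {n : ℕ} {C B : Set E} (h : ConBall n C B) : LocCone B := by
  have hB := h.conicalSet_bdry
  obtain ⟨hBC, φ, hφ⟩ := h
  exact LocCone.of_conHomeo (isCompact_sphere _ _) (locCone_sphere_pi n)
    ((φ.restr hB hBC).cast rfl hφ).symm

end P073
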