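import Vale.Agent.P073.SCH.Arc

/-!
# P073, block SCH: periodic conical parametrisation of conical circles
-/

open Set Metric Topology Filter

namespace P073

variable {E : Type*} [NormedAddCommGroup E] [NormedSpace ℝ E]

/-- `γ` is a 1-periodic conical parametrisation of the circle `Γ`, injective modulo the period -/
structure CircleParam (Γ : Set E) (γ : ℝ → E) : Prop where
  cont : Continuous γ
  conical : ConicalOn γ univ
  periodic : ∀ t, γ (t + 1) = γ t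
  inj : ∀ s t, γ s = γ t → ∃ n : ℤ, s = t + n
  range_eq : range γ = Γ

namespace CircleParam

variable {Γ : Set E} {γ : ℝ → E}

theorem add_int (h : CircleParam Γ γ) (t : ℝ) (n : ℤ) : γ (t + n) = γ t := by
  have hp : Function.Periodic γ 1 := h.periodic
  have := hp.int_mul n t
  simpa using this

theorem injOn (h : CircleParam Γ γ) {a b : ℝ} (hb : b < a + 1) : InjOn γ (Icc a b) := by
  intro s hs t ht hst
  obtain ⟨n, hn⟩ := h.inj s t hst
  have h1 : ((n:ℤ):ℝ) < 1 := by linarith [hs.2, ht.1]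
  have h2 : (-1:ℝ) < ((n:ℤ):ℝ) := by linarith [hs.1, ht.2]
  have h3 : n < 1 := by exact_mod_cast h1
  have h4 : -1 < n := by exact_mod_cast h2
  have h5 : n = 0 := by omega
  rw [hn, h5]; simp

/-- sub-arcs of a circle -/
theorem isArc (h : CircleParam Γ γ) {a b : ℝ} (hab : a < b) (hb : b < a + 1) :
    IsArc (γ '' Icc a b) (γ a) (γ b) := by
  have hc : ConicalSet (Icc a b) := Convex.conicalSet (convex_Icc a b)
  refine IsArc.of_param hab (ConHomeo.ofCompact isCompact_Icc γ h.cont.continuousOn (h.injOn hb)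
    (h.conical.mono hc (subset_univ _)) rfl) ?_ ?_
  · rw [ConHomeo.ofCompact_toFun]
  · rw [ConHomeo.ofCompact_toFun]

theorem mem (h : CircleParam Γ γ) (t : ℝ) : γ t ∈ Γ := h.range_eq ▸ mem_range_self t

theorem exists_mem_Ico (h : CircleParam Γ γ) (s : ℝ) {x : E} (hx : x ∈ Γ) :
    ∃ t ∈ Ico s (s + 1), γ t = x := by
  rw [← h.range_eq] at hx
  obtain ⟨u, rfl⟩ := hx
  refine ⟨u - ⌊u - s⌋, ⟨?_, ?_⟩, ?_⟩
  · have := Int.floor_le (u - s); linarith
  · have := Int.lt_floor_add_one (u - s); linarith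
  · have := h.add_int u (-⌊u - s⌋)
    rw [← this]; push_cast; ring_nf

/-- a closed connected nontrivial proper subset of a circle is an arc -/
theorem exists_Icc (h : CircleParam Γ γ) {G : Set E} (hG : IsClosed G) (hGc : IsPreconnected G)
    (hGn : G.Nontrivial) (hGΓ : G ⊆ Γ) (hne : ∃ p ∈ Γ, p ∉ G) :
    ∃ a b : ℝ, 0 ≤ a ∧ a < 1 ∧ a < b ∧ b < a + 1 ∧ G = γ '' Icc a b := by
  obtain ⟨p, hp, hpG⟩ := hne
  obtain ⟨s, -, hs⟩ := h.exists_mem_Ico 0 hp
  -- the preimage in `(s, s+1)`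
  set P : Set ℝ := Icc s (s + 1) ∩ γ ⁻¹' G with hP
  have hPc : IsCompact P := isCompact_Icc.inter_right (hG.preimage h.cont)
  have hPim : γ '' P = G := by
    apply Subset.antisymm
    · rintro _ ⟨t, ht, rfl⟩; exact ht.2
    · intro x hx
      obtain ⟨t, ht, rfl⟩ := h.exists_mem_Ico s (hGΓ hx)
      exact ⟨t, ⟨⟨ht.1, ht.2.le⟩, hx⟩, rfl⟩
  have hs0 : s ∉ P := fun hsP => hpG (hs ▸ hsP.2)
  have hs1 : s + 1 ∉ P := fun hsP => hpG (hs ▸ (h.periodic s) ▸ hsP.2)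
  have hPinj : InjOn γ P := by
    intro u hu v hv huv
    obtain ⟨n, hn⟩ := h.inj u v huv
    have hu1 : u ≠ s := fun h' => hs0 (h' ▸ hu)
    have hu2 : u ≠ s + 1 := fun h' => hs1 (h' ▸ hu)
    have hv1 : v ≠ s := fun h' => hs0 (h' ▸ hv)
    have hv2 : v ≠ s + 1 := fun h' => hs1 (h' ▸ hv)
    have a1 := lt_of_le_of_ne hu.1.1 hu1.symm
    have a2 := lt_of_le_of_ne hu.1.2 hu2
    have a3 := lt_of_le_of_ne hv.1.1 hv1.symm
    have a4 := lt_of_le_of_ne hv.1.2 hv2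
    have h1 : ((n:ℤ):ℝ) < 1 := by linarith
    have h2 : (-1:ℝ) < ((n:ℤ):ℝ) := by linarith
    have h3 : n < 1 := by exact_mod_cast h1
    have h4 : -1 < n := by exact_mod_cast h2
    have h5 : n = 0 := by omega
    rw [hn, h5]; simp
  -- `P` is preconnected: the inverse of a continuous bijection of compact sets
  have hPpre : IsPreconnected P := by
    rw [isPreconnected_closed_iff]
    intro t t' ht ht' hcov ⟨x, hx, hxt⟩ ⟨y, hy, hyt⟩
    have k1 : IsClosed (γ '' (P ∩ t)) := ((hPc.inter_right ht).image h.cont).isClosed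
    have k2 : IsClosed (γ '' (P ∩ t')) := ((hPc.inter_right ht').image h.cont).isClosed
    rw [isPreconnected_closed_iff] at hGc
    obtain ⟨z, hz, ⟨u, hu, hu'⟩, ⟨v, hv, hv'⟩⟩ := hGc _ _ k1 k2 (by
        intro z hz
        rw [← hPim] at hz
        obtain ⟨u, hu, rfl⟩ := hz
        rcases hcov hu with h' | h'
        · exact Or.inl ⟨u, ⟨hu, h'⟩, rfl⟩
        · exact Or.inr ⟨u, ⟨hu, h'⟩, rfl⟩)
      ⟨γ x, hPim ▸ mem_image_of_mem _ hx, ⟨x, ⟨hx, hxt⟩, rfl⟩⟩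
      ⟨γ y, hPim ▸ mem_image_of_mem _ hy, ⟨y, ⟨hy, hyt⟩, rfl⟩⟩
    have : u = v := hPinj hu.1 hv.1 (hu'.trans hv'.symm)
    exact ⟨u, hu.1, hu.2, this ▸ hv.2⟩
  have hPne : P.Nonempty := by
    obtain ⟨x, hx⟩ := hGn.nonempty
    rw [← hPim] at hx
    obtain ⟨t, ht, _⟩ := hx
    exact ⟨t, ht⟩
  obtain ⟨a', ha'⟩ := hPc.exists_isLeast hPne
  obtain ⟨b', hb'⟩ := hPc.exists_isGreatest hPne
  have hPI : P = Icc a' b' := by
    apply Subset.antisymm
    · exact fun t ht => ⟨ha'.2 ht, hb'.2 ht⟩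
    · exact hPpre.Icc_subset ha'.1 hb'.1
  have hab' : a' < b' := by
    apply lt_of_le_of_ne (ha'.2 hb'.1)
    intro heq
    obtain ⟨x, hx, y, hy, hxy⟩ := hGn
    rw [← hPim, hPI, heq, Icc_self, image_singleton] at hx hy
    exact hxy (hx.trans hy.symm)
  have a1 : s < a' := lt_of_le_of_ne ha'.1.1.1 (fun h' => hs0 (h' ▸ ha'.1))
  have b1 : b' < s + 1 := lt_of_le_of_ne hb'.1.1.2 (fun h' => hs1 (h' ▸ hb'.1))
  refine ⟨a' - ⌊a'⌋, b' - ⌊a'⌋, ?_, ?_, by linarith, by linarith, ?_⟩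
  · have := Int.floor_le a'; linarith
  · have := Int.lt_floor_add_one a'; linarith
  · rw [← hPim, hPI]
    ext x
    constructor
    · rintro ⟨t, ht, rfl⟩
      refine ⟨t - ⌊a'⌋, ⟨by linarith [ht.1], by linarith [ht.2]⟩, ?_⟩
      have := h.add_int t (-⌊a'⌋)
      rw [← this]; push_cast; ring_nf
    · rintro ⟨t, ht, rfl⟩
      refine ⟨t + ⌊a'⌋, ⟨by linarith [ht.1], by linarith [ht.2]⟩, h.add_int t _⟩

end CircleParam

/-- conical at an interior gluing point -/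
theorem ConicalWithinAt.of_left_right {γ : ℝ → E} {n : ℝ}
    (hl : ∃ r > 0, ∀ v : ℝ, -r ≤ v → v ≤ 0 → ∀ t ∈ Icc (0:ℝ) 1,
      γ (n + t * v) = γ n + t • (γ (n + v) - γ n))
    (hr : ∃ r > 0, ∀ v : ℝ, 0 ≤ v → v ≤ r → ∀ t ∈ Icc (0:ℝ) 1,
      γ (n + t * v) = γ n + t • (γ (n + v) - γ n)) :
    ConicalWithinAt γ univ n := by
  obtain ⟨r, hr0, H⟩ := hl
  obtain ⟨r', hr0', H'⟩ := hr
  refine ⟨min r r', lt_min hr0 hr0', fun v hv _ t ht => ⟨mem_univ _, ?_⟩⟩
  rw [Real.norm_eq_abs, abs_le] at hv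
  rcases le_total v 0 with h | h
  · exact H v (by linarith [hv.1, min_le_left r r']) h t ht
  · exact H' v h (by linarith [hv.2, min_le_right r r']) t ht

/-- every conical circle has a periodic conical parametrisation -/
theorem IsCircle.exists_param {Γ : Set E} (h : IsCircle Γ) : ∃ γ, CircleParam Γ γ := by
  classical
  obtain ⟨A, B, p, q, hA, hB, hAB, rfl⟩ := h.exists_arcs
  obtain ⟨φ, f0, f1⟩ := hA.exists_param (show (0:ℝ) < 1/2 by norm_num)
  obtain ⟨ψ, g0, g1⟩ := hB.symm.exists_param (show (1/2:ℝ) < 1 by norm_num)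
  set γ₀ : ℝ → E := fun t => if t ≤ 1/2 then φ.toFun t else ψ.toFun t with hγ₀
  have e1 : EqOn γ₀ φ.toFun (Icc 0 (1/2)) := by
    intro t ht
    simp only [hγ₀]
    rw [if_pos ht.2]
  have e2 : EqOn γ₀ ψ.toFun (Icc (1/2) 1) := by
    intro t ht
    simp only [hγ₀]
    rcases eq_or_lt_of_le ht.1 with h | h
    · rw [if_pos h.ge, ← h, f1, g0]
    · rw [if_neg (not_le.2 h)]
  have hun : Icc (0:ℝ) (1/2) ∪ Icc (1/2) 1 = Icc 0 1 :=
    Icc_union_Icc_eq_Icc (by norm_num) (by norm_num)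
  have hcont : ContinuousOn γ₀ (Icc 0 1) := by
    rw [← hun]
    exact ContinuousOn.union_of_isClosed (φ.cont.congr e1) (ψ.cont.congr e2) isClosed_Icc
      isClosed_Icc
  have hcon : ConicalOn γ₀ (Icc 0 1) := by
    rw [← hun]
    refine ConicalOn.union (φ.conical.congr e1) (ψ.conical.congr e2) ?_ ?_
    · intro x _ hcl; rwa [isClosed_Icc.closure_eq] at hcl
    · intro x _ hcl; rwa [isClosed_Icc.closure_eq] at hcl
  have h0 : γ₀ 0 = p := by rw [e1 ⟨le_refl _, by norm_num⟩, f0]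
  have h1 : γ₀ 1 = p := by rw [e2 ⟨by norm_num, le_refl _⟩, g1]
  have hinj : InjOn γ₀ (Ico 0 1) := by
    have hA' : ∀ t ∈ Icc (0:ℝ) (1/2), γ₀ t ∈ A := fun t ht => by rw [e1 ht]; exact φ.mapsTo ht
    have hB' : ∀ t ∈ Icc (1/2:ℝ) 1, γ₀ t ∈ B := fun t ht => by rw [e2 ht]; exact ψ.mapsTo ht
    -- mixed case
    have mixed : ∀ s t : ℝ, 0 ≤ s → s ≤ 1/2 → 1/2 < t → t < 1 → γ₀ s = γ₀ t → False := by
      intro s t hs hs' ht ht' hst
      have a1 := hA' s ⟨hs, hs'⟩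
      have a2 := hB' t ⟨ht.le, ht'.le⟩
      rw [← hst] at a2
      rcases hAB ⟨a1, a2⟩ with h | h
      · rw [hst, e2 ⟨ht.le, ht'.le⟩, ← g1] at h
        have := ψ.injOn ⟨ht.le, ht'.le⟩ ⟨by norm_num, le_refl _⟩ h
        exact ht'.ne this
      · rw [mem_singleton_iff, hst, e2 ⟨ht.le, ht'.le⟩, ← g0] at h
        have := ψ.injOn ⟨ht.le, ht'.le⟩ ⟨le_refl _, by norm_num⟩ h
        exact ht.ne' this
    intro s hs t ht hst
    rcases le_or_gt s (1/2) with hs' | hs' <;> rcases le_or_gt t (1/2) with ht' | ht'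
    · rw [e1 ⟨hs.1, hs'⟩, e1 ⟨ht.1, ht'⟩] at hst
      exact φ.injOn ⟨hs.1, hs'⟩ ⟨ht.1, ht'⟩ hst
    · exact (mixed s t hs.1 hs' ht' ht.2 hst).elim
    · exact (mixed t s ht.1 ht' hs' hs.2 hst.symm).elim
    · rw [e2 ⟨hs'.le, hs.2.le⟩, e2 ⟨ht'.le, ht.2.le⟩] at hst
      exact ψ.injOn ⟨hs'.le, hs.2.le⟩ ⟨ht'.le, ht.2.le⟩ hst
  have him : γ₀ '' Ico 0 1 = A ∪ B := by
    apply Subset.antisymm
    · rintro _ ⟨t, ht, rfl⟩
      rcases le_or_gt t (1/2) with ht' | ht'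
      · left; rw [e1 ⟨ht.1, ht'⟩]; exact φ.mapsTo ⟨ht.1, ht'⟩
      · right; rw [e2 ⟨ht'.le, ht.2.le⟩]; exact ψ.mapsTo ⟨ht'.le, ht.2.le⟩
    · rintro x (hx | hx)
      · obtain ⟨t, ht, rfl⟩ : x ∈ φ.toFun '' Icc 0 (1/2) := by rw [φ.image_eq]; exact hx
        exact ⟨t, ⟨ht.1, lt_of_le_of_lt ht.2 (by norm_num)⟩, e1 ht⟩
      · obtain ⟨t, ht, rfl⟩ : x ∈ ψ.toFun '' Icc (1/2) 1 := by rw [ψ.image_eq]; exact hx
        rcases eq_or_lt_of_le ht.2 with h | h
        · refine ⟨0, ⟨le_refl _, zero_lt_one⟩, ?_⟩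
          rw [h0, h, g1]
        · exact ⟨t, ⟨by linarith [ht.1], h⟩, e2 ht⟩
  refine ⟨γ₀ ∘ Int.fract, ContinuousOn.comp_fract'' hcont (h0.trans h1.symm), ?_, ?_, ?_, ?_⟩
  · -- conical
    intro x _
    -- values near `x`
    have hfr : ∀ y : ℝ, (⌊x⌋ : ℝ) ≤ y → y ≤ ⌊x⌋ + 1 → (γ₀ ∘ Int.fract) y = γ₀ (y - ⌊x⌋) := by
      intro y hy1 hy2
      rcases eq_or_lt_of_le hy2 with h | h
      · have : Int.fract y = 0 := by
          rw [h]
          have : ((⌊x⌋:ℝ) + 1) = (((⌊x⌋ + 1 : ℤ)) : ℝ) := by push_cast; ring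
          rw [this, Int.fract_intCast]
        show γ₀ (Int.fract y) = _
        rw [this, h, h0]
        have : (⌊x⌋:ℝ) + 1 - ⌊x⌋ = 1 := by ring
        rw [this, h1]
      · have : ⌊y⌋ = ⌊x⌋ := Int.floor_eq_iff.2 ⟨hy1, h⟩
        show γ₀ (Int.fract y) = _
        rw [Int.fract, this]
    have hx0 := Int.floor_le x
    have hx1 := Int.lt_floor_add_one x
    have hxI : x - ⌊x⌋ ∈ Icc (0:ℝ) 1 := ⟨by linarith, by linarith⟩
    obtain ⟨r, hr, H⟩ := hcon _ hxI
    have hscale : ∀ v : ℝ, |v| ≤ r → (⌊x⌋ : ℝ) ≤ x + v → x + v ≤ ⌊x⌋ + 1 → ∀ t ∈ Icc (0:ℝ) 1,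
        (γ₀ ∘ Int.fract) (x + t * v) = (γ₀ ∘ Int.fract) x +
          t • ((γ₀ ∘ Int.fract) (x + v) - (γ₀ ∘ Int.fract) x) := by
      intro v hv h2 h3 t ht
      have hb : (⌊x⌋ : ℝ) ≤ x + t * v ∧ x + t * v ≤ ⌊x⌋ + 1 := by
        rcases le_total v 0 with hv0 | hv0
        · constructor
          · nlinarith [ht.1, ht.2]
          · have := mul_nonpos_of_nonneg_of_nonpos ht.1 hv0; linarith
        · constructor
          · have := mul_nonneg ht.1 hv0; linarith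
          · nlinarith [ht.1, ht.2]
      rw [hfr _ hb.1 hb.2, hfr _ h2 h3, hfr x hx0 hx1.le]
      have e1 : x + v - ⌊x⌋ = (x - ⌊x⌋) + v := by ring
      have e2 : x + t * v - ⌊x⌋ = (x - ⌊x⌋) + t • v := by rw [smul_eq_mul]; ring
      rw [e1, e2]
      exact (H v (by rw [Real.norm_eq_abs]; exact hv)
        (by rw [← e1]; exact ⟨by linarith, by linarith⟩) t ht).2
    rcases eq_or_lt_of_le hx0 with hi | hi
    · -- integer point
      have hxn : x = ⌊x⌋ := hi.symm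
      -- left side: use the conicality at 1
      obtain ⟨r', hr', H'⟩ := hcon 1 ⟨zero_le_one, le_refl _⟩
      have hfl : ∀ y : ℝ, (⌊x⌋ : ℝ) - 1 ≤ y → y ≤ ⌊x⌋ → (γ₀ ∘ Int.fract) y = γ₀ (y - ⌊x⌋ + 1) := by
        intro y hy1 hy2
        rcases eq_or_lt_of_le hy2 with h | h
        · have : Int.fract y = 0 := by rw [h, Int.fract_intCast]
          show γ₀ (Int.fract y) = _
          rw [this, h, h0]
          have : (⌊x⌋:ℝ) - ⌊x⌋ + 1 = 1 := by ring
          rw [this, h1]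
        · have : ⌊y⌋ = ⌊x⌋ - 1 := Int.floor_eq_iff.2 ⟨by push_cast; linarith, by push_cast; linarith⟩
          show γ₀ (Int.fract y) = _
          rw [Int.fract, this]
          push_cast
          congr 1; ring
      refine ConicalWithinAt.of_left_right ⟨min r' 1, lt_min hr' one_pos, ?_⟩
        ⟨min r 1, lt_min hr one_pos, ?_⟩
      · intro v hv1 hv2 t ht
        have hvr : -r' ≤ v := by linarith [min_le_left r' 1]
        have hv1' : -1 ≤ v := by linarith [min_le_right r' 1]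
        have hb : (⌊x⌋ : ℝ) - 1 ≤ x + t * v ∧ x + t * v ≤ ⌊x⌋ := by
          constructor
          · nlinarith [ht.1, ht.2]
          · have := mul_nonpos_of_nonneg_of_nonpos ht.1 hv2; linarith
        rw [hfl _ hb.1 hb.2, hfl (x + v) (by linarith) (by linarith), hfl x (by linarith) hxn.le]
        have e1 : x + v - ⌊x⌋ + 1 = 1 + v := by linarith
        have e2 : x + t * v - ⌊x⌋ + 1 = 1 + t • v := by rw [smul_eq_mul]; linarith
        have e3 : x - ⌊x⌋ + 1 = 1 := by linarith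
        rw [e1, e2, e3]
        exact (H' v (by rw [Real.norm_eq_abs, abs_of_nonpos hv2]; linarith)
          ⟨by linarith, by linarith⟩ t ht).2
      · intro v hv1 hv2 t ht
        refine hscale v ?_ (by linarith) (by linarith [min_le_right r 1]) t ht
        rw [abs_of_nonneg hv1]; linarith [min_le_left r 1]
    · -- non-integer point
      refine ⟨min r (min (x - ⌊x⌋) (⌊x⌋ + 1 - x)), by
        refine lt_min hr (lt_min (by linarith) (by linarith)), fun v hv _ t ht => ⟨mem_univ _, ?_⟩⟩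
      rw [Real.norm_eq_abs] at hv
      have hv1 := hv.trans (min_le_left _ _)
      have hv2 := (hv.trans (min_le_right _ _)).trans (min_le_left _ _)
      have hv3 := (hv.trans (min_le_right _ _)).trans (min_le_right _ _)
      rw [abs_le] at hv2 hv3
      exact hscale v hv1 (by linarith [hv2.1]) (by linarith [hv3.2]) t ht
  · intro t
    show γ₀ (Int.fract (t + 1)) = γ₀ (Int.fract t)
    rw [Int.fract_add_one]
  · intro s t hst
    have := hinj ⟨Int.fract_nonneg s, Int.fract_lt_one s⟩ ⟨Int.fract_nonneg t, Int.fract_lt_one t⟩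
      hst
    refine ⟨⌊s⌋ - ⌊t⌋, ?_⟩
    rw [Int.fract, Int.fract] at this
    push_cast; linarith
  · rw [range_comp]
    have : range (Int.fract : ℝ → ℝ) = Ico 0 1 := by
      ext t
      constructor
      · rintro ⟨s, rfl⟩; exact ⟨Int.fract_nonneg s, Int.fract_lt_one s⟩
      · intro ht; exact ⟨t, Int.fract_eq_self.2 ht⟩
    rw [this, him]

end P073
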