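import Vale.Agent.P073.SCH.Crosscut
import Vale.Agent.P073.SCH.CircleParam

/-!
# P073, block SCH: the minimal disc lemma (MIN) for the stack theorem
-/

open Set Metric Topology Filter

namespace P073.SCH

theorem ambDisc_iff {D C : Set (ℝ × ℝ)} : H339.AmbDisc D C ↔ AmbDisc D ∧ frontier D = C := by
  constructor
  · rintro ⟨Φ, rfl, rfl⟩
    refine ⟨⟨Φ, rfl⟩, ?_⟩
    rw [← Φ.image_frontier, frontier_square]
  · rintro ⟨⟨Φ, rfl⟩, rfl⟩
    refine ⟨Φ, rfl, ?_⟩
    rw [← Φ.image_frontier, frontier_square]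

/-! ### Finitely many discs with boundary in a finite union of lines -/

/-- the affine function with coefficients `t` -/
def lin (t : ℝ × ℝ × ℝ) (x : ℝ × ℝ) : ℝ := t.1 * x.1 + t.2.1 * x.2 + t.2.2

theorem continuous_lin (t : ℝ × ℝ × ℝ) : Continuous (lin t) := by unfold lin; fun_prop

/-- `s` is a finite set of lines covering `Z` -/
def CoverLines (s : Finset (ℝ × ℝ × ℝ)) (Z : Set (ℝ × ℝ)) : Prop :=
  (∀ t ∈ s, t.1 ≠ 0 ∨ t.2.1 ≠ 0) ∧ ∀ x ∈ Z, ∃ t ∈ s, lin t x = 0

theorem CoverLines.union {s s' : Finset (ℝ × ℝ × ℝ)} [DecidableEq (ℝ × ℝ × ℝ)]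
    {Z Z' : Set (ℝ × ℝ)} (h : CoverLines s Z) (h' : CoverLines s' Z') :
    CoverLines (s ∪ s') (Z ∪ Z') := by
  refine ⟨fun t ht => ?_, fun x hx => ?_⟩
  · rcases Finset.mem_union.1 ht with ht | ht
    · exact h.1 t ht
    · exact h'.1 t ht
  · rcases hx with hx | hx
    · obtain ⟨t, ht, hx⟩ := h.2 x hx
      exact ⟨t, Finset.mem_union_left _ ht, hx⟩
    · obtain ⟨t, ht, hx⟩ := h'.2 x hx
      exact ⟨t, Finset.mem_union_right _ ht, hx⟩

theorem exists_coverLines_segment (a b : ℝ × ℝ) : ∃ s, CoverLines s (segment ℝ a b) := by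
  classical
  by_cases hab : a = b
  · subst hab
    refine ⟨{(1, 0, -a.1)}, ?_, ?_⟩
    · intro t ht
      rw [Finset.mem_singleton] at ht
      rw [ht]; exact Or.inl one_ne_zero
    · intro x hx
      rw [segment_same, mem_singleton_iff] at hx
      refine ⟨_, Finset.mem_singleton_self _, ?_⟩
      rw [hx]; unfold lin; simp
  · refine ⟨{(b.2 - a.2, a.1 - b.1, -((b.2 - a.2) * a.1 + (a.1 - b.1) * a.2))}, ?_, ?_⟩
    · intro t ht
      rw [Finset.mem_singleton] at ht
      rw [ht]
      by_contra hcon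
      push Not at hcon
      apply hab
      exact Prod.ext (by linarith [hcon.2]) (by linarith [hcon.1])
    · intro x hx
      obtain ⟨u, _, e1, e2⟩ := mem_segment_prod hx
      refine ⟨_, Finset.mem_singleton_self _, ?_⟩
      unfold lin
      simp only
      rw [e1, e2]; ring

theorem exists_coverLines_pcar (l : List (ℝ × ℝ)) : ∃ s, CoverLines s (pcar l) := by
  classical
  induction l with
  | nil => exact ⟨∅, by simp, by simp⟩
  | cons a l ih =>
    cases l with
    | nil =>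
      obtain ⟨s, hs⟩ := exists_coverLines_segment a a
      rw [segment_same] at hs
      exact ⟨s, hs⟩
    | cons b l =>
      obtain ⟨s, hs⟩ := ih
      obtain ⟨s', hs'⟩ := exists_coverLines_segment a b
      exact ⟨s' ∪ s, hs'.union hs⟩

theorem exists_coverLines_circle {C : Set (ℝ × ℝ)} (h : IsCircle C) : ∃ s, CoverLines s C := by
  obtain ⟨l, hl, rfl⟩ := exists_cpoly_of_isCircle h
  cases l with
  | nil => exact absurd hl id
  | cons b m => exact exists_coverLines_pcar _

theorem exists_coverLines_biUnion (G : Finset (Set (ℝ × ℝ))) (hG : ∀ d ∈ G, IsCircle d) :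
    ∃ s, CoverLines s (⋃ d ∈ G, d) := by
  classical
  induction G using Finset.induction_on with
  | empty => exact ⟨∅, by simp, by simp⟩
  | insert a G ha ih =>
    obtain ⟨s, hs⟩ := ih fun d hd => hG d (Finset.mem_insert_of_mem hd)
    obtain ⟨s', hs'⟩ := exists_coverLines_circle (hG a (Finset.mem_insert_self _ _))
    refine ⟨s' ∪ s, ?_⟩
    rw [Finset.set_biUnion_insert]
    exact hs'.union hs

theorem dense_lin_ne {t : ℝ × ℝ × ℝ} (ht : t.1 ≠ 0 ∨ t.2.1 ≠ 0) :
    Dense {x : ℝ × ℝ | lin t x ≠ 0} := by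
  obtain ⟨L, hL⟩ : ∃ L : Set (ℝ × ℝ), ∀ x, x ∈ L ↔ lin t x = 0 := ⟨{x | lin t x = 0}, fun _ => Iff.rfl⟩
  have e : {x : ℝ × ℝ | lin t x ≠ 0} = Lᶜ := by
    ext x
    exact not_congr (hL x).symm
  rw [e, ← interior_eq_empty_iff_dense_compl, eq_empty_iff_forall_notMem]
  intro x hx
  have hx0 : lin t x = 0 := (hL x).1 (interior_subset hx)
  rw [mem_interior_iff_mem_nhds] at hx
  have hc : Continuous fun ε : ℝ => x + ε • ((t.1, t.2.1) : ℝ × ℝ) := by fun_prop
  have h1 : ∀ᶠ ε : ℝ in 𝓝 0, x + ε • ((t.1, t.2.1) : ℝ × ℝ) ∈ L :=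
    hc.continuousAt.preimage_mem_nhds (by simpa using hx)
  have h2 : ∀ᶠ ε : ℝ in 𝓝[>] 0, x + ε • ((t.1, t.2.1) : ℝ × ℝ) ∈ L ∧ 0 < ε :=
    (h1.filter_mono nhdsWithin_le_nhds).and self_mem_nhdsWithin
  obtain ⟨ε, h3, hε⟩ := h2.exists
  have h4 : lin t (x + ε • ((t.1, t.2.1) : ℝ × ℝ)) = lin t x + ε * (t.1 * t.1 + t.2.1 * t.2.1) := by
    unfold lin
    simp only [Prod.fst_add, Prod.snd_add, Prod.smul_mk, smul_eq_mul]
    ring
  rw [hL, h4, hx0, zero_add] at h3
  rcases mul_eq_zero.1 h3 with h | h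
  · exact hε.ne' h
  · have a1 := mul_self_nonneg t.1
    have a2 := mul_self_nonneg t.2.1
    rcases ht with h' | h'
    · exact h' (mul_self_eq_zero.1 (by linarith))
    · exact h' (mul_self_eq_zero.1 (by linarith))

theorem dense_open_lines {s : Finset (ℝ × ℝ × ℝ)} (hs : ∀ t ∈ s, t.1 ≠ 0 ∨ t.2.1 ≠ 0) :
    IsOpen {x : ℝ × ℝ | ∀ t ∈ s, lin t x ≠ 0} ∧ Dense {x : ℝ × ℝ | ∀ t ∈ s, lin t x ≠ 0} := by
  classical
  induction s using Finset.induction_on with
  | empty => simp
  | insert a s ha ih =>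
    obtain ⟨h1, h2⟩ := ih fun t ht => hs t (Finset.mem_insert_of_mem ht)
    have e : {x : ℝ × ℝ | ∀ t ∈ insert a s, lin t x ≠ 0} =
        {x | lin a x ≠ 0} ∩ {x | ∀ t ∈ s, lin t x ≠ 0} := by
      ext x
      simp only [Finset.mem_insert, mem_ofPred_eq, mem_inter_iff]
      constructor
      · intro h; exact ⟨h a (Or.inl rfl), fun t ht => h t (Or.inr ht)⟩
      · rintro ⟨h, h'⟩ t (rfl | ht)
        · exact h
        · exact h' t ht
    have o1 : IsOpen {x : ℝ × ℝ | lin a x ≠ 0} :=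
      isOpen_ne_fun (continuous_lin a) continuous_const
    rw [e]
    exact ⟨o1.inter h1, (dense_lin_ne (hs a (Finset.mem_insert_self _ _))).inter_of_isOpen_left h2 o1⟩

/-- there are only finitely many discs with boundary in a given finite union of lines -/
theorem finite_discs {s : Finset (ℝ × ℝ × ℝ)} {Z : Set (ℝ × ℝ)} (hs : CoverLines s Z) :
    {D : Set (ℝ × ℝ) | AmbDisc D ∧ frontier D ⊆ Z}.Finite := by
  classical
  obtain ⟨hopen, hdense⟩ := dense_open_lines hs.1
  -- the signature of a disc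
  let pos : ℝ × ℝ → Finset (ℝ × ℝ × ℝ) := fun x => s.filter fun t => 0 < lin t x
  let sg : Set (ℝ × ℝ) → Set (Finset (ℝ × ℝ × ℝ)) := fun D =>
    pos '' (interior D ∩ {x | ∀ t ∈ s, lin t x ≠ 0})
  have hsgfin : (sg '' {D : Set (ℝ × ℝ) | AmbDisc D ∧ frontier D ⊆ Z}).Finite := by
    have h1 : (↑s.powerset : Set (Finset (ℝ × ℝ × ℝ))).Finite := s.powerset.finite_toSet
    refine h1.finite_subsets.subset ?_
    rintro _ ⟨D, _, rfl⟩
    show sg D ⊆ _
    rintro _ ⟨x, _, rfl⟩
    exact Finset.mem_coe.2 (Finset.mem_powerset.2 (Finset.filter_subset _ _))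
  refine Set.Finite.of_finite_image hsgfin ?_
  -- injectivity
  have key : ∀ D D' : Set (ℝ × ℝ), AmbDisc D → AmbDisc D' → frontier D' ⊆ Z → sg D = sg D' →
      D ⊆ D' := by
    intro D D' hD hD' hf hsg
    have h1 : interior D ∩ {x | ∀ t ∈ s, lin t x ≠ 0} ⊆ interior D' := by
      rintro x ⟨hx, hxs⟩
      have h2 : pos x ∈ sg D' := by rw [← hsg]; exact ⟨x, ⟨hx, hxs⟩, rfl⟩
      obtain ⟨x', ⟨hx', hxs'⟩, hpos⟩ := h2
      -- the cell
      let cell : Set (ℝ × ℝ) := {z | ∀ t ∈ s, 0 < lin t x * lin t z}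
      have hconv : Convex ℝ cell := by
        have e : cell = ⋂ t ∈ s, {z | 0 < lin t x * lin t z} := by
          ext z; simp [cell]
        rw [e]
        refine convex_iInter₂ fun t _ => ?_
        have e2 : {z : ℝ × ℝ | 0 < lin t x * lin t z} =
            {z : ℝ × ℝ | -(lin t x * t.2.2) < lin t x * (t.1 * z.1 + t.2.1 * z.2)} := by
          ext z
          simp only [mem_ofPred_eq]
          unfold lin
          constructor <;> intro h <;> linarith
        rw [e2]
        refine convex_halfSpace_gt (f := fun z : ℝ × ℝ => lin t x * (t.1 * z.1 + t.2.1 * z.2)) ?_ _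
        exact ⟨fun a b => by simp only [Prod.fst_add, Prod.snd_add]; ring,
          fun c a => by simp only [Prod.smul_fst, Prod.smul_snd, smul_eq_mul]; ring⟩
      have hxc : x ∈ cell := fun t ht => mul_self_pos.2 (hxs t ht)
      have hx'c : x' ∈ cell := by
        intro t ht
        have h3 : (0 < lin t x ↔ 0 < lin t x') := by
          have e1 : t ∈ pos x' ↔ t ∈ pos x := by rw [hpos]
          simp only [pos, Finset.mem_filter] at e1
          exact ⟨fun h => (e1.2 ⟨ht, h⟩).2, fun h => (e1.1 ⟨ht, h⟩).2⟩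
        rcases lt_or_gt_of_ne (hxs t ht) with h4 | h4
        · have h5 : lin t x' < 0 := by
            rcases lt_or_gt_of_ne (hxs' t ht) with h | h
            · exact h
            · exact absurd (h3.2 h) (not_lt.2 h4.le)
          exact mul_pos_of_neg_of_neg h4 h5
        · exact mul_pos h4 (h3.1 h4)
      have hdisj : Disjoint cell (frontier D') := by
        rw [Set.disjoint_left]
        intro z hz hzf
        obtain ⟨t, ht, h0⟩ := hs.2 z (hf hzf)
        have := hz t ht
        rw [h0, mul_zero] at this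
        exact lt_irrefl _ this
      rcases subset_interior_or_compl hconv.isPreconnected hdisj with h | h
      · exact h hxc
      · rw [hD'.isClosed.closure_eq] at h
        exact absurd (interior_subset hx') (h hx'c)
    have h2 : interior D ⊆ closure (interior D ∩ {x | ∀ t ∈ s, lin t x ≠ 0}) :=
      hdense.open_subset_closure_inter isOpen_interior
    rw [← hD.closure_interior]
    refine closure_minimal (h2.trans (closure_minimal (h1.trans interior_subset) hD'.isClosed))
      hD'.isClosed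
  intro D hD D' hD' hsg
  exact (key D D' hD.1 hD'.1 hD'.2 hsg).antisymm (key D' D hD'.1 hD.1 hD.2 hsg.symm)

/-! ### The minimal disc lemma -/

/-- **MIN.** -/
theorem exists_min_disc {D C K : Set (ℝ × ℝ)} {G : Finset (Set (ℝ × ℝ))}
    (hD : H339.AmbDisc D C) (hG : ∀ d ∈ G, IsCircle d)
    (hdis : ∀ d ∈ G, ∀ d' ∈ G, d ≠ d' → Disjoint d d')
    (hin : ∀ d ∈ G, ¬ d ⊆ D \ C)
    (hshare : ∀ d ∈ G, ∀ y ∈ C ∩ d, ∃ v : ℝ × ℝ, v ≠ 0 ∧ ∀ t ∈ Icc (0:ℝ) 1, y + t • v ∈ C ∩ d)
    (hCK : C ⊆ K) (hGK : ∀ d ∈ G, d ⊆ K)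
    (hO : ∀ O : Set (ℝ × ℝ), IsPreconnected O → O ⊆ D \ C → (∀ d ∈ G, Disjoint O d) →
      O ⊆ K ∨ Disjoint O K) :
    D \ C ⊆ K ∨ ∃ E B, H339.AmbDisc E B ∧ E ⊆ D ∧ E ∩ K = B := by
  classical
  rw [ambDisc_iff] at hD
  obtain ⟨hD, rfl⟩ := hD
  by_cases hsub : D \ frontier D ⊆ K
  · exact Or.inl hsub
  right
  obtain ⟨y, ⟨hyD, hyC⟩, hyK⟩ := not_subset.1 hsub
  set Z : Set (ℝ × ℝ) := frontier D ∪ ⋃ d ∈ G, d with hZ
  have hDcirc : IsCircle (frontier D) := hD.frontier_isCircle
  obtain ⟨s, hs⟩ : ∃ s, CoverLines s Z := by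
    obtain ⟨s₁, h1⟩ := exists_coverLines_circle hDcirc
    obtain ⟨s₂, h2⟩ := exists_coverLines_biUnion G hG
    exact ⟨s₁ ∪ s₂, h1.union h2⟩
  have hZK : Z ⊆ K := union_subset hCK (iUnion₂_subset hGK)
  -- minimal disc
  have hfin : {D' : Set (ℝ × ℝ) | (AmbDisc D' ∧ frontier D' ⊆ Z) ∧ y ∈ D' ∧ D' ⊆ D}.Finite :=
    (finite_discs hs).subset fun D' h => h.1
  obtain ⟨D', hD', hmin⟩ := hfin.exists_minimal ⟨D, ⟨hD, subset_union_left⟩, hyD, subset_rfl⟩
  obtain ⟨⟨hDA, hDZ⟩, hyD', hD'D⟩ := hD'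
  have hmin' : ∀ D'' : Set (ℝ × ℝ), AmbDisc D'' → frontier D'' ⊆ Z → y ∈ D'' → D'' ⊆ D' →
      D' ⊆ D'' := fun D'' a1 a2 a3 a4 => hmin ⟨⟨a1, a2⟩, a3, a4.trans hD'D⟩ a4
  have hyi : y ∈ interior D' := by
    by_contra h
    exact hyK (hZK (hDZ (by rw [hDA.isClosed.frontier_eq]; exact ⟨hyD', h⟩)))
  have hint : interior D' ⊆ D \ frontier D := by
    intro x hx
    have hx2 : x ∈ interior D := interior_mono hD'D hx
    exact ⟨interior_subset hx2, fun h => h.2 hx2⟩
  -- the interior misses `G`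
  have hmiss : ∀ d ∈ G, Disjoint (interior D') d := by
    intro d hd
    rw [Set.disjoint_left]
    intro w hw hwd
    obtain ⟨γ, hγ⟩ := (hG d hd).exists_param
    obtain ⟨s₀, -, hs₀⟩ := hγ.exists_mem_Ico 0 hwd
    have hwf : w ∉ frontier D' := fun h => h.2 hw
    -- the times on the frontier
    set T : Set ℝ := Icc s₀ (s₀ + 1) ∩ γ ⁻¹' frontier D' with hT
    have hTc : IsCompact T := isCompact_Icc.inter_right (isClosed_frontier.preimage hγ.cont)
    have hTne : T.Nonempty := by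
      -- otherwise `d` is inside
      by_contra hne
      rw [not_nonempty_iff_eq_empty] at hne
      have hdc : IsPreconnected d := by
        rw [← hγ.range_eq, ← image_univ]
        exact isPreconnected_univ.image _ hγ.cont.continuousOn
      have hdd : Disjoint d (frontier D') := by
        rw [Set.disjoint_left]
        intro x hx hxf
        obtain ⟨t, ht, rfl⟩ := hγ.exists_mem_Ico s₀ hx
        have : t ∈ T := ⟨⟨ht.1, ht.2.le⟩, hxf⟩
        rw [hne] at this
        exact this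
      rcases subset_interior_or_compl hdc hdd with h | h
      · exact hin d hd (h.trans hint)
      · rw [hDA.isClosed.closure_eq] at h
        exact h hwd (interior_subset hw)
    obtain ⟨t₁, ht₁, ht₁min⟩ := hTc.exists_isLeast hTne
    obtain ⟨t₂, ht₂, ht₂max⟩ := hTc.exists_isGreatest hTne
    have hs₀1 : γ (s₀ + 1) = w := by rw [hγ.periodic, hs₀]
    have l1 : s₀ < t₁ := by
      apply lt_of_le_of_ne ht₁.1.1
      intro h
      apply hwf
      rw [← hs₀, h]; exact ht₁.2
    have l2 : t₂ < s₀ + 1 := by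
      apply lt_of_le_of_ne ht₂.1.2
      intro h
      apply hwf
      rw [← hs₀1, ← h]; exact ht₂.2
    -- the open arc is inside
    have hoff : ∀ t ∈ Ioo (t₂ - 1) t₁, γ t ∉ frontier D' := by
      intro t ht hf
      rcases le_or_gt s₀ t with h | h
      · have := ht₁min (show t ∈ T from ⟨⟨h, by linarith [ht.2, ht₁.1.2]⟩, hf⟩)
        linarith [ht.2]
      · have h2 : γ (t + 1) ∈ frontier D' := by rw [hγ.periodic]; exact hf
        have := ht₂max (show t + 1 ∈ T from ⟨⟨by linarith [ht.1, ht₂.1.1], by linarith⟩, h2⟩)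
        linarith [ht.1]
    have hopen : γ '' Ioo (t₂ - 1) t₁ ⊆ interior D' := by
      have hpre : IsPreconnected (γ '' Ioo (t₂ - 1) t₁) :=
        isPreconnected_Ioo.image _ hγ.cont.continuousOn
      have hdisj : Disjoint (γ '' Ioo (t₂ - 1) t₁) (frontier D') := by
        rw [Set.disjoint_left]
        rintro _ ⟨t, ht, rfl⟩
        exact hoff t ht
      have hwm : w ∈ γ '' Ioo (t₂ - 1) t₁ := ⟨s₀, ⟨by linarith, l1⟩, hs₀⟩
      rcases subset_interior_or_compl hpre hdisj with h | h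
      · exact h
      · rw [hDA.isClosed.closure_eq] at h
        exact absurd (interior_subset hw) (h hwm)
    have hγ2 : γ (t₂ - 1) = γ t₂ := by
      have := hγ.periodic (t₂ - 1)
      rw [sub_add_cancel] at this
      exact this.symm
    rcases lt_or_eq_of_le (ht₁min ht₂) with hlt | heq
    · -- crosscut
      set α : Set (ℝ × ℝ) := γ '' Icc (t₂ - 1) t₁ with hα
      have hαarc : IsArc α (γ (t₂ - 1)) (γ t₁) := hγ.isArc (by linarith) (by linarith)
      have hαd : α ⊆ d := by
        rintro _ ⟨t, _, rfl⟩; exact hγ.mem t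
      have hends : ∀ t ∈ Icc (t₂ - 1) t₁, γ t ∈ frontier D' → γ t = γ (t₂ - 1) ∨ γ t = γ t₁ := by
        intro t ht hf
        rcases eq_or_lt_of_le ht.1 with h | h
        · left; rw [h]
        rcases eq_or_lt_of_le ht.2 with h' | h'
        · right; rw [h']
        · exact absurd hf (hoff t ⟨h, h'⟩)
      have hαD : α ⊆ D' := by
        rintro _ ⟨t, ht, rfl⟩
        rcases eq_or_lt_of_le ht.1 with h | h
        · rw [← h, hγ2]; exact hDA.isClosed.frontier_subset ht₂.2
        rcases eq_or_lt_of_le ht.2 with h' | h'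
        · rw [h']; exact hDA.isClosed.frontier_subset ht₁.2
        · exact interior_subset (hopen ⟨t, ⟨h, h'⟩, rfl⟩)
      have hαf : α ∩ frontier D' ⊆ {γ (t₂ - 1), γ t₁} := by
        rintro _ ⟨⟨t, ht, rfl⟩, hf⟩
        rcases hends t ht hf with h | h
        · exact Or.inl h
        · exact Or.inr h
      obtain ⟨B₁, B₂, hB₁, hB₂, hB12, hBe⟩ := H339.IsCircle.arcs_through hDA.frontier_isCircle
        (p := γ (t₂ - 1)) (q := γ t₁) (by rw [hγ2]; exact ht₂.2) ht₁.2 hαarc.ne
      have hA : H339.AmbDisc D' (B₁ ∪ B₂) := ambDisc_iff.2 ⟨hDA, hBe⟩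
      obtain ⟨D₁, D₂, c1, c2, c3, c4, c5, c6⟩ := sch.crosscut hA hB₁ hB₂ hαarc hB12 hαD
        (fun x hx => hαf ⟨hx.1, by rw [hBe]; exact Or.inl hx.2⟩)
        (fun x hx => hαf ⟨hx.1, by rw [hBe]; exact Or.inr hx.2⟩)
      rw [ambDisc_iff] at c1 c2
      have hBZ : B₁ ∪ B₂ ⊆ Z := by rw [← hBe]; exact hDZ
      have hαZ : α ⊆ Z := fun x hx => Or.inr (mem_iUnion₂.2 ⟨d, hd, hαd hx⟩)
      have hyy : y ∈ D₁ ∪ D₂ := by rw [← c3]; exact hyD'
      rcases hyy with hy | hy
      · have h1 := hmin' D₁ c1.1 (by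
          rw [c1.2]; exact union_subset (subset_union_left.trans hBZ) hαZ) hy (by
          rw [c3]; exact subset_union_left)
        have h2 : B₂ ⊆ D' := by
          refine Subset.trans ?_ hDA.isClosed.frontier_subset
          rw [hBe]; exact subset_union_right
        exact H339.IsArc.not_subset_pair hB₂ (fun x hx => c5 ⟨hx, h1 (h2 hx)⟩)
      · have h1 := hmin' D₂ c2.1 (by
          rw [c2.2]; exact union_subset (subset_union_right.trans hBZ) hαZ) hy (by
          rw [c3]; exact subset_union_right)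
        have h2 : B₁ ⊆ D' := by
          refine Subset.trans ?_ hDA.isClosed.frontier_subset
          rw [hBe]; exact subset_union_left
        exact H339.IsArc.not_subset_pair hB₁ (fun x hx => c6 ⟨hx, h1 (h2 hx)⟩)
    · -- tangency at one point
      set p := γ t₁ with hp
      have hdp : ∀ x ∈ d, x ≠ p → x ∈ interior D' := by
        intro x hx hxp
        obtain ⟨t, ht, rfl⟩ := hγ.exists_mem_Ico (t₂ - 1) hx
        have ht' : t < t₁ := by rw [heq]; linarith [ht.2]
        rcases eq_or_lt_of_le ht.1 with h | h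
        · exfalso
          apply hxp
          rw [← h, hγ2, ← heq]
        · exact hopen ⟨t, ⟨h, ht'⟩, rfl⟩
      have hpd : p ∈ d := hγ.mem t₁
      have hpf : p ∈ frontier D' := ht₁.2
      by_cases hpC : p ∈ frontier D
      · obtain ⟨v, hv, hvt⟩ := hshare d hd p ⟨hpC, hpd⟩
        have h1 := hvt 1 ⟨zero_le_one, le_refl _⟩
        rw [one_smul] at h1
        have h2 : p + v ≠ p := fun h => hv (by simpa using h)
        exact (hint (hdp _ h1.2 h2)).2 h1.1
      · -- near `p` the frontier of `D'` is in `d`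
        have hcl : IsClosed (frontier D ∪ ⋃ d' ∈ G.erase d, d') := by
          refine isClosed_frontier.union ?_
          refine Set.Finite.isClosed_biUnion (G.erase d).finite_toSet fun d' hd' => ?_
          exact (hG d' (Finset.mem_of_mem_erase hd')).isCompact.isClosed
        have hpn : p ∉ frontier D ∪ ⋃ d' ∈ G.erase d, d' := by
          rintro (h | h)
          · exact hpC h
          · obtain ⟨d', hd', hpd'⟩ := mem_iUnion₂.1 h
            rw [Finset.mem_erase] at hd'
            exact Set.disjoint_left.1 (hdis d' hd'.2 d hd hd'.1) hpd' hpd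
        have hnhds : (frontier D ∪ ⋃ d' ∈ G.erase d, d')ᶜ ∈ 𝓝 p := hcl.isOpen_compl.mem_nhds hpn
        -- the circle `frontier D'` has no isolated point
        obtain ⟨γ', hγ'⟩ := hDA.frontier_isCircle.exists_param
        obtain ⟨u, -, hu⟩ := hγ'.exists_mem_Ico 0 hpf
        have hcont : ∀ᶠ v in 𝓝 u, γ' v ∈ (frontier D ∪ ⋃ d' ∈ G.erase d, d')ᶜ :=
          hγ'.cont.continuousAt.preimage_mem_nhds (by rw [hu]; exact hnhds)
        have hev : ∀ᶠ v in 𝓝[>] u, (γ' v ∈ (frontier D ∪ ⋃ d' ∈ G.erase d, d')ᶜ ∧ v < u + 1) ∧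
            u < v :=
          ((hcont.and (eventually_lt_nhds (by linarith))).filter_mono nhdsWithin_le_nhds).and
            self_mem_nhdsWithin
        obtain ⟨v, ⟨hv1, hv2⟩, hv3⟩ := hev.exists
        have hvne : γ' v ≠ p := by
          rw [← hu]
          intro h
          obtain ⟨m, hm⟩ := hγ'.inj v u h
          have h1 : (0:ℝ) < ((m:ℤ):ℝ) := by linarith
          have h2 : ((m:ℤ):ℝ) < 1 := by linarith
          have h3 : 0 < m := by exact_mod_cast h1
          have h4 : m < 1 := by exact_mod_cast h2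
          omega
        have hvf : γ' v ∈ frontier D' := hγ'.mem v
        have hvd : γ' v ∈ d := by
          rcases hDZ hvf with h | h
          · exact absurd (Or.inl h) hv1
          · obtain ⟨d', hd', hvd'⟩ := mem_iUnion₂.1 h
            by_cases hdd : d' = d
            · rw [← hdd]; exact hvd'
            · exact absurd (Or.inr (mem_iUnion₂.2 ⟨d', Finset.mem_erase.2 ⟨hdd, hd'⟩, hvd'⟩)) hv1
        exact hvf.2 (hdp _ hvd hvne)
  -- conclusion
  have hdisjK : Disjoint (interior D') K := by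
    rcases hO (interior D') hDA.isConnected_interior.isPreconnected hint hmiss with h | h
    · exact absurd (h hyi) hyK
    · exact h
  refine ⟨D', frontier D', ambDisc_iff.2 ⟨hDA, rfl⟩, hD'D, ?_⟩
  apply Subset.antisymm
  · rintro x ⟨hx1, hx2⟩
    rw [hDA.isClosed.frontier_eq]
    exact ⟨hx1, fun h => Set.disjoint_left.1 hdisjK h hx2⟩
  · exact fun x hx => ⟨hDA.isClosed.frontier_subset hx, hZK (hDZ hx)⟩

end P073.SCH
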