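import Vale.Agent.P073.SCH.PolyDisc
import Vale.Agent.P073.H339.Extract

/-!
# P073, block SCH: **the conical Schoenflies theorem in the plane**
-/

open Set Metric Topology Filter

namespace P073.SCH

/-- a conical circle is the carrier of a simple closed polygon -/
theorem exists_cpoly_of_isCircle {E : Type*} [NormedAddCommGroup E] [NormedSpace ℝ E] {C : Set E}
    (h : IsCircle C) : ∃ l : List E, CPoly l ∧ ccar l = C := by
  obtain ⟨A, B, p, q, hA, hB, hAB, rfl⟩ := h.exists_arcs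
  obtain ⟨l₁, hs₁, hc₁⟩ := H339.exists_psimple_of_isArc hA
  obtain ⟨l₂, hs₂, hc₂⟩ := H339.exists_psimple_of_isArc hB.symm
  rcases List.eq_nil_or_concat l₂ with h2 | ⟨l₂', z, h2⟩
  · subst h2
    simp only [List.nil_append] at hs₂ hc₂
    rw [pcar_pair] at hc₂
    refine ⟨p :: (l₁ ++ [q]), ?_, ?_⟩
    · rw [cpoly_cons_append]
      refine ⟨?_, hs₁, ?_⟩
      · rintro rfl
        simp only [List.nil_append] at hc₁ hs₁
        rw [pcar_pair] at hc₁
        have hne : p ≠ q := hs₁.1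
        have hmid : midpoint ℝ p q ∈ ({p, q} : Set E) := hAB ⟨by
          rw [← hc₁]; exact midpoint_mem_segment p q, by
          rw [← hc₂, segment_symm]; exact midpoint_mem_segment p q⟩
        rcases hmid with h | h
        · exact hne ((midpoint_eq_left_iff (R := ℝ)).1 h)
        · exact hne ((midpoint_eq_right_iff (R := ℝ)).1 (mem_singleton_iff.1 h))
      · rw [hc₂, hc₁, pair_comm, inter_comm]; exact hAB
    · rw [ccar_cons_append, hc₁, hc₂]
  · have h2' : l₂ = l₂' ++ [z] := by rw [h2]; simp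
    subst h2'
    have e0 : q :: (l₂' ++ [z] ++ [p]) = (q :: l₂') ++ z :: [p] := by simp
    rw [e0] at hs₂ hc₂
    obtain ⟨k1, k2, k3⟩ := (psimple_append _ _ _).1 hs₂
    rw [pcar_append] at hc₂
    rw [pcar_pair] at hc₂ k3
    simp only [List.cons_append] at k1 k3 hc₂
    have hzp : z ≠ p := k2.1
    have hpn : p ∉ pcar (q :: (l₂' ++ [z])) := fun hp =>
      hzp (mem_singleton_iff.1 (k3 ⟨hp, right_mem_segment ℝ z p⟩)).symm
    have e1 : p :: ((l₁ ++ q :: l₂') ++ [z]) = (p :: l₁) ++ q :: (l₂' ++ [z]) := by simp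
    have hcar : pcar (p :: ((l₁ ++ q :: l₂') ++ [z])) = A ∪ pcar (q :: (l₂' ++ [z])) := by
      rw [e1, pcar_append]
      simp only [List.cons_append]
      rw [hc₁]
    refine ⟨p :: ((l₁ ++ q :: l₂') ++ [z]), ?_, ?_⟩
    · rw [cpoly_cons_append]
      refine ⟨by simp, ?_, ?_⟩
      · rw [e1, psimple_append]
        refine ⟨hs₁, k1, ?_⟩
        simp only [List.cons_append]
        rw [hc₁]
        rintro x ⟨hx1, hx2⟩
        rcases hAB ⟨hx1, hc₂ ▸ Or.inl hx2⟩ with h | h
        · exact absurd (h ▸ hx2) hpn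
        · exact h
      · rw [hcar]
        rintro x ⟨hx1, hx2 | hx2⟩
        · rcases hAB ⟨hx2, hc₂ ▸ Or.inr hx1⟩ with h | h
          · exact Or.inr h
          · left
            refine k3 ⟨?_, hx1⟩
            rw [mem_singleton_iff.1 h]
            exact head_mem_pcar q _
        · exact Or.inl (k3 ⟨hx2, hx1⟩)
    · rw [ccar_cons_append, hcar, union_assoc, hc₂]

/-- **Conical Schoenflies theorem in the plane**: every conical circle in the plane is the frontier
of the image of the square under an ambient conical homeomorphism. -/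
theorem schoenflies {C : Set (ℝ × ℝ)} (h : IsCircle C) : ∃ D, AmbDisc D ∧ frontier D = C := by
  obtain ⟨l, hl, rfl⟩ := exists_cpoly_of_isCircle h
  exact bounds_cpoly l.length l le_rfl hl

/-- **Strong form**: every conical homeomorphism from the boundary of the square onto a planar set
extends to an ambient conical homeomorphism. -/
theorem schoenflies_extend {C : Set (ℝ × ℝ)} (φ : ConHomeo (sphere (0 : ℝ × ℝ) 1) C) :
    ∃ Φ : ConHomeo (univ : Set (ℝ × ℝ)) (univ : Set (ℝ × ℝ)), EqOn Φ.toFun φ.toFun (sphere 0 1) := by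
  obtain ⟨D, hD, hf⟩ := schoenflies ⟨φ⟩
  obtain ⟨Φ, h1, _⟩ := hD.exists_marked (isCompact_closedBall (0:ℝ × ℝ) 1) (convex_closedBall _ _)
    (by rw [interior_closedBall _ one_ne_zero]; exact nonempty_ball.2 one_pos)
    (φ.cast frontier_square.symm hf.symm)
  exact ⟨Φ, fun x hx => h1 (by rw [frontier_square]; exact hx)⟩

/-- the same with an arbitrary convex body as the model -/
theorem schoenflies_extend_convex {K C : Set (ℝ × ℝ)} (hK : IsCompact K) (hc : Convex ℝ K)
    (hi : (interior K).Nonempty) (hKc : IsCircle (frontier K)) (φ : ConHomeo (frontier K) C) :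
    ∃ Φ : ConHomeo (univ : Set (ℝ × ℝ)) (univ : Set (ℝ × ℝ)), EqOn Φ.toFun φ.toFun (frontier K) := by
  obtain ⟨ψ⟩ := hKc
  obtain ⟨D, hD, hf⟩ := schoenflies ⟨ψ.trans φ⟩
  obtain ⟨Φ, h1, _⟩ := hD.exists_marked hK hc hi (φ.cast rfl hf.symm)
  exact ⟨Φ, h1⟩

/-- **Jordan curve theorem** for conical circles -/
theorem jordan {C : Set (ℝ × ℝ)} (h : IsCircle C) : ∃! D : Set (ℝ × ℝ), AmbDisc D ∧ frontier D = C := by
  obtain ⟨D, hD, hf⟩ := schoenflies h
  exact ⟨D, ⟨hD, hf⟩, fun D' hD' => hD'.1.eq_of_frontier_eq hD (hD'.2.trans hf.symm)⟩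

/-- every planar conical homeomorphism between circles extends to an ambient conical
homeomorphism -/
theorem exists_extend_circles {C C' : Set (ℝ × ℝ)} (h : IsCircle C) (φ : ConHomeo C C') :
    ∃ Φ : ConHomeo (univ : Set (ℝ × ℝ)) (univ : Set (ℝ × ℝ)), EqOn Φ.toFun φ.toFun C := by
  obtain ⟨ψ⟩ := h
  obtain ⟨Ψ, hΨ⟩ := schoenflies_extend ψ
  obtain ⟨Φ, hΦ⟩ := schoenflies_extend (ψ.trans φ)
  refine ⟨Ψ.symm.trans Φ, fun x hx => ?_⟩
  have hx' : ψ.invFun x ∈ sphere (0 : ℝ × ℝ) 1 := ψ.mapsTo_inv hx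
  have h1 : Ψ.invFun x = ψ.invFun x := by
    have : Ψ.toFun (ψ.invFun x) = x := by rw [hΨ hx', ψ.right_inv hx]
    rw [← this, Ψ.inv_apply, this]
  show Φ.toFun (Ψ.invFun x) = φ.toFun x
  rw [h1, hΦ hx']
  show φ.toFun (ψ.toFun (ψ.invFun x)) = φ.toFun x
  rw [ψ.right_inv hx]

end P073.SCH
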