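import Vale.Agent.P073.SCH.DiscIn

/-!
# P073, block SCH: finite families of disjoint planar conical circles
-/

open Set Metric Topology Filter

namespace P073.SCH

theorem AmbDisc.interior_preconnected_compl {D : Set (ℝ × ℝ)} (h : AmbDisc D) :
    IsPreconnected (interior D)ᶜ := by
  obtain ⟨Φ, rfl⟩ := h
  rw [← Φ.image_interior, interior_closedBall _ one_ne_zero, ← Φ.image_compl]
  exact isPreconnected_compl_ball.image _ Φ.continuous.continuousOn

theorem AmbDisc.isPreconnected_frontier {D : Set (ℝ × ℝ)} (h : AmbDisc D) :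
    IsPreconnected (frontier D) := by
  obtain ⟨Φ, rfl⟩ := h
  rw [← Φ.image_frontier, frontier_square]
  refine (isPreconnected_sphere ?_ _ _).image _ Φ.continuous.continuousOn
  rw [rank_prod', Module.rank_self]
  exact_mod_cast (show (1:ℕ) < 1 + 1 by norm_num)

theorem AmbDisc.frontier_nonempty {D : Set (ℝ × ℝ)} (h : AmbDisc D) : (frontier D).Nonempty := by
  obtain ⟨Φ, rfl⟩ := h
  rw [← Φ.image_frontier, frontier_square]
  exact (NormedSpace.sphere_nonempty.2 zero_le_one).image _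

theorem AmbDisc.frontier_subset {D : Set (ℝ × ℝ)} (h : AmbDisc D) : frontier D ⊆ D :=
  h.isClosed.frontier_subset

theorem AmbDisc.union_eq {D : Set (ℝ × ℝ)} (h : AmbDisc D) : interior D ∪ frontier D = D := by
  rw [h.isClosed.frontier_eq, union_sdiff_cancel interior_subset]

theorem AmbDisc.not_frontier_interior {D : Set (ℝ × ℝ)} : Disjoint (interior D) (frontier D) := by
  rw [Set.disjoint_left]
  exact fun x h1 h2 => h2.2 h1

/-- if the boundary of a disc is inside another disc then the disc is inside -/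
theorem AmbDisc.subset_interior_of_frontier {D D' : Set (ℝ × ℝ)} (h : AmbDisc D)
    (h' : AmbDisc D') (hf : frontier D ⊆ interior D') : D ⊆ interior D' := by
  have hd : Disjoint (interior D')ᶜ (frontier D) := disjoint_compl_left_iff_subset.2 hf
  rcases subset_interior_or_compl (AmbDisc.interior_preconnected_compl h') hd with h1 | h1
  · exact absurd (h.isCompact.isBounded.subset (h1.trans interior_subset))
      (not_isBounded_compl (h'.isCompact.isBounded.subset interior_subset))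
  · rw [h.isClosed.closure_eq, compl_subset_compl] at h1
    exact h1

/-- two discs with disjoint boundaries are nested or disjoint -/
theorem AmbDisc.nested {D₁ D₂ : Set (ℝ × ℝ)} (h₁ : AmbDisc D₁) (h₂ : AmbDisc D₂)
    (hd : Disjoint (frontier D₁) (frontier D₂)) :
    D₁ ⊆ interior D₂ ∨ D₂ ⊆ interior D₁ ∨ Disjoint D₁ D₂ := by
  rcases subset_interior_or_compl (AmbDisc.isPreconnected_frontier h₁) hd with a | a
  · exact Or.inl (AmbDisc.subset_interior_of_frontier h₁ h₂ a)
  rcases subset_interior_or_compl (AmbDisc.isPreconnected_frontier h₂) hd.symm with b | b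
  · exact Or.inr (Or.inl (AmbDisc.subset_interior_of_frontier h₂ h₁ b))
  right; right
  rw [h₂.isClosed.closure_eq] at a
  rw [h₁.isClosed.closure_eq] at b
  -- the interior of `D₁` misses the frontier of `D₂`
  have hi : Disjoint (interior D₁) (frontier D₂) := by
    rw [Set.disjoint_left]
    exact fun x hx hx2 => b hx2 (interior_subset hx)
  rcases subset_interior_or_compl h₁.isConnected_interior.isPreconnected hi with c | c
  · exfalso
    obtain ⟨x, hx⟩ := AmbDisc.frontier_nonempty h₁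
    have h3 : x ∈ closure (interior D₁) := by
      rw [h₁.closure_interior]; exact AmbDisc.frontier_subset h₁ hx
    have h4 : closure (interior D₁) ⊆ D₂ :=
      h₂.isClosed.closure_subset_iff.2 (c.trans interior_subset)
    exact a hx (h4 h3)
  · rw [h₂.isClosed.closure_eq] at c
    rw [Set.disjoint_left]
    intro x hx hx2
    rw [← AmbDisc.union_eq h₁] at hx
    rcases hx with hx | hx
    · exact c hx hx2
    · exact a hx hx2

/-- removing a closed disc from a connected open set does not disconnect it -/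
theorem isPreconnected_diff_std {U : Set (ℝ × ℝ)} (hU : IsOpen U) (hUc : IsPreconnected U)
    (hB : closedBall (0 : ℝ × ℝ) 1 ⊆ U) : IsPreconnected (U \ closedBall 0 1) := by
  obtain ⟨δ, hδ, hδU⟩ := (isCompact_closedBall (0 : ℝ × ℝ) 1).exists_cthickening_subset_open hU hB
  have hr : closedBall (0 : ℝ × ℝ) (1 + δ) ⊆ U := by
    refine Subset.trans ?_ hδU
    rw [cthickening_closedBall hδ.le zero_le_one, add_comm]
  set r : ℝ := 1 + δ with hrdef
  have hr1 : 1 < r := by rw [hrdef]; linarith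
  have hAn : IsPreconnected (closedBall (0 : ℝ × ℝ) r \ closedBall 0 1) := by
    have e : closedBall (0 : ℝ × ℝ) r \ closedBall 0 1 =
        (fun q : ℝ × (ℝ × ℝ) => q.1 • q.2) '' (Ioc (1:ℝ) r ×ˢ sphere 0 1) := by
      ext x
      rw [Set.mem_sdiff, mem_closedBall_zero_iff, mem_closedBall_zero_iff, not_le]
      constructor
      · rintro ⟨hx1, hx2⟩
        have hx0 : ‖x‖ ≠ 0 := by linarith
        refine ⟨(‖x‖, ‖x‖⁻¹ • x), ⟨⟨hx2, hx1⟩, ?_⟩, ?_⟩
        · show ‖x‖⁻¹ • x ∈ sphere (0 : ℝ × ℝ) 1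
          rw [mem_sphere_zero_iff_norm, norm_smul, norm_inv, norm_norm, inv_mul_cancel₀ hx0]
        · show ‖x‖ • ‖x‖⁻¹ • x = x
          rw [smul_smul, mul_inv_cancel₀ hx0, one_smul]
      · rintro ⟨⟨s, y⟩, ⟨hs, hy⟩, rfl⟩
        have hy' : ‖y‖ = 1 := mem_sphere_zero_iff_norm.1 hy
        have hs' : 1 < s ∧ s ≤ r := hs
        show ‖s • y‖ ≤ r ∧ 1 < ‖s • y‖
        rw [norm_smul, hy', mul_one, Real.norm_of_nonneg (by linarith [hs'.1])]
        exact ⟨hs'.2, hs'.1⟩
    rw [e]
    refine IsPreconnected.image ?_ _ (by fun_prop)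
    refine isPreconnected_Ioc.prod (isPreconnected_sphere ?_ _ _)
    rw [rank_prod', Module.rank_self]
    exact_mod_cast (show (1:ℕ) < 1 + 1 by norm_num)
  have hV : IsOpen (U \ closedBall (0 : ℝ × ℝ) 1) := hU.sdiff isClosed_closedBall
  rw [isPreconnected_iff_subset_of_disjoint]
  -- the one-sided statement
  have main : ∀ u v : Set (ℝ × ℝ), IsOpen u → IsOpen v → U \ closedBall 0 1 ⊆ u ∪ v →
      (U \ closedBall 0 1) ∩ (u ∩ v) = ∅ → closedBall (0 : ℝ × ℝ) r \ closedBall 0 1 ⊆ u →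
      U \ closedBall 0 1 ⊆ u := by
    intro u v hu hv hcov hemp hAu
    set u₁ := (u ∩ (U \ closedBall 0 1)) ∪ ball (0 : ℝ × ℝ) r with hu₁
    set v₁ := (v ∩ (U \ closedBall 0 1)) \ closedBall (0 : ℝ × ℝ) r with hv₁
    have o1 : IsOpen u₁ := (hu.inter hV).union isOpen_ball
    have o2 : IsOpen v₁ := (hv.inter hV).sdiff isClosed_closedBall
    have c1 : U ⊆ u₁ ∪ v₁ := by
      intro x hx
      by_cases h1 : x ∈ ball (0 : ℝ × ℝ) r
      · exact Or.inl (Or.inr h1)
      · rw [mem_ball_zero_iff, not_lt] at h1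
        have h2 : x ∈ U \ closedBall 0 1 := ⟨hx, by rw [mem_closedBall_zero_iff]; linarith⟩
        rcases hcov h2 with h3 | h3
        · exact Or.inl (Or.inl ⟨h3, h2⟩)
        · rcases eq_or_lt_of_le h1 with h4 | h4
          · have h5 : x ∈ closedBall (0 : ℝ × ℝ) r \ closedBall 0 1 :=
              ⟨by rw [mem_closedBall_zero_iff]; exact h4.ge, h2.2⟩
            exact Or.inl (Or.inl ⟨hAu h5, h2⟩)
          · right
            exact ⟨⟨h3, h2⟩, by rw [mem_closedBall_zero_iff]; exact not_le.2 h4⟩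
    have c2 : U ∩ (u₁ ∩ v₁) = ∅ := by
      rw [eq_empty_iff_forall_notMem]
      rintro x ⟨hx, h1, h2⟩
      rcases h1 with h1 | h1
      · have : x ∈ (U \ closedBall 0 1) ∩ (u ∩ v) := ⟨h1.2, h1.1, h2.1.1⟩
        rw [hemp] at this
        exact this
      · exact h2.2 (ball_subset_closedBall h1)
    rcases isPreconnected_iff_subset_of_disjoint.1 hUc u₁ v₁ o1 o2 c1 c2 with h | h
    · intro x hx
      rcases h hx.1 with h1 | h1
      · exact h1.1
      · exact hAu ⟨ball_subset_closedBall h1, hx.2⟩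
    · exfalso
      have h0 : (0 : ℝ × ℝ) ∈ U := hB (mem_closedBall_self zero_le_one)
      exact (h h0).2 (mem_closedBall_self (by linarith))
  intro u v hu hv hcov hemp
  have hAnU : closedBall (0 : ℝ × ℝ) r \ closedBall 0 1 ⊆ U \ closedBall 0 1 :=
    sdiff_subset_sdiff_left hr
  rcases isPreconnected_iff_subset_of_disjoint.1 hAn u v hu hv (hAnU.trans hcov) (by
      rw [eq_empty_iff_forall_notMem]
      intro x hx
      have : x ∈ (U \ closedBall 0 1) ∩ (u ∩ v) := ⟨hAnU hx.1, hx.2⟩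
      rw [hemp] at this
      exact this) with h | h
  · exact Or.inl (main u v hu hv hcov hemp h)
  · right
    refine main v u hv hu (by rw [union_comm]; exact hcov) ?_ h
    rw [inter_comm v u]; exact hemp

theorem AmbDisc.isPreconnected_sdiff {U D : Set (ℝ × ℝ)} (hD : AmbDisc D) (hU : IsOpen U)
    (hUc : IsPreconnected U) (hDU : D ⊆ U) : IsPreconnected (U \ D) := by
  obtain ⟨Φ, rfl⟩ := hD
  have e : U \ Φ.toFun '' closedBall 0 1 = Φ.toFun '' ((Φ.invFun '' U) \ closedBall 0 1) := by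
    rw [image_sdiff Φ.injective, Φ.image_image_inv]
  rw [e]
  refine (isPreconnected_diff_std ?_ ?_ ?_).image _ Φ.continuous.continuousOn
  · exact Φ.toHomeomorph.symm.isOpenMap _ hU
  · exact hUc.image _ Φ.continuous_inv.continuousOn
  · intro x hx
    exact ⟨Φ.toFun x, hDU ⟨x, hx, rfl⟩, Φ.inv_apply x⟩

/-- removing finitely many disjoint closed discs -/
theorem isPreconnected_sdiff_biUnion {ι : Type*} {D : ι → Set (ℝ × ℝ)} {U : Set (ℝ × ℝ)}
    (hU : IsOpen U) (hUc : IsPreconnected U) {J : Set ι} (hJ : J.Finite)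
    (hD : ∀ j ∈ J, AmbDisc (D j)) (hDU : ∀ j ∈ J, D j ⊆ U)
    (hdis : ∀ j ∈ J, ∀ k ∈ J, j ≠ k → Disjoint (D j) (D k)) :
    IsOpen (U \ ⋃ j ∈ J, D j) ∧ IsPreconnected (U \ ⋃ j ∈ J, D j) := by
  induction J, hJ using Set.Finite.induction_on with
  | empty => simpa using ⟨hU, hUc⟩
  | @insert a s ha hs ih =>
    obtain ⟨h1, h2⟩ := ih (fun j hj => hD j (Or.inr hj)) (fun j hj => hDU j (Or.inr hj))
      (fun j hj k hk => hdis j (Or.inr hj) k (Or.inr hk))
    have e : U \ ⋃ j ∈ insert a s, D j = (U \ ⋃ j ∈ s, D j) \ D a := by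
      rw [biUnion_insert, union_comm, ← sdiff_sdiff]
    have hDa : AmbDisc (D a) := hD a (Or.inl rfl)
    rw [e]
    refine ⟨h1.sdiff hDa.isClosed, AmbDisc.isPreconnected_sdiff hDa h1 h2 ?_⟩
    intro x hx
    refine ⟨hDU a (Or.inl rfl) hx, ?_⟩
    intro hx2
    obtain ⟨j, hj, hxj⟩ := mem_iUnion₂.1 hx2
    have haj : a ≠ j := fun h => ha (h ▸ hj)
    exact Set.disjoint_left.1 (hdis a (Or.inl rfl) j (Or.inr hj) haj) hx hxj

/-- **The component of a point in the complement of finitely many disjoint circles.**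
`D i` are the discs bounded by the circles, inside the disc `Q`.  The closure of the component of
`m` is `D₁` minus the interiors of the holes `D j`, `j ∈ J`, where `D₁` is `Q` or the innermost
`D i` containing `m`. -/
theorem exists_component {ι : Type*} [Finite ι] {D : ι → Set (ℝ × ℝ)} {Q : Set (ℝ × ℝ)}
    (hQ : AmbDisc Q) (hD : ∀ i, AmbDisc (D i))
    (hdis : ∀ i j, i ≠ j → Disjoint (frontier (D i)) (frontier (D j)))
    (hDQ : ∀ i, D i ⊆ interior Q) {m : ℝ × ℝ} (hm : m ∈ interior Q)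
    (hmD : ∀ i, m ∉ frontier (D i)) :
    ∃ (D₁ : Set (ℝ × ℝ)) (J : Set ι), (D₁ = Q ∨ ∃ i, D₁ = D i ∧ i ∉ J) ∧ m ∈ interior D₁ ∧
      (∀ j ∈ J, D j ⊆ interior D₁ ∧ m ∉ D j) ∧
      (∀ j ∈ J, ∀ k ∈ J, j ≠ k → Disjoint (D j) (D k)) ∧
      IsOpen (interior D₁ \ ⋃ j ∈ J, D j) ∧ IsPreconnected (interior D₁ \ ⋃ j ∈ J, D j) ∧
      (∀ i, i ∉ J → D i ≠ D₁ → Disjoint (frontier (D i)) (D₁ \ ⋃ j ∈ J, interior (D j))) ∧
      (∀ i, m ∈ D i → D₁ ⊆ D i) := by
  classical
  -- the outer disc
  obtain ⟨D₁, hD₁, hmD₁, hD₁c, hD₁min, hD₁Q⟩ : ∃ D₁ : Set (ℝ × ℝ), AmbDisc D₁ ∧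
      m ∈ interior D₁ ∧ (D₁ = Q ∨ ∃ i, D₁ = D i) ∧ (∀ i, m ∈ D i → D₁ ⊆ D i) ∧ D₁ ⊆ Q := by
    by_cases hI : ∃ i, m ∈ D i
    · have hfin : {i | m ∈ D i}.Finite := toFinite _
      obtain ⟨i₀, hi₀, hmin⟩ := hfin.exists_minimalFor D {i | m ∈ D i} hI
      refine ⟨D i₀, hD i₀, ?_, Or.inr ⟨i₀, rfl⟩, ?_, (hDQ i₀).trans interior_subset⟩
      · by_contra h
        exact hmD i₀ (by rw [(hD i₀).isClosed.frontier_eq]; exact ⟨hi₀, h⟩)
      · intro i hi
        by_cases hii : i = i₀
        · rw [hii]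
        · rcases AmbDisc.nested (hD i) (hD i₀) (hdis i i₀ hii) with h | h | h
          · exact hmin hi (h.trans interior_subset)
          · exact h.trans interior_subset
          · exact absurd hi₀ (Set.disjoint_left.1 h hi)
    · exact ⟨Q, hQ, hm, Or.inl rfl, fun i hi => absurd ⟨i, hi⟩ hI, subset_rfl⟩
  -- position of the other discs
  have hpos : ∀ i, m ∉ D i → D i ⊆ interior D₁ ∨ Disjoint (D i) D₁ := by
    intro i hi
    rcases hD₁c with h | ⟨i₀, h⟩
    · left; rw [h]; exact hDQ i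
    · have hii : i ≠ i₀ := by
        rintro rfl
        exact hi (h ▸ interior_subset hmD₁)
      rcases AmbDisc.nested (hD i) (hD i₀) (hdis i i₀ hii) with h' | h' | h'
      · left; rw [h]; exact h'
      · exfalso
        apply hi
        rw [h] at hmD₁
        exact interior_subset (h' (interior_subset hmD₁))
      · right; rw [h]; exact h'
  let cand : Set ι := {i | m ∉ D i ∧ D i ⊆ interior D₁}
  let J : Set ι := {i | i ∈ cand ∧ ∀ k ∈ cand, D i ⊆ D k → i = k}
  have hDinj : ∀ i k, D i = D k → i = k := by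
    intro i k hik
    by_contra hne
    have := hdis i k hne
    rw [hik] at this
    obtain ⟨x, hx⟩ := AmbDisc.frontier_nonempty (hD k)
    exact Set.disjoint_left.1 this hx hx
  have hJmax : ∀ i ∈ cand, ∃ j ∈ J, D i ⊆ D j := by
    intro i hi
    have hfin : {k | k ∈ cand ∧ D i ⊆ D k}.Finite := toFinite _
    obtain ⟨j, hj, hmax⟩ := hfin.exists_maximalFor D {k | k ∈ cand ∧ D i ⊆ D k}
      ⟨i, hi, subset_rfl⟩
    refine ⟨j, ⟨hj.1, fun k hk hjk => ?_⟩, hj.2⟩
    exact hDinj _ _ (hjk.antisymm (hmax ⟨hk, hj.2.trans hjk⟩ hjk))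
  have hJdis : ∀ j ∈ J, ∀ k ∈ J, j ≠ k → Disjoint (D j) (D k) := by
    intro j hj k hk hjk
    rcases AmbDisc.nested (hD j) (hD k) (hdis j k hjk) with h | h | h
    · exact absurd (hj.2 k hk.1 (h.trans interior_subset)) hjk
    · exact absurd (hk.2 j hj.1 (h.trans interior_subset)).symm hjk
    · exact h
  obtain ⟨hopen, hpre⟩ := isPreconnected_sdiff_biUnion (D := D) isOpen_interior
    hD₁.isConnected_interior.isPreconnected (toFinite J) (fun j _ => hD j)
    (fun j hj => hj.1.2) hJdis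
  refine ⟨D₁, J, ?_, hmD₁, fun j hj => ⟨hj.1.2, hj.1.1⟩, hJdis, hopen, hpre, ?_, hD₁min⟩
  · rcases hD₁c with h | ⟨i₀, h⟩
    · exact Or.inl h
    · refine Or.inr ⟨i₀, h, fun hJ => hJ.1.1 (h ▸ interior_subset hmD₁)⟩
  · intro i hiJ hiD
    rw [Set.disjoint_left]
    rintro x hx ⟨hx1, hx2⟩
    by_cases hmi : m ∈ D i
    · -- `D₁ ⊆ D i`, and the boundaries are disjoint
      have h1 := hD₁min i hmi
      rcases hD₁c with h | ⟨i₀, h⟩
      · apply hiD
        apply Subset.antisymm
        · rw [h]; exact (hDQ i).trans interior_subset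
        · exact h1
      · have hii : i₀ ≠ i := by
          rintro rfl
          exact hiD h.symm
        rcases AmbDisc.nested (hD i₀) (hD i) (hdis i₀ i hii) with h' | h' | h'
        · have := h' (h ▸ hx1)
          exact hx.2 this
        · apply hiD
          apply Subset.antisymm _ h1
          rw [h]; exact h'.trans interior_subset
        · exact Set.disjoint_left.1 h' (h ▸ interior_subset hmD₁) hmi
    · rcases hpos i hmi with h | h
      · obtain ⟨j, hj, hij⟩ := hJmax i ⟨hmi, h⟩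
        have hne : i ≠ j := fun h => hiJ (h ▸ hj)
        rcases AmbDisc.nested (hD i) (hD j) (hdis i j hne) with h' | h' | h'
        · exact hx2 (mem_iUnion₂.2 ⟨j, hj, h' (AmbDisc.frontier_subset (hD i) hx)⟩)
        · exact hne (hDinj _ _ (hij.antisymm (h'.trans interior_subset)))
        · exact Set.disjoint_left.1 h' (AmbDisc.frontier_subset (hD i) hx)
            (hij (AmbDisc.frontier_subset (hD i) hx))
      · exact Set.disjoint_left.1 h (AmbDisc.frontier_subset (hD i) hx) hx1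

end P073.SCH
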