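import Vale.Agent.P073.ConGlue

/-!
# P073, block SCH: ambient conical homeomorphisms, radial extension from convex bodies
-/

open Set Metric Topology Filter

namespace P073

variable {E F G : Type*} [NormedAddCommGroup E] [NormedSpace ℝ E]
  [NormedAddCommGroup F] [NormedSpace ℝ F] [NormedAddCommGroup G] [NormedSpace ℝ G]

/-- the homeomorphism underlying an ambient conical homeomorphism -/
def ConHomeo.toHomeomorph (h : ConHomeo (univ : Set E) (univ : Set F)) : E ≃ₜ F where
  toFun := h.toFun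
  invFun := h.invFun
  left_inv := fun x => h.left_inv (mem_univ x)
  right_inv := fun x => h.right_inv (mem_univ x)
  continuous_toFun := continuousOn_univ.1 h.cont
  continuous_invFun := continuousOn_univ.1 h.cont_inv

@[simp] theorem ConHomeo.coe_toHomeomorph (h : ConHomeo (univ : Set E) (univ : Set F)) :
    (h.toHomeomorph : E → F) = h.toFun := rfl

theorem ConHomeo.continuous (h : ConHomeo (univ : Set E) (univ : Set F)) : Continuous h.toFun :=
  h.toHomeomorph.continuous

theorem ConHomeo.continuous_inv (h : ConHomeo (univ : Set E) (univ : Set F)) :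
    Continuous h.invFun := h.toHomeomorph.symm.continuous

theorem ConHomeo.injective (h : ConHomeo (univ : Set E) (univ : Set F)) :
    Function.Injective h.toFun := h.toHomeomorph.injective

theorem ConHomeo.inv_apply (h : ConHomeo (univ : Set E) (univ : Set F)) (x : E) :
    h.invFun (h.toFun x) = x := h.left_inv (mem_univ x)

theorem ConHomeo.apply_inv (h : ConHomeo (univ : Set E) (univ : Set F)) (y : F) :
    h.toFun (h.invFun y) = y := h.right_inv (mem_univ y)

theorem ConHomeo.image_frontier (h : ConHomeo (univ : Set E) (univ : Set F)) (X : Set E) :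
    h.toFun '' frontier X = frontier (h.toFun '' X) := h.toHomeomorph.image_frontier X

theorem ConHomeo.image_interior (h : ConHomeo (univ : Set E) (univ : Set F)) (X : Set E) :
    h.toFun '' interior X = interior (h.toFun '' X) := h.toHomeomorph.image_interior X

theorem ConHomeo.image_closure (h : ConHomeo (univ : Set E) (univ : Set F)) (X : Set E) :
    h.toFun '' closure X = closure (h.toFun '' X) := h.toHomeomorph.image_closure X

theorem ConHomeo.image_compl (h : ConHomeo (univ : Set E) (univ : Set F)) (X : Set E) :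
    h.toFun '' Xᶜ = (h.toFun '' X)ᶜ := image_compl_eq h.toHomeomorph.bijective

theorem ConHomeo.mem_image_iff (h : ConHomeo (univ : Set E) (univ : Set F)) {X : Set E} {y : F} :
    y ∈ h.toFun '' X ↔ h.invFun y ∈ X := by
  constructor
  · rintro ⟨x, hx, rfl⟩; rwa [h.inv_apply]
  · intro hy; exact ⟨_, hy, h.apply_inv y⟩

theorem ConHomeo.apply_mem_image_iff (h : ConHomeo (univ : Set E) (univ : Set F)) {X : Set E}
    {x : E} : h.toFun x ∈ h.toFun '' X ↔ x ∈ X := by
  rw [h.mem_image_iff, h.inv_apply]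

theorem ConHomeo.image_inv_image (h : ConHomeo (univ : Set E) (univ : Set F)) (X : Set E) :
    h.invFun '' (h.toFun '' X) = X := by
  rw [image_image]
  simp [h.inv_apply]

theorem ConHomeo.image_image_inv (h : ConHomeo (univ : Set E) (univ : Set F)) (Y : Set F) :
    h.toFun '' (h.invFun '' Y) = Y := by
  rw [image_image]
  simp [h.apply_inv]

/-- conicality within a neighbourhood is ambient conicality -/
theorem ConicalWithinAt.of_mem_nhds {h : E → F} {X : Set E} {x : E}
    (H : ConicalWithinAt h X x) (hX : X ∈ 𝓝 x) : ConicalWithinAt h univ x :=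
  H.congr_nhds (by filter_upwards [hX] with y hy; simp [hy]) (Eventually.of_forall fun _ _ => rfl) rfl

/-- a homogeneous conical map on a neighbourhood of the origin extends to the whole space -/
theorem exists_homogeneous_map {K : Set E} (hK : K ∈ 𝓝 (0:E)) (f : E → F)
    (hf : ContinuousOn f K) (hc : ConicalOn f K)
    (hom : ∀ x ∈ K, ∀ s ∈ Icc (0:ℝ) 1, s • x ∈ K ∧ f (s • x) = s • f x) :
    ∃ f' : E → F, Continuous f' ∧ ConicalOn f' univ ∧
      ∀ (t : ℝ) (x : E), 0 < t → t⁻¹ • x ∈ K → f' x = t • f (t⁻¹ • x) := by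
  classical
  have key : ∀ x : E, ∃ t : ℝ, 0 < t ∧ t⁻¹ • x ∈ interior K := by
    intro x
    have h1 : Tendsto (fun s : ℝ => s • x) (𝓝[>] 0) (𝓝 0) := by
      have : Tendsto (fun s : ℝ => s • x) (𝓝 0) (𝓝 ((0:ℝ) • x)) :=
        (continuous_id.smul continuous_const).tendsto 0
      rw [zero_smul] at this
      exact this.mono_left nhdsWithin_le_nhds
    have h2 : ∀ᶠ s : ℝ in 𝓝[>] 0, s • x ∈ interior K :=
      h1 (isOpen_interior.mem_nhds (mem_interior_iff_mem_nhds.2 hK))
    obtain ⟨s, hs, hs0⟩ := (h2.and self_mem_nhdsWithin).exists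
    exact ⟨s⁻¹, inv_pos.2 hs0, by rwa [inv_inv]⟩
  choose τ hτ0 hτ using key
  have hind : ∀ (t : ℝ) (x : E), 0 < t → t⁻¹ • x ∈ K →
      τ x • f ((τ x)⁻¹ • x) = t • f (t⁻¹ • x) := by
    intro t x ht hx
    have aux : ∀ a b : ℝ, 0 < a → 0 < b → a ≤ b → a⁻¹ • x ∈ K →
        b • f (b⁻¹ • x) = a • f (a⁻¹ • x) := by
      intro a b ha hb hab hax
      have h1 : b⁻¹ • x = (a / b) • (a⁻¹ • x) := by
        rw [smul_smul]; congr 1; field_simp
      rw [h1, (hom _ hax (a / b) ⟨by positivity, (div_le_one hb).2 hab⟩).2, smul_smul]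
      congr 1; field_simp
    rcases le_total (τ x) t with h | h
    · exact (aux _ _ (hτ0 x) ht h (interior_subset (hτ x))).symm
    · exact aux _ _ ht (hτ0 x) h hx
  have hloc : ∀ x : E, ∀ᶠ y in 𝓝 x, τ y • f ((τ y)⁻¹ • y) = τ x • f ((τ x)⁻¹ • y) := by
    intro x
    have h1 : ∀ᶠ y in 𝓝 x, (τ x)⁻¹ • y ∈ interior K :=
      (continuous_id.const_smul _).continuousAt (isOpen_interior.mem_nhds (hτ x))
    filter_upwards [h1] with y hy
    exact hind _ _ (hτ0 x) (interior_subset hy)
  refine ⟨fun x => τ x • f ((τ x)⁻¹ • x), ?_, ?_, fun t x ht hx => hind t x ht hx⟩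
  · rw [continuous_iff_continuousAt]
    intro x
    have h1 : ContinuousAt f ((τ x)⁻¹ • x) :=
      hf.continuousAt (mem_interior_iff_mem_nhds.1 (hτ x))
    have h2 : ContinuousAt (fun y => τ x • f ((τ x)⁻¹ • y)) x :=
      ContinuousAt.const_smul (ContinuousAt.comp (f := fun y => (τ x)⁻¹ • y) h1
        (continuous_id.const_smul _).continuousAt) _
    exact h2.congr ((hloc x).mono fun y hy => hy.symm)
  · intro x _
    have h1 : ConicalWithinAt f univ ((τ x)⁻¹ • x) :=
      (hc _ (interior_subset (hτ x))).of_mem_nhds (mem_interior_iff_mem_nhds.1 (hτ x))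
    have h2 : ConicalWithinAt (fun y : E => (τ x)⁻¹ • y) univ x :=
      conicalOn_linear ((τ x)⁻¹ • LinearMap.id) (IsOpen.conicalSet isOpen_univ) x (mem_univ x)
    have h3 : ConicalWithinAt (f ∘ fun y : E => (τ x)⁻¹ • y) univ x :=
      ConicalWithinAt.comp (Y := univ) h1 h2 (mapsTo_univ _ _)
        (continuous_id.const_smul _).continuousWithinAt
    have h4 := h3.const_smul (τ x)
    refine h4.congr_nhds (by simp) ?_ rfl
    filter_upwards [hloc x] with y hy _
    exact hy

/-- a homogeneous conical homeomorphism between neighbourhoods of the origin extends to the whole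
space -/
theorem ConHomeo.exists_homogeneous_extend {K : Set E} {L : Set F} (Ψ : ConHomeo K L)
    (hK : K ∈ 𝓝 (0:E)) (hL : L ∈ 𝓝 (0:F))
    (hom : ∀ x ∈ K, ∀ s ∈ Icc (0:ℝ) 1, s • x ∈ K ∧ Ψ.toFun (s • x) = s • Ψ.toFun x) :
    ∃ Φ : ConHomeo (univ : Set E) (univ : Set F), EqOn Φ.toFun Ψ.toFun K := by
  have hom' : ∀ y ∈ L, ∀ s ∈ Icc (0:ℝ) 1, s • y ∈ L ∧ Ψ.invFun (s • y) = s • Ψ.invFun y := by
    intro y hy s hs
    obtain ⟨h1, h2⟩ := hom _ (Ψ.mapsTo_inv hy) s hs
    rw [Ψ.right_inv hy] at h2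
    rw [← h2]
    exact ⟨Ψ.mapsTo h1, Ψ.left_inv h1⟩
  obtain ⟨f, hf1, hf2, hf3⟩ := exists_homogeneous_map hK Ψ.toFun Ψ.cont Ψ.conical hom
  obtain ⟨g, hg1, hg2, hg3⟩ := exists_homogeneous_map hL Ψ.invFun Ψ.cont_inv Ψ.conical_inv hom'
  have key : ∀ x : E, ∃ t : ℝ, 0 < t ∧ t⁻¹ • x ∈ K := by
    intro x
    have h1 : Tendsto (fun s : ℝ => s • x) (𝓝[>] 0) (𝓝 0) := by
      have : Tendsto (fun s : ℝ => s • x) (𝓝 0) (𝓝 ((0:ℝ) • x)) :=
        (continuous_id.smul continuous_const).tendsto 0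
      rw [zero_smul] at this
      exact this.mono_left nhdsWithin_le_nhds
    obtain ⟨s, hs, hs0⟩ := ((h1.eventually_mem hK).and self_mem_nhdsWithin).exists
    exact ⟨s⁻¹, inv_pos.2 hs0, by rwa [inv_inv]⟩
  have key' : ∀ x : F, ∃ t : ℝ, 0 < t ∧ t⁻¹ • x ∈ L := by
    intro x
    have h1 : Tendsto (fun s : ℝ => s • x) (𝓝[>] 0) (𝓝 0) := by
      have : Tendsto (fun s : ℝ => s • x) (𝓝 0) (𝓝 ((0:ℝ) • x)) :=
        (continuous_id.smul continuous_const).tendsto 0
      rw [zero_smul] at this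
      exact this.mono_left nhdsWithin_le_nhds
    obtain ⟨s, hs, hs0⟩ := ((h1.eventually_mem hL).and self_mem_nhdsWithin).exists
    exact ⟨s⁻¹, inv_pos.2 hs0, by rwa [inv_inv]⟩
  refine ⟨
    { toFun := f
      invFun := g
      mapsTo := mapsTo_univ _ _
      mapsTo_inv := mapsTo_univ _ _
      left_inv := ?_
      right_inv := ?_
      cont := hf1.continuousOn
      cont_inv := hg1.continuousOn
      conical := hf2 }, ?_⟩
  · intro x _
    obtain ⟨t, ht, hx⟩ := key x
    have e := hf3 t x ht hx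
    have e2 : t⁻¹ • f x = Ψ.toFun (t⁻¹ • x) := by
      rw [e, smul_smul, inv_mul_cancel₀ ht.ne', one_smul]
    have := hg3 t (f x) ht (by rw [e2]; exact Ψ.mapsTo hx)
    rw [this, e2, Ψ.left_inv hx, smul_smul, mul_inv_cancel₀ ht.ne', one_smul]
  · intro x _
    obtain ⟨t, ht, hx⟩ := key' x
    have e := hg3 t x ht hx
    have e2 : t⁻¹ • g x = Ψ.invFun (t⁻¹ • x) := by
      rw [e, smul_smul, inv_mul_cancel₀ ht.ne', one_smul]
    have := hf3 t (g x) ht (by rw [e2]; exact Ψ.mapsTo_inv hx)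
    rw [this, e2, Ψ.right_inv hx, smul_smul, mul_inv_cancel₀ ht.ne', one_smul]
  · intro x hx
    have := hf3 1 x one_pos (by simpa using hx)
    simpa using this

/-- **Radial extension.**  A conical homeomorphism between the frontiers of two convex bodies
extends to an ambient conical homeomorphism. -/
theorem ConHomeo.exists_ambient_of_convexBody [Nontrivial E] [Nontrivial F] {K : Set E} {L : Set F}
    (hK : IsCompact K) (hKc : Convex ℝ K) (hKi : (interior K).Nonempty)
    (hL : IsCompact L) (hLc : Convex ℝ L) (hLi : (interior L).Nonempty)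
    (φ : ConHomeo (frontier K) (frontier L)) :
    ∃ Φ : ConHomeo (univ : Set E) (univ : Set F), EqOn Φ.toFun φ.toFun (frontier K) ∧
      Φ.toFun '' K = L := by
  obtain ⟨a, ha⟩ := hKi
  obtain ⟨b, hb⟩ := hLi
  rw [mem_interior_iff_mem_nhds] at ha hb
  obtain ⟨Ψ, hΨ, hΨs⟩ := ConHomeo.exists_extend_convexBody hK hKc ha hL hLc hb φ
  -- translate to the origin
  let τa : ConHomeo (univ : Set E) (univ : Set E) :=
    (ConHomeo.translate (-a) (IsOpen.conicalSet isOpen_univ)).cast rfl (by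
      ext y; simp only [image_univ, mem_range, mem_univ, iff_true]; exact ⟨y + a, by abel⟩)
  let τb : ConHomeo (univ : Set F) (univ : Set F) :=
    (ConHomeo.translate (-b) (IsOpen.conicalSet isOpen_univ)).cast rfl (by
      ext y; simp only [image_univ, mem_range, mem_univ, iff_true]; exact ⟨y + b, by abel⟩)
  have hKcs : ConicalSet K := Convex.conicalSet hKc
  have hLcs : ConicalSet L := Convex.conicalSet hLc
  let αK := ConHomeo.translate (-a) hKcs
  let αL := ConHomeo.translate (-b) hLcs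
  let Ψ0 := αK.symm.trans (Ψ.trans αL)
  have hK0 : (fun x => x + -a) '' K ∈ 𝓝 (0:E) := by
    have := (Homeomorph.addRight (-a)).isOpenMap.image_mem_nhds ha
    simpa using this
  have hL0 : (fun x => x + -b) '' L ∈ 𝓝 (0:F) := by
    have := (Homeomorph.addRight (-b)).isOpenMap.image_mem_nhds hb
    simpa using this
  -- homogeneity
  have hrep : ∀ x ∈ K, ∃ s ∈ Icc (0:ℝ) 1, ∃ y ∈ frontier K, x = a + s • (y - a) := by
    intro x hx
    have : x ∈ coneSetAt a (frontier K) := by rw [coneSetAt_frontier hK hKc ha]; exact hx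
    exact this
  have hΨ0 : ∀ y : E, Ψ0.toFun y = Ψ.toFun (y - -a) + -b := fun y => rfl
  have hom : ∀ x ∈ (fun x => x + -a) '' K, ∀ s ∈ Icc (0:ℝ) 1,
      s • x ∈ (fun x => x + -a) '' K ∧ Ψ0.toFun (s • x) = s • Ψ0.toFun x := by
    rintro _ ⟨x, hx, rfl⟩ s hs
    obtain ⟨u, hu, y, hy, rfl⟩ := hrep x hx
    have hsu : s * u ∈ Icc (0:ℝ) 1 := ⟨mul_nonneg hs.1 hu.1, mul_le_one₀ hs.2 hu.1 hu.2⟩
    have e1 : s • (a + u • (y - a) + -a) - -a = a + (s * u) • (y - a) := by
      rw [mul_smul, sub_neg_eq_add, add_comm _ a]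
      congr 2
      abel
    have e2 : a + u • (y - a) + -a - -a = a + u • (y - a) := by abel
    refine ⟨⟨a + (s * u) • (y - a), ?_, ?_⟩, ?_⟩
    · have : a + (s * u) • (y - a) ∈ coneSetAt a (frontier K) := ⟨_, hsu, y, hy, rfl⟩
      rwa [coneSetAt_frontier hK hKc ha] at this
    · simp only
      rw [← e1, sub_neg_eq_add, add_neg_cancel_right]
    · rw [hΨ0, hΨ0]
      simp only
      rw [e1, e2, hΨs y hy _ hsu, hΨs y hy _ hu, mul_smul]
      rw [add_comm b, add_neg_cancel_right, add_comm b, add_neg_cancel_right]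
  obtain ⟨Φ0, hΦ0⟩ := Ψ0.exists_homogeneous_extend hK0 hL0 hom
  let Φ := τa.trans (Φ0.trans τb.symm)
  have hΦK : EqOn Φ.toFun Ψ.toFun K := by
    intro x hx
    show Φ0.toFun (x + -a) - -b = Ψ.toFun x
    rw [hΦ0 ⟨x, hx, rfl⟩, hΨ0]
    have : x + -a - -a = x := by abel
    rw [this]; abel
  refine ⟨Φ, ?_, ?_⟩
  · intro x hx
    rw [hΦK (hK.isClosed.frontier_subset hx), hΨ hx]
  · rw [image_congr hΦK, Ψ.image_eq]

/-- an ambient conical homeomorphism obtained from one of a closed polyhedral piece fixing the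
frontier -/
theorem ConHomeo.exists_extend_by_id {W : Set E} (hW : IsClosed W) (hWc : LocCone W)
    (ψ : ConHomeo W W) (hψ : ∀ x ∈ frontier W, ψ.toFun x = x) :
    ∃ Φ : ConHomeo (univ : Set E) (univ : Set E), EqOn Φ.toFun ψ.toFun W ∧
      ∀ x, x ∉ W → Φ.toFun x = x := by
  have hX2 : IsClosed (interior W)ᶜ := isOpen_interior.isClosed_compl
  have hfr : W ∩ (interior W)ᶜ = frontier W := by
    rw [hW.frontier_eq, sdiff_eq]
  have huniv : W ∪ (interior W)ᶜ = univ := by
    rw [eq_univ_iff_forall]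
    intro x
    by_cases hx : x ∈ W
    · exact Or.inl hx
    · exact Or.inr fun h => hx (interior_subset h)
  let ρ := ConHomeo.refl (X := (interior W)ᶜ) hWc.interior.compl.conicalSet
  have hag : EqOn ψ.toFun ρ.toFun (W ∩ (interior W)ᶜ) := by
    intro x hx
    rw [hfr] at hx
    exact hψ x hx
  have himg : W ∩ (interior W)ᶜ ⊆ ψ.toFun '' (W ∩ (interior W)ᶜ) := by
    intro x hx
    refine ⟨x, hx, ?_⟩
    rw [hfr] at hx
    exact hψ x hx
  refine ⟨(ConHomeo.glue ψ ρ hW hX2 hW hX2 hag himg).cast huniv huniv, ?_, ?_⟩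
  · exact ConHomeo.glue_left ψ ρ hW hX2 hW hX2 hag himg
  · intro x hx
    exact ConHomeo.glue_right ψ ρ hW hX2 hW hX2 hag himg
      (show x ∈ (interior W)ᶜ from fun h => hx (interior_subset h))

end P073
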