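import Vale.Agent.P073.SCH.Nest
import Vale.Agent.P073.H339.Annulus

/-!
# P073, block SCH: crosscuts of conical discs, exchange of crosscuts
-/

open Set Metric Topology Filter

namespace P073.SCH

variable {E : Type*} [NormedAddCommGroup E] [NormedSpace ℝ E]

open H339 (pairHomeo pairHomeo_image_closedBall pairHomeo_image_sphere conSphere_iff)

theorem sch : H339.Sch := by
  intro C hC
  obtain ⟨D, ⟨Φ, rfl⟩, hf⟩ := schoenflies hC
  refine ⟨_, Φ, rfl, ?_⟩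
  rw [← hf, ← Φ.image_frontier, frontier_square]

/-- conical discs have planar charts -/
theorem exists_chart2 {D B : Set E} (h : ConBall 2 D B) :
    ∃ χ : ConHomeo D (closedBall (0 : ℝ × ℝ) 1), χ.toFun '' B = sphere 0 1 := by
  obtain ⟨hBD, φ, hφ⟩ := h
  have hcl : ConicalSet (closedBall (0 : ℝ × ℝ) 1) := Convex.conicalSet (convex_closedBall _ _)
  let α : ConHomeo (closedBall (0 : ℝ × ℝ) 1) (closedBall (0 : Fin 2 → ℝ) 1) :=
    (pairHomeo.restr hcl (subset_univ _)).cast rfl (pairHomeo_image_closedBall 1)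
  refine ⟨φ.trans α.symm, ?_⟩
  have e : (φ.trans α.symm).toFun '' B = pairHomeo.invFun '' (φ.toFun '' B) := by
    rw [image_image]; rfl
  rw [e, hφ, ← pairHomeo_image_sphere 1, image_image]
  have : ∀ x ∈ sphere (0 : ℝ × ℝ) 1, pairHomeo.invFun (pairHomeo.toFun x) = x :=
    fun x _ => pairHomeo.left_inv (mem_univ x)
  rw [image_congr this, image_id']

theorem image_inv_image_of_subset {F : Type*} [NormedAddCommGroup F] [NormedSpace ℝ F]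
    {X : Set E} {Y : Set F} (χ : ConHomeo X Y) {S : Set E} (hS : S ⊆ X) :
    χ.invFun '' (χ.toFun '' S) = S := by
  rw [image_image]
  have : ∀ x ∈ S, χ.invFun (χ.toFun x) = x := fun x hx => χ.left_inv (hS hx)
  rw [image_congr this, image_id']

/-- **Crosscut theorem for conical discs.** -/
theorem conBall_crosscut {D B₁ B₂ A : Set E} {p q : E} (hD : ConBall 2 D (B₁ ∪ B₂))
    (h1 : IsArc B₁ p q) (h2 : IsArc B₂ p q) (h12 : B₁ ∩ B₂ ⊆ {p, q}) (hA : IsArc A p q)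
    (hAD : A ⊆ D) (hA1 : A ∩ B₁ ⊆ {p, q}) (hA2 : A ∩ B₂ ⊆ {p, q}) :
    ∃ D₁ D₂, ConBall 2 D₁ (B₁ ∪ A) ∧ ConBall 2 D₂ (B₂ ∪ A) ∧ D = D₁ ∪ D₂ ∧ D₁ ∩ D₂ = A ∧
      B₂ ∩ D₁ ⊆ {p, q} ∧ B₁ ∩ D₂ ⊆ {p, q} := by
  obtain ⟨χ, hχ⟩ := exists_chart2 hD
  have hB1D : B₁ ⊆ D := subset_union_left.trans hD.1
  have hB2D : B₂ ⊆ D := subset_union_right.trans hD.1
  have hpairD : ({p, q} : Set E) ⊆ D := by
    rw [insert_subset_iff, singleton_subset_iff]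
    exact ⟨hB1D h1.left_mem, hB1D h1.right_mem⟩
  have him : ∀ S T : Set E, S ⊆ D → T ⊆ D → S ∩ T ⊆ {p, q} →
      χ.toFun '' S ∩ χ.toFun '' T ⊆ {χ.toFun p, χ.toFun q} := by
    intro S T hS hT hST
    rw [← χ.injOn.image_inter hS hT, ← image_pair]
    exact image_mono hST
  have hstd : H339.AmbDisc (closedBall (0 : ℝ × ℝ) 1) (χ.toFun '' B₁ ∪ χ.toFun '' B₂) := by
    refine ⟨ConHomeo.refl (IsOpen.conicalSet isOpen_univ), ?_, ?_⟩
    · exact image_id' _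
    · rw [← image_union, hχ]; exact image_id' _
  obtain ⟨D₁', D₂', a1, a2, a3, a4, a5, a6⟩ := sch.crosscut hstd (h1.image χ hB1D)
    (h2.image χ hB2D) (hA.image χ hAD) (him _ _ hB1D hB2D h12)
    ((image_mono hAD).trans χ.image_eq.subset) (him _ _ hAD hB1D hA1) (him _ _ hAD hB2D hA2)
  have hD1' : D₁' ⊆ closedBall 0 1 := by rw [a3]; exact subset_union_left
  have hD2' : D₂' ⊆ closedBall 0 1 := by rw [a3]; exact subset_union_right
  have hback : ∀ S T : Set E, S ⊆ D → T ⊆ D →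
      χ.symm.toFun '' (χ.toFun '' S ∪ χ.toFun '' T) = S ∪ T := by
    intro S T hS hT
    rw [← image_union]
    exact image_inv_image_of_subset χ (union_subset hS hT)
  have hχinv : ∀ x ∈ D, ∀ S' : Set (ℝ × ℝ), S' ⊆ closedBall 0 1 →
      x ∈ χ.symm.toFun '' S' → χ.toFun x ∈ S' := by
    rintro _ _ S' hS' ⟨y, hy, rfl⟩
    show χ.toFun (χ.invFun y) ∈ S'
    rw [χ.right_inv (hS' hy)]; exact hy
  have hpull : ∀ S : Set E, ∀ S' : Set (ℝ × ℝ), S ⊆ D → S' ⊆ closedBall 0 1 →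
      χ.toFun '' S ∩ S' ⊆ {χ.toFun p, χ.toFun q} → S ∩ χ.symm.toFun '' S' ⊆ {p, q} := by
    rintro S S' hS hS' h x ⟨hx, hx'⟩
    have h3 := h ⟨⟨x, hx, rfl⟩, hχinv x (hS hx) S' hS' hx'⟩
    rcases h3 with h3 | h3
    · exact Or.inl (χ.injOn (hS hx) (hpairD (Or.inl rfl)) h3)
    · exact Or.inr (χ.injOn (hS hx) (hpairD (Or.inr rfl)) h3)
  refine ⟨χ.symm.toFun '' D₁', χ.symm.toFun '' D₂', ?_, ?_, ?_, ?_, ?_, ?_⟩
  · have := a1.conBall.image χ.symm hD1'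
    rwa [hback B₁ A hB1D hAD] at this
  · have := a2.conBall.image χ.symm hD2'
    rwa [hback B₂ A hB2D hAD] at this
  · rw [← image_union, ← a3]
    exact χ.symm.image_eq.symm
  · rw [← χ.symm.injOn.image_inter hD1' hD2', a4]
    exact image_inv_image_of_subset χ hAD
  · exact hpull B₂ D₁' hB2D hD1' a5
  · exact hpull B₁ D₂' hB1D hD2' a6

/-- **Exchange of crosscuts** (helper73's `SpecArcs`). -/
theorem exists_exchange_crosscuts {D B A A' : Set E} {p q : E} (hD : ConBall 2 D B)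
    (hA : IsArc A p q) (hA' : IsArc A' p q) (hAD : A ⊆ D) (hA'D : A' ⊆ D)
    (hAB : A ∩ B = {p, q}) (hA'B : A' ∩ B = {p, q}) (α : ConHomeo A A')
    (hαp : α.toFun p = p) (hαq : α.toFun q = q) :
    ∃ Ψ : ConHomeo D D, (∀ x ∈ B, Ψ.toFun x = x) ∧ EqOn Ψ.toFun α.toFun A := by
  have hpB : p ∈ B := by
    have : p ∈ A ∩ B := by rw [hAB]; exact Or.inl rfl
    exact this.2
  have hqB : q ∈ B := by
    have : q ∈ A ∩ B := by rw [hAB]; exact Or.inr rfl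
    exact this.2
  have hcirc : IsCircle B := conSphere_iff.1 hD.conSphere
  obtain ⟨B₁, B₂, h1, h2, h12, rfl⟩ := H339.IsCircle.arcs_through hcirc hpB hqB hA.ne
  have sub1 : ∀ {S : Set E}, S ∩ (B₁ ∪ B₂) = {p, q} → S ∩ B₁ ⊆ {p, q} := fun h x hx => by
    rw [← h]; exact ⟨hx.1, Or.inl hx.2⟩
  have sub2 : ∀ {S : Set E}, S ∩ (B₁ ∪ B₂) = {p, q} → S ∩ B₂ ⊆ {p, q} := fun h x hx => by
    rw [← h]; exact ⟨hx.1, Or.inr hx.2⟩
  obtain ⟨D₁, D₂, c1, c2, c3, c4, -, -⟩ :=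
    conBall_crosscut hD h1 h2 h12 hA hAD (sub1 hAB) (sub2 hAB)
  obtain ⟨D₁', D₂', c1', c2', c3', c4', -, -⟩ :=
    conBall_crosscut hD h1 h2 h12 hA' hA'D (sub1 hA'B) (sub2 hA'B)
  -- boundary maps
  have bd : ∀ S : Set E, IsArc S p q → A ∩ S ⊆ {p, q} → A' ∩ S ⊆ {p, q} →
      ∃ φ : ConHomeo (S ∪ A) (S ∪ A'), (∀ x ∈ S, φ.toFun x = x) ∧ EqOn φ.toFun α.toFun A := by
    intro S hS hAS hA'S
    let ρ := ConHomeo.refl hS.conicalSet
    have hag : EqOn ρ.toFun α.toFun (S ∩ A) := by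
      rintro x ⟨hx1, hx2⟩
      rcases hAS ⟨hx2, hx1⟩ with h | h
      · rw [h, hαp]; rfl
      · rw [mem_singleton_iff.1 h, hαq]; rfl
    have himg : S ∩ A' ⊆ ρ.toFun '' (S ∩ A) := by
      rintro x ⟨hx1, hx2⟩
      rcases hA'S ⟨hx2, hx1⟩ with h | h
      · exact ⟨p, ⟨hS.left_mem, hA.left_mem⟩, h.symm⟩
      · exact ⟨q, ⟨hS.right_mem, hA.right_mem⟩, (mem_singleton_iff.1 h).symm⟩
    refine ⟨ConHomeo.glue ρ α hS.isClosed hA.isClosed hS.isClosed hA'.isClosed hag himg, ?_, ?_⟩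
    · exact ConHomeo.glue_left ρ α hS.isClosed hA.isClosed hS.isClosed hA'.isClosed hag himg
    · exact ConHomeo.glue_right ρ α hS.isClosed hA.isClosed hS.isClosed hA'.isClosed hag himg
  obtain ⟨φ₁, f1, g1⟩ := bd B₁ h1 (sub1 hAB) (sub1 hA'B)
  obtain ⟨φ₂, f2, g2⟩ := bd B₂ h2 (sub2 hAB) (sub2 hA'B)
  obtain ⟨Ψ₁, p1, -⟩ := c1.exists_extend c1' φ₁
  obtain ⟨Ψ₂, p2, -⟩ := c2.exists_extend c2' φ₂
  have eA1 : EqOn Ψ₁.toFun α.toFun A := fun x hx => (p1 (Or.inr hx)).trans (g1 hx)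
  have eA2 : EqOn Ψ₂.toFun α.toFun A := fun x hx => (p2 (Or.inr hx)).trans (g2 hx)
  have hag : EqOn Ψ₁.toFun Ψ₂.toFun (D₁ ∩ D₂) := by
    rw [c4]
    intro x hx
    rw [eA1 hx, eA2 hx]
  have himg : D₁' ∩ D₂' ⊆ Ψ₁.toFun '' (D₁ ∩ D₂) := by
    rw [c4, c4', eA1.image_eq, α.image_eq]
  let Ψ := ConHomeo.glue Ψ₁ Ψ₂ c1.isClosed c2.isClosed c1'.isClosed c2'.isClosed hag himg
  have l1 : EqOn Ψ.toFun Ψ₁.toFun D₁ :=
    ConHomeo.glue_left Ψ₁ Ψ₂ c1.isClosed c2.isClosed c1'.isClosed c2'.isClosed hag himg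
  have l2 : EqOn Ψ.toFun Ψ₂.toFun D₂ :=
    ConHomeo.glue_right Ψ₁ Ψ₂ c1.isClosed c2.isClosed c1'.isClosed c2'.isClosed hag himg
  refine ⟨Ψ.cast c3.symm c3'.symm, ?_, ?_⟩
  · rintro x (hx | hx)
    · show Ψ.toFun x = x
      rw [l1 (c1.1 (Or.inl hx)), p1 (Or.inl hx), f1 x hx]
    · show Ψ.toFun x = x
      rw [l2 (c2.1 (Or.inl hx)), p2 (Or.inl hx), f2 x hx]
  · intro x hx
    show Ψ.toFun x = α.toFun x
    rw [l1 (c1.1 (Or.inr hx)), eA1 hx]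

end P073.SCH
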