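import Vale.Agent.P073.SCH.LocConeImage
import Vale.Agent.P073.H339.Push

/-!
# P073, block SCH: ambient discs in the plane
-/

open Set Metric Topology Filter

namespace P073

open H339

/-- a planar set which is the image of the square under an ambient conical homeomorphism -/
def AmbDisc (D : Set (ℝ × ℝ)) : Prop :=
  ∃ Φ : ConHomeo (univ : Set (ℝ × ℝ)) (univ : Set (ℝ × ℝ)), Φ.toFun '' closedBall 0 1 = D

theorem frontier_square : frontier (closedBall (0 : ℝ × ℝ) 1) = sphere 0 1 :=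
  frontier_closedBall _ one_ne_zero

namespace AmbDisc

variable {D : Set (ℝ × ℝ)}

theorem isCompact (h : AmbDisc D) : IsCompact D := by
  obtain ⟨Φ, rfl⟩ := h
  exact (isCompact_closedBall _ _).image Φ.continuous

theorem isClosed (h : AmbDisc D) : IsClosed D := h.isCompact.isClosed

theorem locCone (h : AmbDisc D) : LocCone D := by
  obtain ⟨Φ, rfl⟩ := h
  exact (locCone_closedBall_prod 1).image Φ

theorem frontier_isCircle (h : AmbDisc D) : IsCircle (frontier D) := by
  obtain ⟨Φ, rfl⟩ := h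
  rw [← Φ.image_frontier, frontier_square]
  exact ⟨Φ.restr locCone_sphere_prod.conicalSet (subset_univ _)⟩

theorem image (h : AmbDisc D) (Ψ : ConHomeo (univ : Set (ℝ × ℝ)) (univ : Set (ℝ × ℝ))) :
    AmbDisc (Ψ.toFun '' D) := by
  obtain ⟨Φ, rfl⟩ := h
  exact ⟨Φ.trans Ψ, by rw [ConHomeo.trans_toFun, image_comp]⟩

theorem of_image (Ψ : ConHomeo (univ : Set (ℝ × ℝ)) (univ : Set (ℝ × ℝ)))
    (h : AmbDisc (Ψ.toFun '' D)) : AmbDisc D := by
  have := h.image Ψ.symm
  rwa [ConHomeo.symm_toFun, Ψ.image_inv_image] at this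

theorem isConnected_interior (h : AmbDisc D) : IsConnected (interior D) := by
  obtain ⟨Φ, rfl⟩ := h
  rw [← Φ.image_interior, interior_closedBall _ one_ne_zero]
  exact ((convex_ball (0 : ℝ × ℝ) 1).isConnected (nonempty_ball.2 one_pos)).image _
    Φ.continuous.continuousOn

theorem closure_interior (h : AmbDisc D) : closure (interior D) = D := by
  obtain ⟨Φ, rfl⟩ := h
  rw [← Φ.image_interior, interior_closedBall _ one_ne_zero, ← Φ.image_closure,
    closure_ball _ one_ne_zero]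

theorem isPreconnected_compl (h : AmbDisc D) : IsPreconnected Dᶜ := by
  obtain ⟨Φ, rfl⟩ := h
  rw [← Φ.image_compl]
  refine IsPreconnected.image ?_ _ Φ.continuous.continuousOn
  have e : (closedBall (0 : ℝ × ℝ) 1)ᶜ =
      (fun q : ℝ × (ℝ × ℝ) => q.1 • q.2) '' (Ioi (1:ℝ) ×ˢ sphere 0 1) := by
    ext x
    rw [mem_compl_iff, mem_closedBall_zero_iff, not_le]
    constructor
    · intro hx
      refine ⟨(‖x‖, ‖x‖⁻¹ • x), ⟨hx, ?_⟩, ?_⟩
      · show ‖x‖⁻¹ • x ∈ sphere (0 : ℝ × ℝ) 1
        rw [mem_sphere_zero_iff_norm, norm_smul, norm_inv, norm_norm,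
          inv_mul_cancel₀ (by linarith : ‖x‖ ≠ 0)]
      · show ‖x‖ • ‖x‖⁻¹ • x = x
        rw [smul_smul, mul_inv_cancel₀ (by linarith : ‖x‖ ≠ 0), one_smul]
    · rintro ⟨⟨s, y⟩, ⟨hs, hy⟩, rfl⟩
      show 1 < ‖s • y‖
      have hy' : ‖y‖ = 1 := mem_sphere_zero_iff_norm.1 hy
      have hs' : (1:ℝ) < s := hs
      rw [norm_smul, hy', mul_one, Real.norm_of_nonneg (by linarith)]
      exact hs'
  rw [e]
  refine IsPreconnected.image ?_ _ (by fun_prop)
  refine isPreconnected_Ioi.prod (isPreconnected_sphere ?_ _ _)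
  rw [rank_prod', Module.rank_self]
  exact_mod_cast (show (1:ℕ) < 1 + 1 by norm_num)

end AmbDisc

/-- a preconnected set missing the frontier lies inside or outside -/
theorem subset_interior_or_compl {X : Type*} [TopologicalSpace X] {D S : Set X}
    (hS : IsPreconnected S) (hD : Disjoint S (frontier D)) : S ⊆ interior D ∨ S ⊆ (closure D)ᶜ := by
  have hcov : S ⊆ interior D ∪ (closure D)ᶜ := by
    intro x hx
    by_contra h
    rw [mem_union, not_or, mem_compl_iff, not_not] at h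
    exact hD.le_bot ⟨hx, h.2, h.1⟩
  exact IsPreconnected.subset_or_subset isOpen_interior isClosed_closure.isOpen_compl
    (disjoint_compl_right.mono_left interior_subset_closure) hcov hS

/-- two ambient discs with the same frontier are equal -/
theorem AmbDisc.eq_of_frontier_eq {D D' : Set (ℝ × ℝ)} (h : AmbDisc D) (h' : AmbDisc D')
    (hf : frontier D = frontier D') : D = D' := by
  have key : ∀ {D D' : Set (ℝ × ℝ)}, AmbDisc D → AmbDisc D' → frontier D = frontier D' →
      D ⊆ D' := by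
    intro D D' h h' hf
    have hdisj : Disjoint D'ᶜ (frontier D) := by
      rw [hf, disjoint_compl_left_iff_subset]
      exact h'.isClosed.frontier_subset
    rcases subset_interior_or_compl h'.isPreconnected_compl hdisj with h1 | h1
    · exfalso
      -- `D'ᶜ ⊆ D` is bounded, impossible
      have hb : Bornology.IsBounded (D'ᶜ) := h.isCompact.isBounded.subset (h1.trans interior_subset)
      have hb' : Bornology.IsBounded (univ : Set (ℝ × ℝ)) := by
        rw [← union_compl_self D']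
        exact h'.isCompact.isBounded.union hb
      exact NormedSpace.unbounded_univ ℝ (ℝ × ℝ) hb'
    · rw [h.isClosed.closure_eq, compl_subset_compl] at h1
      exact h1
  exact (key h h' hf).antisymm (key h' h hf.symm)

/-- a convex body whose frontier is a conical circle is an ambient disc -/
theorem ambDisc_of_convex {K : Set (ℝ × ℝ)} (hK : IsCompact K) (hc : Convex ℝ K)
    (hi : (interior K).Nonempty) (hf : IsCircle (frontier K)) : AmbDisc K := by
  obtain ⟨φ⟩ := hf
  obtain ⟨Φ, _, hΦ⟩ := ConHomeo.exists_ambient_of_convexBody (isCompact_closedBall (0:ℝ × ℝ) 1)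
    (convex_closedBall _ _) (by
      rw [interior_closedBall _ one_ne_zero]; exact nonempty_ball.2 one_pos) hK hc hi
    (φ.cast frontier_square.symm rfl)
  exact ⟨Φ, hΦ⟩

/-- **marking**: every conical homeomorphism from the frontier of a convex body onto the frontier
of an ambient disc extends to an ambient homeomorphism -/
theorem AmbDisc.exists_marked {D : Set (ℝ × ℝ)} (h : AmbDisc D) {K : Set (ℝ × ℝ)}
    (hK : IsCompact K) (hc : Convex ℝ K) (hi : (interior K).Nonempty)
    (φ : ConHomeo (frontier K) (frontier D)) :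
    ∃ Φ : ConHomeo (univ : Set (ℝ × ℝ)) (univ : Set (ℝ × ℝ)), EqOn Φ.toFun φ.toFun (frontier K) ∧
      Φ.toFun '' K = D := by
  obtain ⟨Φ₀, rfl⟩ := h
  have hfr : frontier (Φ₀.toFun '' closedBall 0 1) = Φ₀.toFun '' frontier (closedBall 0 1) :=
    (Φ₀.image_frontier _).symm
  have hcs : ConicalSet (frontier (closedBall (0:ℝ × ℝ) 1)) := by
    rw [frontier_square]; exact locCone_sphere_prod.conicalSet
  let ψ : ConHomeo (frontier K) (frontier (closedBall (0:ℝ × ℝ) 1)) :=
    (φ.cast rfl hfr).trans (Φ₀.restr hcs (subset_univ _)).symm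
  obtain ⟨Ψ, hΨ, hΨK⟩ := ConHomeo.exists_ambient_of_convexBody hK hc hi
    (isCompact_closedBall (0:ℝ × ℝ) 1) (convex_closedBall _ _) (by
      rw [interior_closedBall _ one_ne_zero]; exact nonempty_ball.2 one_pos) ψ
  refine ⟨Ψ.trans Φ₀, ?_, ?_⟩
  · intro x hx
    show Φ₀.toFun (Ψ.toFun x) = φ.toFun x
    rw [hΨ hx]
    show Φ₀.toFun (Φ₀.invFun (φ.toFun x)) = φ.toFun x
    rw [Φ₀.apply_inv]
  · rw [ConHomeo.trans_toFun, image_comp, hΨK]

/-! ### The standard triangle -/

theorem isCompact_tri : IsCompact tri := by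
  have hcl : IsClosed tri :=
    (isClosed_le (f := fun p : ℝ × ℝ => |p.1| + p.2) (by fun_prop) continuous_const).inter
      (isClosed_le continuous_const continuous_snd)
  refine (isCompact_closedBall (0:ℝ × ℝ) 1).of_isClosed_subset hcl ?_
  rintro ⟨x, y⟩ ⟨h1, h2⟩
  simp only at h1 h2
  rw [mem_closedBall_zero_iff, Prod.norm_def]
  simp only [Real.norm_eq_abs, max_le_iff]
  have := abs_nonneg x
  rw [abs_of_nonneg h2]
  constructor <;> linarith

theorem convex_tri : Convex ℝ tri := by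
  have h1 : ConvexOn ℝ univ (fun p : ℝ × ℝ => |p.1| + p.2) := by
    refine ConvexOn.add ?_ ?_
    · have : ConvexOn ℝ univ (fun p : ℝ × ℝ => ‖(LinearMap.fst ℝ ℝ ℝ) p‖) :=
        (convexOn_univ_norm (E := ℝ)).comp_linearMap (LinearMap.fst ℝ ℝ ℝ)
      simpa [Real.norm_eq_abs] using this
    · exact (LinearMap.snd ℝ ℝ ℝ).convexOn convex_univ
  have h2 := h1.convex_le 1
  have h3 : Convex ℝ {p : ℝ × ℝ | 0 ≤ p.2} := convex_halfSpace_ge (LinearMap.snd ℝ ℝ ℝ).isLinear 0
  have h4 := h2.inter h3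
  convert h4 using 1
  ext p
  simp [tri]

theorem interior_tri : interior tri = {p | |p.1| + p.2 < 1 ∧ 0 < p.2} := by
  apply Subset.antisymm
  · intro p hp
    have hpt := interior_subset hp
    rw [mem_interior_iff_mem_nhds] at hp
    have hc : Continuous (fun t : ℝ => ((p.1, p.2 + t) : ℝ × ℝ)) := by fun_prop
    have h0 : ∀ᶠ t : ℝ in 𝓝 0, ((p.1, p.2 + t) : ℝ × ℝ) ∈ tri :=
      hc.continuousAt.preimage_mem_nhds (by simpa using hp)
    rw [Metric.eventually_nhds_iff] at h0
    obtain ⟨ε, hε, H⟩ := h0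
    have a1 := H (y := ε / 2) (by rw [Real.dist_eq, sub_zero, abs_of_pos (by positivity)]; linarith)
    have a2 := H (y := -(ε / 2)) (by
      rw [Real.dist_eq, sub_zero, abs_neg, abs_of_pos (by positivity)]; linarith)
    have b1 : |p.1| + (p.2 + ε / 2) ≤ 1 := a1.1
    have b2 : 0 ≤ p.2 + -(ε / 2) := a2.2
    exact ⟨by linarith, by linarith⟩
  · apply interior_maximal
    · rintro p ⟨h1, h2⟩; exact ⟨h1.le, h2.le⟩
    · exact (isOpen_lt (f := fun p : ℝ × ℝ => |p.1| + p.2) (by fun_prop) continuous_const).inter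
        (isOpen_lt continuous_const continuous_snd)

theorem interior_tri_nonempty : (interior tri).Nonempty := by
  rw [interior_tri]
  exact ⟨(0, 1/2), by simp; norm_num, by norm_num⟩

theorem frontier_tri : frontier tri = roof ∪ bottom := by
  rw [isCompact_tri.isClosed.frontier_eq, interior_tri]
  ext ⟨x, y⟩
  simp only [Set.mem_sdiff, mem_union, tri, roof, bottom, mem_ofPred_eq]
  constructor
  · rintro ⟨⟨h1, h2⟩, h3⟩
    by_cases hy : 0 < y
    · left
      refine ⟨?_, h2⟩
      by_contra hne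
      exact h3 ⟨lt_of_le_of_ne h1 hne, hy⟩
    · right
      have : y = 0 := le_antisymm (not_lt.1 hy) h2
      exact ⟨by rw [this] at h1; linarith, this⟩
  · rintro (⟨h1, h2⟩ | ⟨h1, h2⟩)
    · exact ⟨⟨h1.le, h2⟩, fun h => absurd h.1 (by rw [h1]; exact lt_irrefl _)⟩
    · rw [h2]
      exact ⟨⟨by linarith, le_refl _⟩, fun h => lt_irrefl _ h.2⟩

theorem bottom_eq : bottom = segment ℝ ((-1, 0) : ℝ × ℝ) (1, 0) := by
  ext ⟨x, y⟩
  rw [mem_hseg (by norm_num)]
  simp only [bottom, mem_ofPred_eq, abs_le]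
  tauto

theorem mem_segment_left_roof {x y : ℝ} :
    ((x, y) : ℝ × ℝ) ∈ segment ℝ ((-1, 0) : ℝ × ℝ) (0, 1) ↔ -1 ≤ x ∧ x ≤ 0 ∧ y = 1 + x := by
  rw [segment_eq_image]
  constructor
  · rintro ⟨θ, hθ, h⟩
    simp only [Prod.smul_mk, Prod.mk_add_mk, smul_eq_mul, Prod.mk.injEq] at h
    obtain ⟨h1, h2⟩ := h
    exact ⟨by linarith [hθ.1], by linarith [hθ.2], by linarith⟩
  · rintro ⟨h1, h2, h3⟩
    refine ⟨1 + x, ⟨by linarith, by linarith⟩, ?_⟩
    simp only [Prod.smul_mk, Prod.mk_add_mk, smul_eq_mul, Prod.mk.injEq]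
    constructor
    · ring
    · rw [h3]; ring

theorem mem_segment_right_roof {x y : ℝ} :
    ((x, y) : ℝ × ℝ) ∈ segment ℝ ((0, 1) : ℝ × ℝ) (1, 0) ↔ 0 ≤ x ∧ x ≤ 1 ∧ y = 1 - x := by
  rw [segment_eq_image]
  constructor
  · rintro ⟨θ, hθ, h⟩
    simp only [Prod.smul_mk, Prod.mk_add_mk, smul_eq_mul, Prod.mk.injEq] at h
    obtain ⟨h1, h2⟩ := h
    exact ⟨by linarith [hθ.1], by linarith [hθ.2], by linarith⟩
  · rintro ⟨h1, h2, h3⟩
    refine ⟨x, ⟨by linarith, by linarith⟩, ?_⟩
    simp only [Prod.smul_mk, Prod.mk_add_mk, smul_eq_mul, Prod.mk.injEq]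
    constructor
    · ring
    · rw [h3]; ring

theorem roof_eq : roof = segment ℝ ((-1, 0) : ℝ × ℝ) (0, 1) ∪ segment ℝ ((0, 1) : ℝ × ℝ) (1, 0) := by
  ext ⟨x, y⟩
  rw [mem_union, mem_segment_left_roof, mem_segment_right_roof]
  simp only [roof, mem_ofPred_eq]
  constructor
  · rintro ⟨h1, h2⟩
    rcases le_total x 0 with h | h
    · left
      rw [abs_of_nonpos h] at h1
      exact ⟨by linarith, h, by linarith⟩
    · right
      rw [abs_of_nonneg h] at h1
      exact ⟨h, by linarith, by linarith⟩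
  · rintro (⟨h1, h2, h3⟩ | ⟨h1, h2, h3⟩)
    · rw [abs_of_nonpos h2]; exact ⟨by linarith, by linarith⟩
    · rw [abs_of_nonneg h1]; exact ⟨by linarith, by linarith⟩

theorem isArc_bottom : IsArc bottom ((-1, 0) : ℝ × ℝ) (1, 0) := by
  rw [bottom_eq]
  refine isArc_segment ?_
  intro h; have := congrArg Prod.fst h; norm_num at this

theorem isArc_roof : IsArc roof ((-1, 0) : ℝ × ℝ) (1, 0) := by
  rw [roof_eq]
  refine (isArc_segment ?_).trans (isArc_segment ?_) ?_
  · intro h; have := congrArg Prod.snd h; norm_num at this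
  · intro h; have := congrArg Prod.fst h; norm_num at this
  · rintro ⟨x, y⟩ ⟨h1, h2⟩
    rw [mem_segment_left_roof] at h1
    rw [mem_segment_right_roof] at h2
    rw [mem_singleton_iff, Prod.mk.injEq]
    exact ⟨le_antisymm h1.2.1 h2.1, by linarith [le_antisymm h1.2.1 h2.1]⟩

theorem roof_inter_bottom : roof ∩ bottom ⊆ {((-1, 0) : ℝ × ℝ), (1, 0)} := by
  rintro ⟨x, y⟩ ⟨⟨h1, h2⟩, ⟨h3, h4⟩⟩
  simp only at h1 h2 h3 h4
  rw [h4, add_zero] at h1
  rcases eq_or_eq_neg_of_abs_eq h1 with h | h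
  · right; rw [mem_singleton_iff, h, h4]
  · left; rw [h, h4]

theorem ambDisc_tri : AmbDisc tri := by
  refine ambDisc_of_convex isCompact_tri convex_tri interior_tri_nonempty ?_
  rw [frontier_tri]
  exact isCircle_of_arcs isArc_roof isArc_bottom roof_inter_bottom

end P073
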