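import Vale.Agent.P073.SCH.Cyc
import Vale.Agent.P073.LAB.Spec

/-! `SpecCyc` of `LAB/Spec.lean` -/

open Set Metric Topology Filter

namespace P073.SCH

theorem specCyc : LAB.SpecCyc := by
  intro E _ _ Γ hΓ I _ G hcard hG hGc hGn hGΓ hGG _ X hX ε hε
  obtain ⟨n, hn⟩ : ∃ n, Fintype.card I = n + 1 := ⟨Fintype.card I - 1, by omega⟩
  have key := exists_cyclic_arcs hΓ hn (by omega) hG (fun i => (hGc i).isPreconnected) hGn hGΓ hGG
    hX hε
  rw [hn]
  exact key

end P073.SCH
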