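import Vale.Agent.P073.SCH.DiscIn
import Vale.Agent.P073.PT.Spec

/-! `SchDisc` of `PT/Spec.lean` -/

namespace P073.SCH

theorem specSchDisc (E : Type) [NormedAddCommGroup E] [NormedSpace ℝ E] : PT.SchDisc E :=
  fun _ _ _ h1 h2 h3 => schDisc h1 h2 h3

end P073.SCH
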