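import Vale.Agent.P073.SCH.CircleParam
import Vale.Agent.P073.H339.Glue2
import Vale.Agent.P073.H339.Arcs2

/-!
# P073, block SCH: cyclic order of arcs tiling a conical circle (`SpecCyc` of helper865)
-/

open Set Metric Topology Filter

namespace P073.SCH

/-- **Cyclic order of intervals tiling the real line modulo 1.** -/
theorem exists_cyclic_order {I : Type*} [Fintype I] {n : ℕ} (hn : Fintype.card I = n + 1)
    (a b : I → ℝ) (ha0 : ∀ i, 0 ≤ a i) (ha1 : ∀ i, a i < 1) (hab : ∀ i, a i < b i)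
    (hdis : ∀ i j (m : ℤ), (i ≠ j ∨ m ≠ 0) → Disjoint (Ioo (a i) (b i)) (Ioo (a j + m) (b j + m)))
    (hcov : ∀ t : ℝ, ∃ i, ∃ m : ℤ, t ∈ Icc (a i + m) (b i + m)) :
    ∃ c : Fin (n + 1) ≃ I, StrictMono (a ∘ c) ∧
      ∀ j, b (c j) = a (c (j + 1)) + if j = Fin.last n then 1 else 0 := by
  classical
  have hinj : Function.Injective a := by
    intro i j hij
    by_contra hne
    have h := hdis i j 0 (Or.inl hne)
    rw [Set.disjoint_left] at h
    set x := a i + min (b i - a i) (b j - a j) / 2 with hx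
    have h1 := hab i
    have h2 := hab j
    have hmin : 0 < min (b i - a i) (b j - a j) := lt_min (by linarith) (by linarith)
    have m1 := min_le_left (b i - a i) (b j - a j)
    have m2 := min_le_right (b i - a i) (b j - a j)
    refine h (a := x) ⟨by linarith, by linarith⟩ ⟨?_, ?_⟩
    · push_cast; rw [← hij]; linarith
    · push_cast; linarith
  -- sorted enumeration
  set S : Finset ℝ := Finset.univ.image a with hS
  have hScard : S.card = n + 1 := by
    rw [hS, Finset.card_image_of_injective _ hinj, Finset.card_univ, hn]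
  let e := S.orderEmbOfFin hScard
  have he : ∀ j, ∃ i, a i = e j := by
    intro j
    have h1 : e j ∈ S := Finset.orderEmbOfFin_mem S hScard j
    rw [hS, Finset.mem_image] at h1
    obtain ⟨i, -, hi⟩ := h1
    exact ⟨i, hi⟩
  choose c₀ hc₀ using he
  have hc₀inj : Function.Injective c₀ := by
    intro i j hij
    apply e.injective
    rw [← hc₀, ← hc₀, hij]
  have hc₀bij : Function.Bijective c₀ := by
    rw [Fintype.bijective_iff_injective_and_card]
    exact ⟨hc₀inj, by rw [Fintype.card_fin, hn]⟩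
  let c : Fin (n + 1) ≃ I := Equiv.ofBijective c₀ hc₀bij
  have hce : ∀ j, a (c j) = e j := hc₀
  have hmono : StrictMono (a ∘ c) := by
    intro i j hij
    show a (c i) < a (c j)
    rw [hce, hce]
    exact e.strictMono hij
  have hmle : ∀ {i j : Fin (n + 1)}, i ≤ j → a (c i) ≤ a (c j) := fun h => hmono.monotone h
  refine ⟨c, hmono, ?_⟩
  intro j
  set w : ℤ := if j = Fin.last n then 1 else 0 with hw
  have hwr : (if j = Fin.last n then (1:ℝ) else 0) = (w : ℝ) := by
    rw [hw]; split_ifs <;> simp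
  rw [hwr]
  -- successor property
  have hnx : a (c j) < a (c (j + 1)) + w := by
    by_cases hj : j = Fin.last n
    · have : w = 1 := by rw [hw, if_pos hj]
      rw [this]
      have h1 := ha1 (c j)
      have h2 := ha0 (c (j + 1))
      push_cast; linarith
    · have h0 : w = 0 := by rw [hw, if_neg hj]
      rw [h0]
      push_cast
      rw [add_zero]
      apply hmono
      rw [Fin.lt_def, Fin.val_add_one, if_neg hj]
      omega
  have hsucc : ∀ (l : I) (m : ℤ), a l + m < a (c (j + 1)) + w → a l + m ≤ a (c j) := by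
    intro l m hlm
    obtain ⟨i, rfl⟩ := c.surjective l
    have l0 := ha0 (c i)
    have l1 := ha1 (c i)
    have j0 := ha0 (c j)
    by_cases hj : j = Fin.last n
    · have hw1 : w = 1 := by rw [hw, if_pos hj]
      rw [hw1] at hlm
      have hj0 : j + 1 = 0 := by rw [hj]; exact Fin.last_add_one n
      rw [hj0] at hlm
      push_cast at hlm
      have h1 : a (c 0) ≤ a (c i) := hmle (Fin.zero_le i)
      have h2 : ((m:ℤ):ℝ) < 1 := by linarith
      have h3 : m < 1 := by exact_mod_cast h2
      have h4 : m ≤ 0 := by omega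
      have h5 : ((m:ℤ):ℝ) ≤ 0 := by exact_mod_cast h4
      have h6 : a (c i) ≤ a (c j) := by rw [hj]; exact hmle (Fin.le_last i)
      linarith
    · have hw0 : w = 0 := by rw [hw, if_neg hj]
      rw [hw0] at hlm
      push_cast at hlm
      rw [add_zero] at hlm
      have h1 := ha1 (c (j + 1))
      have h2 : ((m:ℤ):ℝ) < 1 := by linarith
      have h3 : m < 1 := by exact_mod_cast h2
      rcases lt_or_eq_of_le (show m ≤ 0 by omega) with h4 | h4
      · have h5 : m ≤ -1 := by omega
        have h6 : ((m:ℤ):ℝ) ≤ -1 := by exact_mod_cast h5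
        linarith
      · rw [h4] at hlm ⊢
        push_cast at hlm ⊢
        rw [add_zero] at hlm ⊢
        apply hmle
        by_contra hcon
        push Not at hcon
        have h5 : j + 1 ≤ i := by
          rw [Fin.le_def, Fin.val_add_one, if_neg hj]
          rw [Fin.lt_def] at hcon
          omega
        have := hmle h5
        linarith
  have hne : ∀ (l : I) (m : ℤ), a l + m ≠ a (c j) → (c j ≠ l ∨ m ≠ 0) := by
    intro l m h
    by_contra hcon
    push Not at hcon
    apply h
    rw [← hcon.1, hcon.2]; simp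
  apply le_antisymm
  · by_contra hlt
    push Not at hlt
    have h := hdis (c j) (c (j + 1)) w (hne _ _ hnx.ne')
    rw [Set.disjoint_left] at h
    set x0 := a (c (j + 1)) + w with hx0
    have h2 := hab (c (j + 1))
    have hmin : 0 < min (b (c j) - x0) (b (c (j + 1)) + w - x0) :=
      lt_min (by linarith) (by rw [hx0]; linarith)
    have m1 := min_le_left (b (c j) - x0) (b (c (j + 1)) + w - x0)
    have m2 := min_le_right (b (c j) - x0) (b (c (j + 1)) + w - x0)
    exact h (a := x0 + min (b (c j) - x0) (b (c (j + 1)) + w - x0) / 2)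
      ⟨by linarith, by linarith⟩ ⟨by linarith, by linarith⟩
  · by_contra hlt
    push Not at hlt
    obtain ⟨l, m, hx1, hx2⟩ := hcov ((b (c j) + (a (c (j + 1)) + w)) / 2)
    have h1 := hsucc l m (by linarith)
    rcases eq_or_lt_of_le h1 with h2 | h2
    · -- same interval
      have l0 := ha0 l
      have l1 := ha1 l
      have j0 := ha0 (c j)
      have j1 := ha1 (c j)
      have h3 : ((m:ℤ):ℝ) < 1 := by linarith
      have h4 : (-1:ℝ) < ((m:ℤ):ℝ) := by linarith
      have h5 : m < 1 := by exact_mod_cast h3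
      have h6 : -1 < m := by exact_mod_cast h4
      have h7 : m = 0 := by omega
      rw [h7] at h2 hx2
      push_cast at h2 hx2
      rw [add_zero] at h2 hx2
      rw [hinj h2] at hx2
      linarith
    · have h := hdis (c j) l m (hne _ _ h2.ne)
      rw [Set.disjoint_left] at h
      have h3 := hab (c j)
      exact h (a := (a (c j) + b (c j)) / 2) ⟨by linarith, by linarith⟩
        ⟨by linarith, by linarith⟩

variable {E : Type*} [NormedAddCommGroup E] [NormedSpace ℝ E]

/-- **Cyclic order of closed connected sets tiling a conical circle, with perturbed cut points.** -/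
theorem exists_cyclic_arcs {Γ : Set E} (hΓ : ConSphere 1 Γ) {I : Type*} [Fintype I] {n : ℕ}
    (hn : Fintype.card I = n + 1) (hn1 : 1 ≤ n) {G : I → Set E} (hG : ∀ i, IsClosed (G i))
    (hGc : ∀ i, IsPreconnected (G i)) (hGn : ∀ i, (G i).Nontrivial) (hGΓ : ⋃ i, G i = Γ)
    (hGG : ∀ i j, i ≠ j → (G i ∩ G j).Subsingleton) {X : Set E} (hX : X.Finite)
    {ε : ℝ} (hε : 0 < ε) :
    ∃ (c : Fin (n + 1) ≃ I) (z : Fin (n + 1) → E) (A : Fin (n + 1) → Set E),
      (∀ i, z i ∉ X) ∧ (∀ i, ConBall 1 (A i) {z i, z (i + 1)}) ∧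
      (∀ i j, i ≠ j → ∀ p ∈ A i ∩ A j, (j = i + 1 ∧ p = z j) ∨ (i = j + 1 ∧ p = z i)) ∧
      (⋃ i, A i = Γ) ∧ ∀ i, ∀ p ∈ A i, ∃ q ∈ G (c i), dist p q < ε := by
  classical
  obtain ⟨γ, hγ⟩ := (H339.conSphere_iff.1 hΓ).exists_param
  have hsub : ∀ i, G i ⊆ Γ := fun i => hGΓ ▸ subset_iUnion G i
  -- no `G i` is everything
  have hproper : ∀ i, ∃ p ∈ Γ, p ∉ G i := by
    intro i
    by_contra hcon
    push Not at hcon
    have : Nontrivial I := by
      rw [← Fintype.one_lt_card_iff_nontrivial, hn]; omega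
    obtain ⟨j, hj⟩ := exists_ne i
    obtain ⟨x, hx, y, hy, hxy⟩ := hGn j
    exact hxy (hGG i j hj.symm ⟨hcon x (hsub j hx), hx⟩ ⟨hcon y (hsub j hy), hy⟩)
  have key : ∀ i, ∃ a b : ℝ, 0 ≤ a ∧ a < 1 ∧ a < b ∧ b < a + 1 ∧ G i = γ '' Icc a b :=
    fun i => hγ.exists_Icc (hG i) (hGc i) (hGn i) (hsub i) (hproper i)
  choose a b ha0 ha1 hab hb hGab using key
  have hγne : ∀ s t : ℝ, s < t → t < s + 1 → γ s ≠ γ t := by
    intro s t hst hts h
    obtain ⟨m, hm⟩ := hγ.inj s t h
    have h1 : ((m:ℤ):ℝ) < 0 := by linarith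
    have h2 : (-1:ℝ) < ((m:ℤ):ℝ) := by linarith
    have h3 : m < 0 := by exact_mod_cast h1
    have h4 : -1 < m := by exact_mod_cast h2
    omega
  have hshift : ∀ (j : I) (m : ℤ) (t : ℝ), t ∈ Icc (a j + m) (b j + m) → γ t ∈ G j := by
    intro j m t ht
    rw [hGab j]
    refine ⟨t - m, ⟨by linarith [ht.1], by linarith [ht.2]⟩, ?_⟩
    have := hγ.add_int (t - m) m
    rw [← this]; congr 1; ring
  have hdis : ∀ i j (m : ℤ), (i ≠ j ∨ m ≠ 0) →
      Disjoint (Ioo (a i) (b i)) (Ioo (a j + m) (b j + m)) := by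
    intro i j m h
    rw [Set.disjoint_left]
    intro t ht ht'
    by_cases hij : i = j
    · subst hij
      have hm : m ≠ 0 := h.resolve_left (fun h => h rfl)
      have hbi := hb i
      rcases lt_or_gt_of_ne hm with h1 | h1
      · have h2 : m ≤ -1 := by omega
        have h3 : ((m:ℤ):ℝ) ≤ -1 := by exact_mod_cast h2
        linarith [ht.1, ht'.2]
      · have h2 : 1 ≤ m := by omega
        have h3 : (1:ℝ) ≤ ((m:ℤ):ℝ) := by exact_mod_cast h2
        linarith [ht.2, ht'.1]
    · -- two different points in the intersection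
      set s := t + min (b i - t) (b j + m - t) / 2 with hs
      have hmin : 0 < min (b i - t) (b j + m - t) :=
        lt_min (by linarith [ht.2]) (by linarith [ht'.2])
      have m1 := min_le_left (b i - t) (b j + m - t)
      have m2 := min_le_right (b i - t) (b j + m - t)
      have hts : t < s := by linarith
      refine hγne t s hts ?_ (hGG i j hij ⟨?_, ?_⟩ ⟨?_, ?_⟩)
      · linarith [ht.1, hb i]
      · rw [hGab i]; exact ⟨t, ⟨ht.1.le, ht.2.le⟩, rfl⟩
      · exact hshift j m t ⟨ht'.1.le, ht'.2.le⟩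
      · rw [hGab i]; exact ⟨s, ⟨by linarith [ht.1], by linarith⟩, rfl⟩
      · exact hshift j m s ⟨by linarith [ht'.1], by linarith⟩
  have hcov : ∀ t : ℝ, ∃ i, ∃ m : ℤ, t ∈ Icc (a i + m) (b i + m) := by
    intro t
    have h1 : γ t ∈ ⋃ i, G i := by rw [hGΓ]; exact hγ.mem t
    obtain ⟨i, hi⟩ := mem_iUnion.1 h1
    rw [hGab i] at hi
    obtain ⟨s, hs, hst⟩ := hi
    obtain ⟨m, hm⟩ := hγ.inj t s hst.symm
    exact ⟨i, m, ⟨by linarith [hs.1], by linarith [hs.2]⟩⟩
  obtain ⟨c, hmono, hbc⟩ := exists_cyclic_order hn a b ha0 ha1 hab hdis hcov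
  -- small shift
  obtain ⟨η, hη, hηd⟩ : ∃ η > 0, ∀ i, ∀ u ∈ Icc (0:ℝ) η, dist (γ (a i + u)) (γ (a i)) < ε := by
    have h1 : ∀ i, ∃ η > 0, ∀ u ∈ Icc (0:ℝ) η, dist (γ (a i + u)) (γ (a i)) < ε := by
      intro i
      obtain ⟨δ, hδ, H⟩ := Metric.continuous_iff.1 hγ.cont (a i) ε hε
      refine ⟨δ / 2, by positivity, fun u hu => H _ ?_⟩
      rw [Real.dist_eq, add_sub_cancel_left, abs_of_nonneg hu.1]
      linarith [hu.2]
    choose η hη0 hη1 using h1
    have hI : Nonempty I := Fintype.card_pos_iff.1 (by rw [hn]; omega)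
    refine ⟨Finset.univ.inf' Finset.univ_nonempty η, ?_, fun i u hu => hη1 i u ⟨hu.1, ?_⟩⟩
    · rw [gt_iff_lt, Finset.lt_inf'_iff]; intro i _; exact hη0 i
    · exact hu.2.trans (Finset.inf'_le _ (Finset.mem_univ i))
  obtain ⟨δ, hδ0, hδη, hδ1, hδX⟩ : ∃ δ : ℝ, 0 < δ ∧ δ < η ∧ δ < 1 ∧ ∀ i, γ (a i + δ) ∉ X := by
    have hbad : {δ : ℝ | δ ∈ Ioo (0:ℝ) (min η 1) ∧ ∃ i, γ (a i + δ) ∈ X}.Finite := by
      have hsub : {δ : ℝ | δ ∈ Ioo (0:ℝ) (min η 1) ∧ ∃ i, γ (a i + δ) ∈ X} ⊆
          ⋃ i, {δ : ℝ | δ ∈ Ioo (0:ℝ) 1 ∧ γ (a i + δ) ∈ X} := by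
        rintro δ ⟨h1, i, hi⟩
        exact mem_iUnion.2 ⟨i, ⟨h1.1, h1.2.trans_le (min_le_right _ _)⟩, hi⟩
      refine (finite_iUnion fun i => ?_).subset hsub
      refine Set.Finite.of_finite_image (f := fun δ => γ (a i + δ)) (hX.subset ?_) ?_
      · rintro _ ⟨δ, hδ, rfl⟩; exact hδ.2
      · intro u hu v hv huv
        by_contra hne
        rcases lt_or_gt_of_ne hne with h | h
        · exact hγne (a i + u) (a i + v) (by linarith) (by linarith [hu.1.1, hv.1.2]) huv
        · exact hγne (a i + v) (a i + u) (by linarith) (by linarith [hv.1.1, hu.1.2]) huv.symm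
    have hinf : (Ioo (0:ℝ) (min η 1)).Infinite := Ioo_infinite (lt_min hη one_pos)
    obtain ⟨δ, hδ1, hδ2⟩ := hinf.exists_notMem_finite hbad
    refine ⟨δ, hδ1.1, hδ1.2.trans_le (min_le_left _ _), hδ1.2.trans_le (min_le_right _ _), ?_⟩
    intro i hi
    exact hδ2 ⟨hδ1, i, hi⟩
  set τ : Fin (n + 1) → ℝ := fun j => a (c j) + δ with hτ
  have hw : ∀ j : Fin (n + 1), ∃ w : ℤ, (if j = Fin.last n then (1:ℝ) else 0) = w := by
    intro j
    split_ifs
    · exact ⟨1, by simp⟩
    · exact ⟨0, by simp⟩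
  have hγb : ∀ j u, γ (b (c j) + u) = γ (a (c (j + 1)) + u) := by
    intro j u
    obtain ⟨w, hw⟩ := hw j
    rw [hbc j, hw]
    have := hγ.add_int (a (c (j + 1)) + u) w
    rw [← this]; congr 1; ring
  -- endpoints of the arcs
  have hend : ∀ j, γ (b (c j) + δ) = γ (τ (j + 1)) := fun j => hγb j δ
  have harc : ∀ j, IsArc (γ '' Icc (τ j) (b (c j) + δ)) (γ (τ j)) (γ (τ (j + 1))) := by
    intro j
    rw [← hend j]
    refine hγ.isArc ?_ ?_
    · show a (c j) + δ < b (c j) + δ
      linarith [hab (c j)]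
    · show b (c j) + δ < a (c j) + δ + 1
      linarith [hb (c j)]
  -- order facts
  have hblast : b (c (Fin.last n)) = a (c 0) + 1 := by
    rw [hbc, if_pos rfl, Fin.last_add_one]
  have hble : ∀ {i j : Fin (n + 1)}, i < j → b (c i) ≤ a (c j) := by
    intro i j hij
    have hi : i ≠ Fin.last n := by
      rintro rfl
      exact absurd hij (not_lt.2 (Fin.le_last j))
    rw [hbc i, if_neg hi, add_zero]
    apply hmono.monotone
    rw [Fin.le_def, Fin.val_add_one, if_neg hi]
    rw [Fin.lt_def] at hij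
    omega
  have hb1 : ∀ j, b (c j) ≤ a (c 0) + 1 := by
    intro j
    rcases eq_or_lt_of_le (Fin.le_last j) with h | h
    · rw [h, hblast]
    · have := hble h
      have h2 := hab (c (Fin.last n))
      rw [hblast] at h2
      linarith
  have ha0' : ∀ j, a (c 0) ≤ a (c j) := fun j => hmono.monotone (Fin.zero_le j)
  -- intersections, ordered version
  have hint : ∀ i j, i < j → ∀ p ∈ γ '' Icc (τ i) (b (c i) + δ) ∩ γ '' Icc (τ j) (b (c j) + δ),
      (j = i + 1 ∧ p = γ (τ j)) ∨ (i = j + 1 ∧ p = γ (τ i)) := by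
    rintro i j hij p ⟨⟨s, hs, rfl⟩, ⟨t, ht, hts⟩⟩
    obtain ⟨m, hm⟩ := hγ.inj t s hts
    have h1 : s ≤ b (c i) + δ := hs.2
    have h2 : a (c j) + δ ≤ t := ht.1
    have h3 : t ≤ b (c j) + δ := ht.2
    have h4 : a (c i) + δ ≤ s := hs.1
    have h5 := hble hij
    have h6 := hb1 j
    have h7 := ha0' i
    have m0 : (0:ℝ) ≤ ((m:ℤ):ℝ) := by linarith
    have m1 : ((m:ℤ):ℝ) ≤ 1 := by linarith
    have m0' : 0 ≤ m := by exact_mod_cast m0
    have m1' : m ≤ 1 := by exact_mod_cast m1
    rcases (show m = 0 ∨ m = 1 by omega) with h | h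
    · left
      rw [h] at hm
      push_cast at hm
      rw [add_zero] at hm
      have e1 : b (c i) = a (c j) := by linarith
      have hi : i ≠ Fin.last n := by
        rintro rfl
        exact absurd hij (not_lt.2 (Fin.le_last j))
      have e2 : a (c (i + 1)) = a (c j) := by
        rw [← e1, hbc i, if_neg hi, add_zero]
      have e3 : i + 1 = j := hmono.injective e2
      refine ⟨e3.symm, ?_⟩
      have : s = τ j := by show s = a (c j) + δ; linarith
      rw [this]
    · right
      rw [h] at hm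
      push_cast at hm
      have e1 : a (c 0) = a (c i) := by linarith
      have e2 : (0 : Fin (n + 1)) = i := hmono.injective e1
      have e3 : b (c j) = a (c 0) + 1 := by linarith
      have e4 : j = Fin.last n := by
        by_contra hne
        have hlt : j < Fin.last n := lt_of_le_of_ne (Fin.le_last j) hne
        have h8 := hble hlt
        have h9 := hab (c (Fin.last n))
        rw [hblast] at h9
        linarith
      refine ⟨by rw [e4, Fin.last_add_one, e2], ?_⟩
      have : s = τ i := by show s = a (c i) + δ; linarith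
      rw [this]
  refine ⟨c, fun j => γ (τ j), fun j => γ '' Icc (τ j) (b (c j) + δ), ?_, ?_, ?_, ?_, ?_⟩
  · intro j; exact hδX (c j)
  · intro j; exact H339.isArc_iff_conBall.1 (harc j)
  · intro i j hij p hp
    rcases lt_or_gt_of_ne hij with h | h
    · exact hint i j h p hp
    · rcases hint j i h p ⟨hp.2, hp.1⟩ with h' | h'
      · exact Or.inr h'
      · exact Or.inl h'
  · apply Subset.antisymm
    · refine iUnion_subset fun j => ?_
      rintro _ ⟨t, _, rfl⟩
      exact hγ.mem t
    · intro x hx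
      obtain ⟨t, ht, rfl⟩ := hγ.exists_mem_Ico (τ 0) hx
      -- the last index with `τ j ≤ t`
      have hne : (Finset.univ.filter fun j : Fin (n + 1) => τ j ≤ t).Nonempty :=
        ⟨0, by simp [ht.1]⟩
      obtain ⟨j, hj, hmax⟩ := Finset.exists_max_image _ (fun j : Fin (n + 1) => j) hne
      rw [Finset.mem_filter] at hj
      refine mem_iUnion.2 ⟨j, t, ⟨hj.2, ?_⟩, rfl⟩
      by_cases hjl : j = Fin.last n
      · rw [hjl, hblast]
        have h2 : t < τ 0 + 1 := ht.2
        have h3 : τ 0 = a (c 0) + δ := rfl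
        linarith
      · by_contra hlt
        push Not at hlt
        rw [hbc j, if_neg hjl, add_zero] at hlt
        have h3 : j + 1 ≤ j := hmax (j + 1) (by
          rw [Finset.mem_filter]
          exact ⟨Finset.mem_univ _, hlt.le⟩)
        rw [Fin.le_def, Fin.val_add_one, if_neg hjl] at h3
        omega
  · rintro j _ ⟨t, ht, rfl⟩
    rcases le_or_gt t (b (c j)) with h | h
    · refine ⟨γ t, ?_, by rw [dist_self]; exact hε⟩
      rw [hGab (c j)]
      exact ⟨t, ⟨by have : a (c j) + δ ≤ t := ht.1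
                    linarith, h⟩, rfl⟩
    · refine ⟨γ (b (c j)), ?_, ?_⟩
      · rw [hGab (c j)]
        exact ⟨b (c j), ⟨(hab (c j)).le, le_refl _⟩, rfl⟩
      · have e1 : γ t = γ (a (c (j + 1)) + (t - b (c j))) := by
          rw [← hγb j (t - b (c j))]; congr 1; ring
        have e2 : γ (b (c j)) = γ (a (c (j + 1))) := by
          have := hγb j 0
          rwa [add_zero, add_zero] at this
        rw [e1, e2]
        apply hηd
        constructor
        · linarith
        · have : t ≤ b (c j) + δ := ht.2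
          linarith

end P073.SCH
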