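import Vale.Agent.P073.SCH.Disc

/-!
# P073, block SCH: the diagonal lemma in normal position `b = (0,1)`, `c = (1,0)`, `a = (-1,0)`
-/

open Set Metric Topology Filter

namespace P073.SCH

open H339

/-- walking upwards inside the triangle one does not leave it -/
theorem walk_up {z p : ℝ × ℝ} (hseg : segment ℝ z p ∩ roof ⊆ {(-1, 0), (1, 0)})
    (hz : 0 < z.2) (hgz : |z.1| + z.2 < 1) (hp : z.2 ≤ p.2) : |p.1| + p.2 < 1 := by
  by_contra hlt
  push Not at hlt
  have hc : ContinuousOn (fun t : ℝ => |z.1 + t * (p.1 - z.1)| + (z.2 + t * (p.2 - z.2)))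
      (Icc (0:ℝ) 1) := by fun_prop
  have h1 := intermediate_value_Icc (zero_le_one' ℝ) hc
  have h2 : (1:ℝ) ∈ Icc (|z.1 + 0 * (p.1 - z.1)| + (z.2 + 0 * (p.2 - z.2)))
      (|z.1 + 1 * (p.1 - z.1)| + (z.2 + 1 * (p.2 - z.2))) := by
    constructor
    · simp only [zero_mul, add_zero]; exact hgz.le
    · simp only [one_mul, add_sub_cancel]; exact hlt
  obtain ⟨t, ht, h3⟩ := h1 h2
  simp only at h3
  set y : ℝ × ℝ := (z.1 + t * (p.1 - z.1), z.2 + t * (p.2 - z.2)) with hy
  have hy2 : 0 < y.2 := by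
    show 0 < z.2 + t * (p.2 - z.2)
    have := mul_nonneg ht.1 (sub_nonneg.2 hp)
    linarith
  have hyr : y ∈ roof := ⟨h3, hy2.le⟩
  have hys : y ∈ segment ℝ z p := by
    rw [segment_eq_image]
    refine ⟨t, ht, ?_⟩
    apply Prod.ext
    · show (1 - t) * z.1 + t * p.1 = z.1 + t * (p.1 - z.1)
      ring
    · show (1 - t) * z.2 + t * p.2 = z.2 + t * (p.2 - z.2)
      ring
  rcases hseg ⟨hys, hyr⟩ with h | h
  · rw [h] at hy2; exact lt_irrefl _ hy2
  · rw [mem_singleton_iff.1 h] at hy2; exact lt_irrefl _ hy2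

theorem mem_segment_prod {z p q : ℝ × ℝ} (h : z ∈ segment ℝ p q) :
    ∃ t ∈ Icc (0:ℝ) 1, z.1 = (1 - t) * p.1 + t * q.1 ∧ z.2 = (1 - t) * p.2 + t * q.2 := by
  rw [segment_eq_image] at h
  obtain ⟨t, ht, rfl⟩ := h
  exact ⟨t, ht, rfl, rfl⟩

/-- no point of the arc strictly inside the triangle above the level of all the vertices in the
triangle -/
theorem no_high_point {m : List (ℝ × ℝ)} {h : ℝ} (hh : 0 ≤ h)
    (hroof : pcar ((1, 0) :: (m ++ [(-1, 0)])) ∩ roof ⊆ {((-1, 0) : ℝ × ℝ), (1, 0)})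
    (hm : ∀ d ∈ m, d ∈ tri → d.2 ≤ h) {z : ℝ × ℝ} (hz : z ∈ pcar ((1, 0) :: (m ++ [(-1, 0)])))
    (hgz : |z.1| + z.2 < 1) (hzh : h < z.2) : False := by
  have hz0 : 0 < z.2 := hh.trans_lt hzh
  have hlist : ∃ y l', (1, 0) :: (m ++ [(-1, 0)]) = ((1, 0) : ℝ × ℝ) :: y :: l' := by
    cases m with
    | nil => exact ⟨_, _, rfl⟩
    | cons y l => exact ⟨_, _, rfl⟩
  obtain ⟨y, l', hl'⟩ := hlist
  have hz' := hz
  rw [hl'] at hz'
  obtain ⟨l₁, p, q, l₂, h1, h2⟩ := exists_edge hz'
  rw [← hl'] at h1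
  have hsub : segment ℝ p q ⊆ pcar ((1, 0) :: (m ++ [(-1, 0)])) := by
    rw [h1]; exact segment_subset_pcar l₁ p q l₂
  have key : ∀ w ∈ ((1, 0) :: (m ++ [(-1, 0)]) : List (ℝ × ℝ)), segment ℝ z w ⊆ segment ℝ p q →
      z.2 ≤ w.2 → False := by
    intro w hw hws hzw
    have h3 := walk_up (z := z) (p := w) (fun x hx => hroof ⟨hsub (hws hx.1), hx.2⟩) hz0 hgz hzw
    have hwt : w ∈ tri := ⟨h3.le, hz0.le.trans hzw⟩
    have hwm : w ∈ m := by
      rw [List.mem_cons, List.mem_append, List.mem_singleton] at hw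
      rcases hw with h | h | h
      · exfalso
        rw [h] at hzw
        have : z.2 ≤ 0 := hzw
        linarith
      · exact h
      · exfalso
        rw [h] at hzw
        have : z.2 ≤ 0 := hzw
        linarith
    have := hm w hwm hwt
    linarith
  have hpm : p ∈ ((1, 0) :: (m ++ [(-1, 0)]) : List (ℝ × ℝ)) := by rw [h1]; simp
  have hqm : q ∈ ((1, 0) :: (m ++ [(-1, 0)]) : List (ℝ × ℝ)) := by rw [h1]; simp
  obtain ⟨t, ht, e1, e2⟩ := mem_segment_prod h2
  have hconv := convex_segment (𝕜 := ℝ) p q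
  rcases le_total z.2 p.2 with h | h
  · exact key p hpm (hconv.segment_subset h2 (left_mem_segment ℝ p q)) h
  · refine key q hqm (hconv.segment_subset h2 (right_mem_segment ℝ p q)) ?_
    by_contra hlt
    push Not at hlt
    rcases eq_or_lt_of_le ht.1 with h0 | h0
    · rw [← h0] at e2
      have : z.2 = p.2 := by linarith
      -- then `z = p`
      exact key p hpm (hconv.segment_subset h2 (left_mem_segment ℝ p q)) this.le
    · have a1 : (1 - t) * p.2 ≤ (1 - t) * z.2 := mul_le_mul_of_nonneg_left h (by linarith [ht.2])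
      have a2 : t * q.2 < t * z.2 := mul_lt_mul_of_pos_left hlt h0
      nlinarith

/-- **Diagonal lemma** in normal position. -/
theorem exists_diagonal {m : List (ℝ × ℝ)} (hs : psimple ((1, 0) :: (m ++ [(-1, 0)])))
    (hroof : pcar ((1, 0) :: (m ++ [(-1, 0)])) ∩ roof ⊆ {((-1, 0) : ℝ × ℝ), (1, 0)})
    (hb : ((0, 1) : ℝ × ℝ) ∉ pcar ((1, 0) :: (m ++ [(-1, 0)]))) :
    m = [] ∨ pcar ((1, 0) :: (m ++ [(-1, 0)])) ∩ tri ⊆ {((-1, 0) : ℝ × ℝ), (1, 0)} ∨
    ∃ d ∈ m, |d.1| + d.2 < 1 ∧ 0 ≤ d.2 ∧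
      segment ℝ (0, 1) d ∩ pcar ((1, 0) :: (m ++ [(-1, 0)])) ⊆ {d} := by
  have hnd := hs.nodup
  have hma : ∀ d ∈ m, d ≠ (-1, 0) := by
    intro d hd h
    subst h
    rw [List.nodup_cons, List.nodup_append] at hnd
    exact hnd.2.2.2 _ hd _ (List.mem_singleton_self _) rfl
  have hmc : ∀ d ∈ m, d ≠ (1, 0) := by
    intro d hd h
    subst h
    rw [List.nodup_cons] at hnd
    exact hnd.1 (List.mem_append_left _ hd)
  by_cases hex : ∃ d ∈ m, d ∈ tri
  · right; right
    have hfin : {d : ℝ × ℝ | d ∈ m ∧ d ∈ tri}.Finite :=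
      (List.finite_toSet m).subset fun d hd => hd.1
    obtain ⟨d, ⟨hdm, hdt⟩, hmax⟩ := Set.exists_max_image _ (fun d : ℝ × ℝ => d.2) hfin hex
    have hdA : d ∈ pcar ((1, 0) :: (m ++ [(-1, 0)])) := mem_pcar_of_mem (by simp [hdm])
    have hgd : |d.1| + d.2 < 1 := by
      apply lt_of_le_of_ne hdt.1
      intro h
      rcases hroof ⟨hdA, ⟨h, hdt.2⟩⟩ with h | h
      · exact hma d hdm h
      · exact hmc d hdm h
    refine ⟨d, hdm, hgd, hdt.2, ?_⟩
    rintro z ⟨hz1, hz2⟩
    obtain ⟨t, ht, e1, e2⟩ := mem_segment_prod hz1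
    simp only [mul_zero, zero_add, mul_one] at e1 e2
    rcases eq_or_lt_of_le ht.2 with h1 | h1
    · rw [h1] at e1 e2
      exact Prod.ext (by linarith) (by linarith)
    exfalso
    rcases eq_or_lt_of_le ht.1 with h0 | h0
    · apply hb
      rw [← h0] at e1 e2
      have : z = (0, 1) := Prod.ext (by simpa using e1) (by simpa using e2)
      rwa [← this]
    · have hd1 : d.2 < 1 := by have := abs_nonneg d.1; linarith
      refine no_high_point (h := d.2) hdt.2 hroof (fun w hw hwt => hmax w ⟨hw, hwt⟩) hz2 ?_ ?_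
      · rw [e1, e2, abs_mul, abs_of_pos h0]
        nlinarith
      · rw [e2]; nlinarith
  · by_cases hm0 : m = []
    · exact Or.inl hm0
    right; left
    rintro z ⟨hz, hzt⟩
    by_contra hne
    have hne' : z ≠ (-1, 0) ∧ z ≠ (1, 0) := by
      rw [mem_insert_iff, mem_singleton_iff, not_or] at hne; exact hne
    have hgz : |z.1| + z.2 < 1 := by
      apply lt_of_le_of_ne hzt.1
      intro h
      exact hne (hroof ⟨hz, ⟨h, hzt.2⟩⟩)
    have hno : ∀ w ∈ pcar ((1, 0) :: (m ++ [(-1, 0)])), |w.1| + w.2 < 1 → 0 < w.2 → False :=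
      fun w hw h1 h2 => no_high_point (h := 0) (le_refl _) hroof
        (fun d hd hdt => absurd ⟨d, hd, hdt⟩ hex) hw h1 h2
    have hz2 : z.2 = 0 := by
      apply le_antisymm _ hzt.2
      by_contra h
      push Not at h
      exact hno z hz hgz h
    have hlist : ∃ y l', (1, 0) :: (m ++ [(-1, 0)]) = ((1, 0) : ℝ × ℝ) :: y :: l' := by
      cases m with
      | nil => exact ⟨_, _, rfl⟩
      | cons y l => exact ⟨_, _, rfl⟩
    obtain ⟨y, l', hl'⟩ := hlist
    have hz' := hz
    rw [hl'] at hz'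
    obtain ⟨l₁, p, q, l₂, h1, h2⟩ := exists_edge hz'
    rw [← hl'] at h1
    have hsub : segment ℝ p q ⊆ pcar ((1, 0) :: (m ++ [(-1, 0)])) := by
      rw [h1]; exact segment_subset_pcar l₁ p q l₂
    have hpm : p ∈ ((1, 0) :: (m ++ [(-1, 0)]) : List (ℝ × ℝ)) := by rw [h1]; simp
    have hqm : q ∈ ((1, 0) :: (m ++ [(-1, 0)]) : List (ℝ × ℝ)) := by rw [h1]; simp
    have hconv := convex_segment (𝕜 := ℝ) p q
    have hzm : z ∉ ((1, 0) :: (m ++ [(-1, 0)]) : List (ℝ × ℝ)) := by
      intro hzm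
      rw [List.mem_cons, List.mem_append, List.mem_singleton] at hzm
      rcases hzm with h | h | h
      · exact hne'.2 h
      · exact hex ⟨z, h, hzt⟩
      · exact hne'.1 h
    have hzp : z ≠ p := fun h => hzm (h ▸ hpm)
    have hzq : z ≠ q := fun h => hzm (h ▸ hqm)
    -- end points are not above
    have hup : ∀ w, segment ℝ z w ⊆ segment ℝ p q → w.2 ≤ 0 := by
      intro w hw
      by_contra hlt
      push Not at hlt
      have hc : Continuous (fun s : ℝ => |z.1 + s * (w.1 - z.1)| + (z.2 + s * (w.2 - z.2))) := by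
        fun_prop
      have h3 : ∀ᶠ s : ℝ in 𝓝 0, |z.1 + s * (w.1 - z.1)| + (z.2 + s * (w.2 - z.2)) < 1 := by
        apply hc.continuousAt.eventually_lt_const
        simpa using hgz
      have h4 : ∀ᶠ s : ℝ in 𝓝[>] 0, (|z.1 + s * (w.1 - z.1)| + (z.2 + s * (w.2 - z.2)) < 1 ∧ s < 1)
          ∧ 0 < s :=
        ((h3.and (eventually_lt_nhds zero_lt_one)).filter_mono nhdsWithin_le_nhds).and
          self_mem_nhdsWithin
      obtain ⟨s, ⟨hs1, hs2⟩, hs3⟩ := h4.exists
      refine hno (z.1 + s * (w.1 - z.1), z.2 + s * (w.2 - z.2)) (hsub (hw ?_)) hs1 ?_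
      · rw [segment_eq_image]
        refine ⟨s, ⟨hs3.le, hs2.le⟩, ?_⟩
        apply Prod.ext
        · show (1 - s) * z.1 + s * w.1 = z.1 + s * (w.1 - z.1)
          ring
        · show (1 - s) * z.2 + s * w.2 = z.2 + s * (w.2 - z.2)
          ring
      · show 0 < z.2 + s * (w.2 - z.2)
        rw [hz2]
        have := mul_pos hs3 hlt
        linarith
    have hp2 := hup p (hconv.segment_subset h2 (left_mem_segment ℝ p q))
    have hq2 := hup q (hconv.segment_subset h2 (right_mem_segment ℝ p q))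
    obtain ⟨t, ht, e1, e2⟩ := mem_segment_prod h2
    have ht0 : 0 < t := by
      apply lt_of_le_of_ne ht.1
      intro h
      rw [← h] at e1 e2
      exact hzp (Prod.ext (by linarith) (by linarith))
    have ht1 : t < 1 := by
      apply lt_of_le_of_ne ht.2
      intro h
      rw [h] at e1 e2
      exact hzq (Prod.ext (by linarith) (by linarith))
    rw [hz2] at e2 hgz
    have hp20 : p.2 = 0 := by
      by_contra h
      have : p.2 < 0 := lt_of_le_of_ne hp2 h
      have a1 : (1 - t) * p.2 < 0 := mul_neg_of_pos_of_neg (by linarith) this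
      have a2 : t * q.2 ≤ 0 := mul_nonpos_of_nonneg_of_nonpos ht0.le hq2
      linarith
    have hq20 : q.2 = 0 := by
      by_contra h
      have : q.2 < 0 := lt_of_le_of_ne hq2 h
      have a1 : (1 - t) * p.2 ≤ 0 := mul_nonpos_of_nonneg_of_nonpos (by linarith) hp2
      have a2 : t * q.2 < 0 := mul_neg_of_pos_of_neg ht0 this
      linarith
    rw [add_zero] at hgz
    obtain ⟨g1, g2⟩ := abs_lt.1 hgz
    -- vertices on the base line are outside the open base
    have hout : ∀ w ∈ ((1, 0) :: (m ++ [(-1, 0)]) : List (ℝ × ℝ)), w.2 = 0 →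
        w.1 ≤ -1 ∨ 1 ≤ w.1 := by
      intro w hw hw2
      by_contra hcon
      push Not at hcon
      have hwt : w ∈ tri := ⟨by rw [hw2, add_zero]; exact (abs_lt.2 hcon).le, hw2.ge⟩
      rw [List.mem_cons, List.mem_append, List.mem_singleton] at hw
      rcases hw with h | h | h
      · rw [h] at hcon
        exact lt_irrefl _ hcon.2
      · exact hex ⟨w, h, hwt⟩
      · rw [h] at hcon
        exact lt_irrefl _ hcon.1
    have hends : (p.1 ≤ -1 ∧ 1 ≤ q.1) ∨ (q.1 ≤ -1 ∧ 1 ≤ p.1) := by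
      rcases hout p hpm hp20 with h3 | h3 <;> rcases hout q hqm hq20 with h4 | h4
      · exfalso; nlinarith
      · exact Or.inl ⟨h3, h4⟩
      · exact Or.inr ⟨h4, h3⟩
      · exfalso; nlinarith
    have hseg : ∀ x : ℝ, -1 ≤ x → x ≤ 1 → ((x, 0) : ℝ × ℝ) ∈ segment ℝ p q := by
      intro x hx1 hx2
      have hpe : p = (p.1, 0) := Prod.ext rfl hp20
      have hqe : q = (q.1, 0) := Prod.ext rfl hq20
      rw [hpe, hqe]
      rcases hends with h3 | h3
      · rw [mem_hseg (by linarith [h3.1, h3.2])]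
        exact ⟨by linarith [h3.1], by linarith [h3.2], rfl⟩
      · rw [segment_symm, mem_hseg (by linarith [h3.1, h3.2])]
        exact ⟨by linarith [h3.1], by linarith [h3.2], rfl⟩
    have hsl : psimple (l₁ ++ p :: q :: l₂) := h1 ▸ hs
    have hav := hsl.vertex_edge (v := (-1, 0)) (by rw [← h1]; simp) (hseg (-1) (le_refl _) (by norm_num))
    have hcv := hsl.vertex_edge (v := (1, 0)) (by rw [← h1]; simp) (hseg 1 (by norm_num) (le_refl _))
    have hac : ((-1, 0) : ℝ × ℝ) ≠ (1, 0) := by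
      intro h; have := congrArg Prod.fst h; norm_num at this
    rw [h1] at hnd
    cases l₁ with
    | nil =>
      simp only [List.nil_append] at h1 hnd
      rw [List.cons.injEq] at h1
      obtain ⟨h3, h4⟩ := h1
      subst h3
      rcases hav with h | h
      · exact hac h
      · subst h
        cases m with
        | nil => exact hm0 rfl
        | cons y m' =>
          simp only [List.cons_append, List.cons.injEq] at h4
          exact hma y (by simp) h4.1
    | cons x l₁ =>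
      simp only [List.cons_append, List.cons.injEq] at h1 hnd
      obtain ⟨h3, h4⟩ := h1
      subst h3
      rw [List.nodup_cons] at hnd
      rcases hcv with h | h
      · exact hnd.1 (by rw [h]; simp)
      · exact hnd.1 (by rw [h]; simp)

end P073.SCH
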