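import Vale.Agent.P073.SCH.Schoenflies
import Vale.Agent.P073.H339.Glue2

/-!
# P073, block SCH: a conical circle inside a conical disc bounds a conical disc
(`SchDisc` of `PT/Spec.lean`)
-/

open Set Metric Topology Filter

namespace P073.SCH

variable {E : Type*} [NormedAddCommGroup E] [NormedSpace ℝ E]

open H339 (pairHomeo pairHomeo_image_closedBall pairHomeo_image_sphere conSphere_iff)

/-- an ambient disc is a conical disc -/
theorem conBall_of_ambDisc {D : Set (ℝ × ℝ)} (h : AmbDisc D) : ConBall 2 D (frontier D) := by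
  obtain ⟨Φ, rfl⟩ := h
  have := H339.conBall_std.image Φ (subset_univ _)
  rwa [← frontier_square, Φ.image_frontier] at this

/-- the complement of the open square is preconnected -/
theorem isPreconnected_compl_ball : IsPreconnected (ball (0 : ℝ × ℝ) 1)ᶜ := by
  have e : (ball (0 : ℝ × ℝ) 1)ᶜ =
      (fun q : ℝ × (ℝ × ℝ) => q.1 • q.2) '' (Ici (1:ℝ) ×ˢ sphere 0 1) := by
    ext x
    rw [mem_compl_iff, mem_ball_zero_iff, not_lt]
    constructor
    · intro hx
      have hx0 : ‖x‖ ≠ 0 := by linarith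
      refine ⟨(‖x‖, ‖x‖⁻¹ • x), ⟨hx, ?_⟩, ?_⟩
      · show ‖x‖⁻¹ • x ∈ sphere (0 : ℝ × ℝ) 1
        rw [mem_sphere_zero_iff_norm, norm_smul, norm_inv, norm_norm, inv_mul_cancel₀ hx0]
      · show ‖x‖ • ‖x‖⁻¹ • x = x
        rw [smul_smul, mul_inv_cancel₀ hx0, one_smul]
    · rintro ⟨⟨s, y⟩, ⟨hs, hy⟩, rfl⟩
      show 1 ≤ ‖s • y‖
      have hy' : ‖y‖ = 1 := mem_sphere_zero_iff_norm.1 hy
      have hs' : (1:ℝ) ≤ s := hs
      rw [norm_smul, hy', mul_one, Real.norm_of_nonneg (by linarith)]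
      exact hs'
  rw [e]
  refine IsPreconnected.image ?_ _ (by fun_prop)
  refine isPreconnected_Ici.prod (isPreconnected_sphere ?_ _ _)
  rw [rank_prod', Module.rank_self]
  exact_mod_cast (show (1:ℕ) < 1 + 1 by norm_num)

/-- a set containing the complement of a bounded set is not bounded -/
theorem not_isBounded_compl {S : Set (ℝ × ℝ)} (hS : Bornology.IsBounded S) :
    ¬ Bornology.IsBounded Sᶜ := by
  intro h
  have hb' : Bornology.IsBounded (univ : Set (ℝ × ℝ)) := by
    rw [← union_compl_self S]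
    exact hS.union h
  exact NormedSpace.unbounded_univ ℝ (ℝ × ℝ) hb'

/-- a disc whose boundary lies in the open square lies in the open square -/
theorem AmbDisc.subset_ball {D : Set (ℝ × ℝ)} (h : AmbDisc D) (hf : frontier D ⊆ ball 0 1) :
    D ⊆ ball 0 1 := by
  have hd : Disjoint (ball (0 : ℝ × ℝ) 1)ᶜ (frontier D) :=
    disjoint_compl_left_iff_subset.2 hf
  rcases subset_interior_or_compl isPreconnected_compl_ball hd with h1 | h1
  · exact absurd (h.isCompact.isBounded.subset (h1.trans interior_subset))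
      (not_isBounded_compl isBounded_ball)
  · rw [h.isClosed.closure_eq, compl_subset_compl] at h1
    exact h1

/-- **Schoenflies in a disc.** -/
theorem schDisc {D B c : Set E} (hD : ConBall 2 D B) (hc : ConSphere 1 c) (hcD : c ⊆ D \ B) :
    ∃ Δ, ConBall 2 Δ c ∧ Δ ⊆ D \ B ∧ ∃ U, IsOpen U ∧ Δ \ c = D ∩ U := by
  have hcs : ConicalSet c := by
    obtain ⟨φ⟩ := hc; exact φ.conicalSet_left
  obtain ⟨hBD, φ, hφ⟩ := hD
  -- chart `χ : D → closedBall (0 : ℝ × ℝ) 1`
  have hcl : ConicalSet (closedBall (0 : ℝ × ℝ) 1) := Convex.conicalSet (convex_closedBall _ _)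
  let α : ConHomeo (closedBall (0 : ℝ × ℝ) 1) (closedBall (0 : Fin 2 → ℝ) 1) :=
    (pairHomeo.restr hcl (subset_univ _)).cast rfl (pairHomeo_image_closedBall 1)
  have hα : α.toFun '' sphere 0 1 = sphere 0 1 := pairHomeo_image_sphere 1
  let χ : ConHomeo D (closedBall (0 : ℝ × ℝ) 1) := φ.trans α.symm
  have hχB : ∀ x ∈ D, (χ.toFun x ∈ sphere (0 : ℝ × ℝ) 1 ↔ x ∈ B) := by
    intro x hx
    have h1 : χ.toFun x ∈ sphere (0 : ℝ × ℝ) 1 ↔ φ.toFun x ∈ sphere (0 : Fin 2 → ℝ) 1 := by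
      rw [mem_sphere_zero_iff_norm, mem_sphere_zero_iff_norm]
      show ‖pairHomeo.invFun (φ.toFun x)‖ = 1 ↔ _
      rw [H339.pairHomeo_inv_norm]
    rw [h1, ← hφ]
    constructor
    · rintro ⟨y, hy, hyx⟩
      rwa [← φ.injOn (hBD hy) hx hyx]
    · exact fun h => ⟨x, h, rfl⟩
  have hcD' : c ⊆ D := hcD.trans sdiff_subset
  have hcirc : IsCircle (χ.toFun '' c) := by
    rw [← conSphere_iff]
    obtain ⟨ψ⟩ := hc
    exact ⟨(χ.restr hcs hcD').symm.trans ψ⟩
  obtain ⟨D', hD', hf⟩ := schoenflies hcirc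
  have hball : D' ⊆ ball 0 1 := by
    apply AmbDisc.subset_ball hD'
    rw [hf]
    rintro _ ⟨x, hx, rfl⟩
    have h1 := χ.mapsTo (hcD' hx)
    rw [mem_ball_zero_iff]
    rw [mem_closedBall_zero_iff] at h1
    apply lt_of_le_of_ne h1
    intro h2
    exact (hcD hx).2 ((hχB x (hcD' hx)).1 (mem_sphere_zero_iff_norm.2 h2))
  have hsub : D' ⊆ closedBall 0 1 := hball.trans ball_subset_closedBall
  have hfsub : frontier D' ⊆ D' := hD'.isClosed.frontier_subset
  refine ⟨χ.symm.toFun '' D', ?_, ?_, ?_⟩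
  · have h1 := (conBall_of_ambDisc hD').image χ.symm hsub
    have h2 : χ.symm.toFun '' frontier D' = c := by
      rw [hf, image_image]
      have : ∀ x ∈ c, χ.symm.toFun (χ.toFun x) = x := fun x hx => χ.left_inv (hcD' hx)
      rw [image_congr this, image_id']
    rwa [h2] at h1
  · rintro _ ⟨y, hy, rfl⟩
    have h1 : χ.invFun y ∈ D := χ.mapsTo_inv (hsub hy)
    refine ⟨h1, fun h2 => ?_⟩
    have h3 := (hχB _ h1).2 h2
    rw [χ.right_inv (hsub hy), mem_sphere_zero_iff_norm] at h3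
    have h4 := hball hy
    rw [mem_ball_zero_iff] at h4
    exact h4.ne h3
  · obtain ⟨U, hU, hUe⟩ := continuousOn_iff'.1 χ.cont (interior D') isOpen_interior
    refine ⟨U, hU, ?_⟩
    rw [inter_comm D U, ← hUe]
    ext x
    constructor
    · rintro ⟨⟨y, hy, rfl⟩, hx2⟩
      have h1 : χ.invFun y ∈ D := χ.mapsTo_inv (hsub hy)
      have h2 : χ.toFun (χ.invFun y) = y := χ.right_inv (hsub hy)
      refine ⟨?_, h1⟩
      show χ.toFun (χ.symm.toFun y) ∈ interior D'
      show χ.toFun (χ.invFun y) ∈ interior D'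
      rw [h2]
      by_contra hcon
      have h3 : y ∈ frontier D' := by
        rw [hD'.isClosed.frontier_eq]; exact ⟨hy, hcon⟩
      rw [hf] at h3
      obtain ⟨z, hz, rfl⟩ := h3
      apply hx2
      show χ.invFun (χ.toFun z) ∈ c
      rw [χ.left_inv (hcD' hz)]
      exact hz
    · rintro ⟨hx1, hxD⟩
      have hx1' : χ.toFun x ∈ interior D' := hx1
      refine ⟨⟨χ.toFun x, interior_subset hx1', χ.left_inv hxD⟩, fun hxc => ?_⟩
      have h3 : χ.toFun x ∈ frontier D' := by rw [hf]; exact ⟨x, hxc, rfl⟩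
      exact h3.2 hx1'

end P073.SCH
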