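import Vale.Agent.P073.SCH.Arc

/-!
# P073, block SCH: polygonal arcs and closed polygons given by lists of vertices
-/

open Set Metric Topology Filter

namespace P073.SCH

variable {E F : Type*} [NormedAddCommGroup E] [NormedSpace ℝ E]
  [NormedAddCommGroup F] [NormedSpace ℝ F]

/-- carrier of the polygonal path with the given vertices -/
def pcar : List E → Set E
  | [] => ∅
  | [a] => {a}
  | a :: b :: l => segment ℝ a b ∪ pcar (b :: l)

/-- simple polygonal arcs -/
def psimple : List E → Prop
  | [] => False
  | [_] => True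
  | a :: b :: l => a ≠ b ∧ segment ℝ a b ∩ pcar (b :: l) ⊆ {b} ∧ psimple (b :: l)

@[simp] theorem pcar_nil : pcar ([] : List E) = ∅ := rfl
@[simp] theorem pcar_singleton (a : E) : pcar [a] = {a} := rfl
theorem pcar_cons_cons (a b : E) (l : List E) :
    pcar (a :: b :: l) = segment ℝ a b ∪ pcar (b :: l) := rfl
theorem psimple_cons_cons (a b : E) (l : List E) :
    psimple (a :: b :: l) ↔ a ≠ b ∧ segment ℝ a b ∩ pcar (b :: l) ⊆ {b} ∧ psimple (b :: l) :=
  Iff.rfl
@[simp] theorem psimple_nil : ¬ psimple ([] : List E) := fun h => h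
@[simp] theorem psimple_singleton (a : E) : psimple [a] := trivial

theorem head_mem_pcar (a : E) (l : List E) : a ∈ pcar (a :: l) := by
  cases l with
  | nil => exact rfl
  | cons b l => exact Or.inl (left_mem_segment ℝ a b)

theorem pcar_pair (a b : E) : pcar [a, b] = segment ℝ a b := by
  show segment ℝ a b ∪ {b} = segment ℝ a b
  rw [union_eq_left, singleton_subset_iff]
  exact right_mem_segment ℝ a b

theorem psimple_pair {a b : E} : psimple [a, b] ↔ a ≠ b := by
  rw [psimple_cons_cons]
  constructor
  · exact fun h => h.1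
  · intro h
    exact ⟨h, inter_subset_right, trivial⟩

theorem pcar_append (l : List E) (x : E) (m : List E) :
    pcar (l ++ x :: m) = pcar (l ++ [x]) ∪ pcar (x :: m) := by
  induction l with
  | nil =>
    simp only [List.nil_append, pcar_singleton]
    rw [eq_comm, union_eq_right, singleton_subset_iff]
    exact head_mem_pcar x m
  | cons a l ih =>
    cases l with
    | nil =>
      simp only [List.nil_append, List.cons_append]
      rw [pcar_cons_cons, pcar_pair]
    | cons b l =>
      simp only [List.cons_append] at ih ⊢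
      rw [pcar_cons_cons, ih, pcar_cons_cons, union_assoc]

theorem last_mem_pcar (l : List E) (x : E) : x ∈ pcar (l ++ [x]) := by
  induction l with
  | nil => exact rfl
  | cons a l ih =>
    cases l with
    | nil => exact Or.inr rfl
    | cons b l => exact Or.inr ih

theorem mem_pcar_of_mem {l : List E} {x : E} (h : x ∈ l) : x ∈ pcar l := by
  obtain ⟨l₁, l₂, rfl⟩ := List.append_of_mem h
  rw [pcar_append]
  exact Or.inl (last_mem_pcar l₁ x)

theorem psimple_append (l : List E) (x : E) (m : List E) :
    psimple (l ++ x :: m) ↔ psimple (l ++ [x]) ∧ psimple (x :: m) ∧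
      pcar (l ++ [x]) ∩ pcar (x :: m) ⊆ {x} := by
  induction l with
  | nil =>
    simp only [List.nil_append, pcar_singleton, psimple_singleton, true_and]
    constructor
    · exact fun h => ⟨h, inter_subset_left⟩
    · exact fun h => h.1
  | cons a l ih =>
    cases l with
    | nil =>
      simp only [List.nil_append, List.cons_append]
      rw [psimple_cons_cons, psimple_pair, pcar_pair]
      constructor
      · rintro ⟨h1, h2, h3⟩; exact ⟨h1, h3, h2⟩
      · rintro ⟨h1, h2, h3⟩; exact ⟨h1, h3, h2⟩
    | cons b l =>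
      simp only [List.cons_append] at ih ⊢
      have e := pcar_append (b :: l) x m
      simp only [List.cons_append] at e
      rw [psimple_cons_cons, psimple_cons_cons, ih, e, pcar_cons_cons]
      constructor
      · rintro ⟨h1, h2, h3, h4, h5⟩
        refine ⟨⟨h1, fun y hy => h2 ⟨hy.1, Or.inl hy.2⟩, h3⟩, h4, ?_⟩
        rintro y ⟨hy | hy, hy'⟩
        · have : y = b := h2 ⟨hy, Or.inr hy'⟩
          exact h5 ⟨this ▸ head_mem_pcar b _, hy'⟩
        · exact h5 ⟨hy, hy'⟩
      · rintro ⟨⟨h1, h2, h3⟩, h4, h5⟩
        refine ⟨h1, ?_, h3, h4, fun y hy => h5 ⟨Or.inr hy.1, hy.2⟩⟩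
        rintro y ⟨hy, hy' | hy'⟩
        · exact h2 ⟨hy, hy'⟩
        · have : y = x := h5 ⟨Or.inl hy, hy'⟩
          exact h2 ⟨hy, this ▸ last_mem_pcar (b :: l) x⟩

theorem psimple.tail {a b : E} {l : List E} (h : psimple (a :: b :: l)) : psimple (b :: l) :=
  h.2.2

theorem psimple.head_notMem {a b : E} {l : List E} (h : psimple (a :: b :: l)) :
    a ∉ pcar (b :: l) := by
  intro ha
  exact h.1 (h.2.1 ⟨left_mem_segment ℝ a b, ha⟩)

theorem psimple.nodup {l : List E} (h : psimple l) : l.Nodup := by
  induction l with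
  | nil => exact List.nodup_nil
  | cons a l ih =>
    cases l with
    | nil => exact List.nodup_singleton a
    | cons b l =>
      rw [List.nodup_cons]
      exact ⟨fun hm => h.head_notMem (mem_pcar_of_mem hm), ih h.tail⟩

/-- every point of the carrier lies on an edge -/
theorem exists_edge {a b : E} {l : List E} {x : E} (hx : x ∈ pcar (a :: b :: l)) :
    ∃ l₁ p q l₂, a :: b :: l = l₁ ++ p :: q :: l₂ ∧ x ∈ segment ℝ p q := by
  induction l generalizing a b with
  | nil =>
    rw [pcar_pair] at hx
    exact ⟨[], a, b, [], rfl, hx⟩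
  | cons c l ih =>
    rw [pcar_cons_cons] at hx
    rcases hx with hx | hx
    · exact ⟨[], a, b, c :: l, rfl, hx⟩
    · obtain ⟨l₁, p, q, l₂, h1, h2⟩ := ih hx
      exact ⟨a :: l₁, p, q, l₂, by rw [h1]; rfl, h2⟩

theorem segment_subset_pcar (l₁ : List E) (p q : E) (l₂ : List E) :
    segment ℝ p q ⊆ pcar (l₁ ++ p :: q :: l₂) := by
  rw [pcar_append, pcar_cons_cons]
  exact fun x hx => Or.inr (Or.inl hx)

/-- a vertex on an edge of a simple arc is an end point of this edge -/
theorem psimple.vertex_edge {l₁ : List E} {p q : E} {l₂ : List E}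
    (h : psimple (l₁ ++ p :: q :: l₂)) {v : E} (hv : v ∈ l₁ ++ p :: q :: l₂)
    (hvs : v ∈ segment ℝ p q) : v = p ∨ v = q := by
  rw [psimple_append] at h
  obtain ⟨h1, h2, h3⟩ := h
  rw [List.mem_append] at hv
  rcases hv with hv | hv
  · left
    exact h3 ⟨mem_pcar_of_mem (List.mem_append_left _ hv), Or.inl hvs⟩
  · rw [List.mem_cons] at hv
    rcases hv with hv | hv
    · exact Or.inl hv
    · right
      exact h2.2.1 ⟨hvs, mem_pcar_of_mem hv⟩

theorem pcar_subset_of_convex {l : List E} {K : Set E} (hK : Convex ℝ K)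
    (h : ∀ x ∈ l, x ∈ K) : pcar l ⊆ K := by
  induction l with
  | nil => exact empty_subset _
  | cons a l ih =>
    cases l with
    | nil =>
      rw [pcar_singleton, singleton_subset_iff]
      exact h a (by simp)
    | cons b l =>
      rw [pcar_cons_cons]
      refine union_subset (hK.segment_subset (h a (by simp)) (h b (by simp))) (ih ?_)
      intro x hx
      exact h x (List.mem_cons_of_mem _ hx)

/-- simple polygonal arcs are conical arcs -/
theorem isArc_pcar {p q : E} {l : List E} (h : psimple (p :: (l ++ [q]))) :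
    IsArc (pcar (p :: (l ++ [q]))) p q := by
  induction l generalizing p with
  | nil =>
    simp only [List.nil_append] at h ⊢
    rw [pcar_pair]
    exact isArc_segment h.1
  | cons a l ih =>
    simp only [List.cons_append] at h ⊢
    rw [pcar_cons_cons]
    exact (isArc_segment h.1).trans (ih h.tail) h.2.1

/-! ### Affine images -/

theorem pcar_map (L : E →ᵃ[ℝ] F) (l : List E) : pcar (l.map L) = L '' pcar l := by
  induction l with
  | nil => simp
  | cons a l ih =>
    cases l with
    | nil => simp
    | cons b l =>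
      simp only [List.map_cons] at ih ⊢
      rw [pcar_cons_cons, ih, pcar_cons_cons, image_union, image_segment]

theorem psimple_map (L : E →ᵃ[ℝ] F) (hL : Function.Injective L) (l : List E) :
    psimple (l.map L) ↔ psimple l := by
  induction l with
  | nil => simp
  | cons a l ih =>
    cases l with
    | nil => simp
    | cons b l =>
      simp only [List.map_cons] at ih ⊢
      rw [psimple_cons_cons, psimple_cons_cons, ih, hL.ne_iff]
      have e : pcar (L b :: List.map L l) = L '' pcar (b :: l) := pcar_map L (b :: l)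
      rw [e, ← image_segment, ← image_inter hL, ← image_singleton, image_subset_image_iff hL]

/-! ### Closed polygons -/

/-- carrier of a closed polygon -/
def ccar : List E → Set E
  | [] => ∅
  | b :: m => pcar (b :: (m ++ [b]))

/-- simple closed polygons (with at least three vertices) -/
def CPoly : List E → Prop
  | [] => False
  | b :: m => ∃ m' a, m = m' ++ [a] ∧ m' ≠ [] ∧ psimple (b :: m) ∧
      segment ℝ a b ∩ pcar (b :: m) ⊆ {a, b}

theorem ccar_cons_append (b : E) (m : List E) (a : E) :
    ccar (b :: (m ++ [a])) = pcar (b :: (m ++ [a])) ∪ segment ℝ a b := by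
  have h := pcar_append (b :: m) a [b]
  simp only [List.cons_append] at h
  show pcar (b :: (m ++ [a] ++ [b])) = _
  rw [List.append_assoc, List.singleton_append, h, pcar_pair]

theorem cpoly_cons_append {b : E} {m : List E} {a : E} :
    CPoly (b :: (m ++ [a])) ↔ m ≠ [] ∧ psimple (b :: (m ++ [a])) ∧
      segment ℝ a b ∩ pcar (b :: (m ++ [a])) ⊆ {a, b} := by
  constructor
  · rintro ⟨m', a', h1, h2, h3, h4⟩
    obtain ⟨rfl, h5⟩ := List.append_inj' h1 rfl
    rw [List.cons.injEq] at h5
    obtain ⟨rfl, -⟩ := h5
    exact ⟨h2, h3, h4⟩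
  · rintro ⟨h1, h2, h3⟩
    exact ⟨m, a, rfl, h1, h2, h3⟩

theorem CPoly.rotate_one {b : E} {m : List E} (h : CPoly (b :: m)) :
    CPoly (m ++ [b]) ∧ ccar (m ++ [b]) = ccar (b :: m) := by
  obtain ⟨m', a, rfl, hne, hs, hi⟩ := h
  cases m' with
  | nil => exact absurd rfl hne
  | cons c m =>
    simp only [List.cons_append] at hs hi ⊢
    have hbn := hs.head_notMem
    have ht := hs.tail
    have hab : a ≠ b := by
      rintro rfl
      exact hbn (last_mem_pcar (c :: m) a)
    have e1 : pcar (c :: (m ++ a :: [b])) = pcar (c :: (m ++ [a])) ∪ pcar [a, b] :=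
      pcar_append (c :: m) a [b]
    have s1 : psimple (c :: (m ++ a :: [b])) := by
      have := (psimple_append (c :: m) a [b]).2 ⟨ht, psimple_pair.2 hab, by
        rw [pcar_pair]
        rintro x ⟨hx1, hx2⟩
        rcases hi ⟨hx2, Or.inr hx1⟩ with h | h
        · exact h
        · exact absurd (mem_singleton_iff.1 h ▸ hx1) hbn⟩
      exact this
    constructor
    · have : c :: (m ++ [a] ++ [b]) = c :: ((m ++ [a]) ++ [b]) := rfl
      rw [this, cpoly_cons_append]
      refine ⟨by simp, by rw [List.append_assoc]; exact s1, ?_⟩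
      rw [List.append_assoc, List.singleton_append, e1, pcar_pair]
      rintro x ⟨hx1, hx2 | hx2⟩
      · exact Or.inr (hs.2.1 ⟨hx1, hx2⟩)
      · rcases hi ⟨hx2, Or.inl hx1⟩ with h | h
        · right
          subst h
          exact hs.2.1 ⟨hx1, last_mem_pcar (c :: m) x⟩
        · exact Or.inl h
    · show pcar (c :: (m ++ [a] ++ [b] ++ [c])) = pcar (b :: c :: (m ++ [a] ++ [b]))
      have e2 := pcar_append (c :: (m ++ [a])) b [c]
      simp only [List.cons_append] at e2
      rw [List.append_assoc (m ++ [a]) [b] [c], List.singleton_append, e2, pcar_pair,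
        pcar_cons_cons, union_comm]

theorem CPoly.rotate {l₁ : List E} {v : E} {l₂ : List E} (h : CPoly (l₁ ++ v :: l₂)) :
    CPoly (v :: (l₂ ++ l₁)) ∧ ccar (v :: (l₂ ++ l₁)) = ccar (l₁ ++ v :: l₂) := by
  induction l₁ generalizing l₂ with
  | nil => simpa using h
  | cons x l ih =>
    simp only [List.cons_append] at h
    obtain ⟨h1, h2⟩ := h.rotate_one
    have e : l ++ v :: l₂ ++ [x] = l ++ v :: (l₂ ++ [x]) := by simp
    rw [e] at h1 h2
    obtain ⟨h3, h4⟩ := ih h1
    have e' : l₂ ++ [x] ++ l = l₂ ++ x :: l := by simp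
    rw [e'] at h3 h4
    exact ⟨h3, h4.trans h2⟩

theorem ccar_map (L : E →ᵃ[ℝ] F) (l : List E) : ccar (l.map L) = L '' ccar l := by
  cases l with
  | nil => simp [ccar]
  | cons b m =>
    have := pcar_map L (b :: (m ++ [b]))
    simpa [ccar] using this

theorem CPoly.map (L : E →ᵃ[ℝ] F) (hL : Function.Injective L) {l : List E} (h : CPoly l) :
    CPoly (l.map L) := by
  cases l with
  | nil => exact h
  | cons b m =>
    obtain ⟨m', a, rfl, hne, hs, hi⟩ := h
    have e : List.map L (b :: (m' ++ [a])) = L b :: (m'.map L ++ [L a]) := by simp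
    rw [e, cpoly_cons_append]
    refine ⟨by simpa using hne, ?_, ?_⟩
    · rw [← e, psimple_map L hL]; exact hs
    · rw [← e, pcar_map, ← image_segment, ← image_inter hL]
      refine (image_mono hi).trans ?_
      rw [image_pair]

/-- closed polygons are conical circles made of two arcs -/
theorem isCircle_ccar {l : List E} (h : CPoly l) : IsCircle (ccar l) := by
  cases l with
  | nil => exact absurd h id
  | cons b m =>
    obtain ⟨m', a, rfl, hne, hs, hi⟩ := h
    rw [ccar_cons_append]
    have h1 := isArc_pcar hs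
    exact isCircle_of_arcs h1 (isArc_segment h1.ne.symm).symm (by
      rw [inter_comm, pair_comm]; exact hi)

end P073.SCH
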