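import Vale.Agent.P073.SCH.Step

/-!
# P073, block SCH: the Schoenflies theorem for polygons
-/

open Set Metric Topology Filter

namespace P073.SCH

/-- affine normal position of three points -/
theorem exists_normal_position {v c a : ℝ × ℝ}
    (hind : ∀ x y : ℝ, x • (c - v) + y • (a - v) = 0 → x = 0 ∧ y = 0) :
    ∃ (L : (ℝ × ℝ) →ᵃ[ℝ] (ℝ × ℝ)) (Φ : ConHomeo (univ : Set (ℝ × ℝ)) (univ : Set (ℝ × ℝ))),
      (∀ z, Φ.toFun z = L z) ∧ L v = (0, 1) ∧ L c = (1, 0) ∧ L a = (-1, 0) ∧
      ∀ z, z - v = (((L z).1 - (L z).2 + 1) / 2) • (c - v) +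
        ((-(L z).1 - (L z).2 + 1) / 2) • (a - v) := by
  let T : (ℝ × ℝ) →ₗ[ℝ] (ℝ × ℝ) :=
    (LinearMap.fst ℝ ℝ ℝ - LinearMap.snd ℝ ℝ ℝ).smulRight ((1 / 2 : ℝ) • (c - v)) +
    (-LinearMap.fst ℝ ℝ ℝ - LinearMap.snd ℝ ℝ ℝ).smulRight ((1 / 2 : ℝ) • (a - v))
  have hT : ∀ z : ℝ × ℝ, T z = ((z.1 - z.2) / 2) • (c - v) + ((-z.1 - z.2) / 2) • (a - v) := by
    intro z
    simp only [T, LinearMap.add_apply, LinearMap.smulRight_apply, LinearMap.sub_apply,
      LinearMap.neg_apply, LinearMap.fst_apply, LinearMap.snd_apply, smul_smul]
    congr 2 <;> ring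
  have hinj : Function.Injective T := by
    rw [injective_iff_map_eq_zero]
    intro z hz
    rw [hT] at hz
    obtain ⟨h1, h2⟩ := hind _ _ hz
    exact Prod.ext (by show z.1 = 0; linarith) (by show z.2 = 0; linarith)
  let T' : (ℝ × ℝ) ≃ₗ[ℝ] (ℝ × ℝ) := LinearEquiv.ofInjectiveEndo T hinj
  have hT' : ∀ z, T' z = T z := fun z => rfl
  let L : (ℝ × ℝ) →ᵃ[ℝ] (ℝ × ℝ) :=
    (T'.symm : (ℝ × ℝ) →ₗ[ℝ] (ℝ × ℝ)).toAffineMap +
      AffineMap.const ℝ (ℝ × ℝ) (((0, 1) : ℝ × ℝ) - T'.symm v)
  have hL : ∀ z, L z = T'.symm (z - v) + (0, 1) := by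
    intro z
    show T'.symm z + (((0, 1) : ℝ × ℝ) - T'.symm v) = _
    rw [map_sub]; abel
  have hback : ∀ z, T (L z - (0, 1)) = z - v := by
    intro z
    rw [hL, add_sub_cancel_right, ← hT', LinearEquiv.apply_symm_apply]
  have hfix : ∀ z y : ℝ × ℝ, T y = z - v → L z = y + (0, 1) := by
    intro z y h
    rw [hL, ← h, ← hT', LinearEquiv.symm_apply_apply]
  refine ⟨L,
    { toFun := fun z => L z
      invFun := fun z => T (z - (0, 1)) + v
      mapsTo := mapsTo_univ _ _
      mapsTo_inv := mapsTo_univ _ _
      left_inv := fun z _ => by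
        show T (L z - (0, 1)) + v = z
        rw [hback, sub_add_cancel]
      right_inv := fun z _ => by
        show L (T (z - (0, 1)) + v) = z
        rw [hL, add_sub_cancel_right, ← hT', LinearEquiv.symm_apply_apply, sub_add_cancel]
      cont := (AffineMap.continuous_of_finiteDimensional L).continuousOn
      cont_inv := by
        have : Continuous T := LinearMap.continuous_of_finiteDimensional T
        exact (by fun_prop : Continuous fun z => T (z - (0, 1)) + v).continuousOn
      conical := conicalOn_of_affine L (IsOpen.conicalSet isOpen_univ) }, fun z => rfl, ?_, ?_, ?_,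
      ?_⟩
  · have := hfix v 0 (by rw [map_zero, sub_self])
    rwa [zero_add] at this
  · have := hfix c (1, -1) (by rw [hT]; norm_num)
    rw [this]; simp
  · have := hfix a (-1, -1) (by rw [hT]; norm_num)
    rw [this]; simp
  · intro z
    rw [← hback z, hT]
    have e1 : ((L z - (0, 1)).1 - (L z - (0, 1)).2) / 2 = ((L z).1 - (L z).2 + 1) / 2 := by
      simp only [Prod.fst_sub, Prod.snd_sub]; ring
    have e2 : (-(L z - (0, 1)).1 - (L z - (0, 1)).2) / 2 = (-(L z).1 - (L z).2 + 1) / 2 := by
      simp only [Prod.fst_sub, Prod.snd_sub]; ring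
    rw [e1, e2]

/-- **Schoenflies theorem for polygons.** -/
theorem bounds_cpoly (n : ℕ) : ∀ l : List (ℝ × ℝ), l.length ≤ n → CPoly l → Bounds (ccar l) := by
  induction n with
  | zero =>
    intro l hl h
    have : l = [] := List.eq_nil_of_length_eq_zero (Nat.le_zero.1 hl)
    rw [this] at h
    exact absurd h id
  | succ n IH =>
    intro l hl h
    have hne : l ≠ [] := by
      rintro rfl
      exact h
    -- vertex of maximal norm
    obtain ⟨v, hv, hmax⟩ := Set.exists_max_image {z : ℝ × ℝ | z ∈ l}
      (fun z : ℝ × ℝ => z.1 * z.1 + z.2 * z.2) (List.finite_toSet l)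
      (by obtain ⟨x, hx⟩ := List.exists_mem_of_ne_nil l hne; exact ⟨x, hx⟩)
    obtain ⟨l₁, l₂, rfl⟩ := List.append_of_mem hv
    obtain ⟨h1, h2⟩ := h.rotate
    have hmem : ∀ z ∈ l₂ ++ l₁, z.1 * z.1 + z.2 * z.2 ≤ v.1 * v.1 + v.2 * v.2 := by
      intro z hz
      apply hmax
      show z ∈ l₁ ++ v :: l₂
      simp only [List.mem_append, List.mem_cons] at hz ⊢
      tauto
    have hlen : (l₂ ++ l₁).length + 1 ≤ n + 1 := by
      simp only [List.length_append, List.length_cons] at hl ⊢; omega
    rw [← h2]
    generalize l₂ ++ l₁ = l' at h1 hmem hlen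
    obtain ⟨m', a, rfl, hm', hs, hi⟩ := h1
    cases m' with
    | nil => exact absurd rfl hm'
    | cons c m =>
      have hvn := hs.nodup
      rw [List.nodup_cons] at hvn
      -- the functional
      have hlt : ∀ z ∈ (c :: m ++ [a]), v.1 * z.1 + v.2 * z.2 < v.1 * v.1 + v.2 * v.2 := by
        intro z hz
        have h3 := hmem z hz
        have h4 : z ≠ v := fun h => hvn.1 (h ▸ hz)
        have h5 : 0 < (v.1 - z.1) * (v.1 - z.1) + (v.2 - z.2) * (v.2 - z.2) := by
          by_contra hle
          push Not at hle
          have a1 := mul_self_nonneg (v.1 - z.1)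
          have a2 := mul_self_nonneg (v.2 - z.2)
          have b1 : (v.1 - z.1) * (v.1 - z.1) = 0 := by linarith
          have b2 : (v.2 - z.2) * (v.2 - z.2) = 0 := by linarith
          have c1 := mul_self_eq_zero.1 b1
          have c2 := mul_self_eq_zero.1 b2
          exact h4 (Prod.ext (by linarith) (by linarith))
        nlinarith
      set F : ℝ × ℝ → ℝ := fun z => v.1 * z.1 + v.2 * z.2 with hF
      have hFc : F (c - v) < 0 := by
        have := hlt c (by simp)
        simp only [hF, Prod.fst_sub, Prod.snd_sub]
        linarith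
      have hFa : F (a - v) < 0 := by
        have := hlt a (by simp)
        simp only [hF, Prod.fst_sub, Prod.snd_sub]
        linarith
      have hvc : v ≠ c := fun h => hvn.1 (by rw [h]; simp)
      have hva : v ≠ a := fun h => hvn.1 (by rw [h]; simp)
      have hsv : segment ℝ v c ∩ segment ℝ a v ⊆ {v} := by
        rintro x ⟨hx1, hx2⟩
        have hs' : psimple (v :: c :: (m ++ [a])) := hs
        rcases hi ⟨hx2, Or.inl hx1⟩ with h | h
        · exfalso
          subst h
          have h3 : x ∈ pcar (c :: (m ++ [x])) := last_mem_pcar (c :: m) x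
          have h4 : x = c := hs'.2.1 ⟨hx1, h3⟩
          have hnd := hs'.tail.nodup
          rw [List.nodup_cons] at hnd
          exact hnd.1 (by rw [← h4]; simp)
        · exact h
      have hind : ∀ x y : ℝ, x • (c - v) + y • (a - v) = 0 → x = 0 ∧ y = 0 := by
        intro x y hxy
        have hFl : F (x • (c - v) + y • (a - v)) = x * F (c - v) + y * F (a - v) := by
          simp only [hF, Prod.fst_add, Prod.snd_add, Prod.smul_fst, Prod.smul_snd, smul_eq_mul]
          ring
        rw [hxy] at hFl
        have hF0 : F 0 = 0 := by simp [hF]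
        rw [hF0] at hFl
        by_contra hcon
        have hx0 : x ≠ 0 := by
          intro h
          rw [h, zero_mul, zero_add] at hFl
          rcases mul_eq_zero.1 hFl.symm with h' | h'
          · exact hcon ⟨h, h'⟩
          · exact hFa.ne h'
        have hy0 : y ≠ 0 := by
          intro h
          rw [h, zero_mul, add_zero] at hFl
          rcases mul_eq_zero.1 hFl.symm with h' | h'
          · exact hcon ⟨h', h⟩
          · exact hFc.ne h'
        -- opposite signs
        have hxy' : x • (c - v) = (-y) • (a - v) := by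
          rw [neg_smul]; exact eq_neg_of_add_eq_zero_left hxy
        -- wlog by cases on the sign of x
        have main : ∀ s t : ℝ, 0 < s → 0 < t → s • (c - v) = t • (a - v) → False := by
          intro s t hs0 ht0 hst
          rcases le_total s t with hle | hle
          · -- a - v = (s/t) (c - v), a in [v,c]
            have e : a = v + (s / t) • (c - v) := by
              have : a - v = (s / t) • (c - v) := by
                rw [div_eq_inv_mul, mul_smul, hst, smul_smul, inv_mul_cancel₀ ht0.ne', one_smul]
              rw [← this]; abel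
            have ha : a ∈ segment ℝ v c := by
              rw [segment_eq_image']
              exact ⟨s / t, ⟨by positivity, (div_le_one ht0).2 hle⟩, e.symm⟩
            exact hva (hsv ⟨ha, left_mem_segment ℝ a v⟩).symm
          · have e : c = v + (t / s) • (a - v) := by
              have : c - v = (t / s) • (a - v) := by
                rw [div_eq_inv_mul, mul_smul, ← hst, smul_smul, inv_mul_cancel₀ hs0.ne', one_smul]
              rw [← this]; abel
            have hc : c ∈ segment ℝ v a := by
              rw [segment_eq_image']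
              exact ⟨t / s, ⟨by positivity, (div_le_one hs0).2 hle⟩, e.symm⟩
            rw [segment_symm] at hc
            exact hvc (hsv ⟨right_mem_segment ℝ v c, hc⟩).symm
        rcases lt_or_gt_of_ne hx0 with hx | hx
        · have hy : 0 < y := by
            by_contra h
            push Not at h
            have := mul_pos_of_neg_of_neg hx hFc
            have := mul_nonneg_of_nonpos_of_nonpos h hFa.le
            linarith
          refine main (-x) y (by linarith) hy ?_
          rw [neg_smul, hxy', neg_smul, neg_neg]
        · have hy : y < 0 := by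
            by_contra h
            push Not at h
            have := mul_neg_of_pos_of_neg hx hFc
            have := mul_nonpos_of_nonneg_of_nonpos h hFa.le
            linarith
          exact main x (-y) hx (by linarith) hxy'
      obtain ⟨L, Φ, hΦ, hLv, hLc, hLa, hLz⟩ := exists_normal_position hind
      have hLinj : Function.Injective L := by
        intro x y hxy
        apply Φ.injective
        rw [hΦ, hΦ, hxy]
      have hmap : (v :: (c :: m ++ [a])).map L =
          (0, 1) :: (((1, 0) :: m.map L) ++ [(-1, 0)]) := by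
        simp [hLv, hLc, hLa]
      have hP : CPoly ((0, 1) :: (((1, 0) :: m.map L) ++ [(-1, 0)])) := by
        rw [← hmap]
        exact CPoly.map L hLinj ⟨c :: m, a, rfl, hm', hs, hi⟩
      refine Bounds.of_image Φ ?_
      have e : Φ.toFun '' ccar (v :: (c :: m ++ [a])) =
          ccar ((0, 1) :: (((1, 0) :: m.map L) ++ [(-1, 0)])) := by
        rw [← hmap, ccar_map]
        exact image_congr fun z _ => hΦ z
      rw [e]
      refine step (p := (F (c - v) - F (a - v)) / 2) (q := -(F (c - v) + F (a - v)) / 2) IH ?_ hP ?_
      · simp only [List.length_append, List.length_cons, List.length_nil, List.length_map] at hlen ⊢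
        omega
      · intro w hw
        have hw' : w ∈ (c :: m ++ [a]).map L := by
          simp only [List.cons_append, List.map_cons, List.map_append, List.map_nil, hLc, hLa]
          exact hw
        rw [List.mem_map] at hw'
        obtain ⟨z, hz, rfl⟩ := hw'
        have h3 := hlt z hz
        have h4 : F (z - v) < 0 := by
          simp only [hF, Prod.fst_sub, Prod.snd_sub]
          linarith
        have h5 : F (z - v) = (((L z).1 - (L z).2 + 1) / 2) * F (c - v) +
            ((-(L z).1 - (L z).2 + 1) / 2) * F (a - v) := by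
          conv_lhs => rw [hLz z]
          simp only [hF, Prod.fst_add, Prod.snd_add, Prod.smul_fst, Prod.smul_snd, smul_eq_mul]
          ring
        rw [h5] at h4
        nlinarith

end P073.SCH
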