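import Vale.Agent.P073.SCH.Diag

/-!
# P073, block SCH: the side condition
-/

open Set Metric Topology Filter

namespace P073

theorem IsArc.isPreconnected_interior {E : Type*} [NormedAddCommGroup E] [NormedSpace ℝ E]
    {A : Set E} {p q : E} (h : IsArc A p q) : IsPreconnected (A \ {p, q}) := by
  obtain ⟨φ, h0, h1⟩ := h
  have e : A \ {p, q} = φ.toFun '' Ioo (0:ℝ) 1 := by
    have hA : A = φ.toFun '' Icc 0 1 := φ.image_eq.symm
    conv_lhs => rw [hA]
    have : Ioo (0:ℝ) 1 = Icc 0 1 \ {0, 1} := by rw [Icc_sdiff_both]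
    rw [this, φ.injOn.image_sdiff_subset, image_pair, h0, h1]
    rw [insert_subset_iff, singleton_subset_iff]
    exact ⟨⟨le_refl _, zero_le_one⟩, ⟨zero_le_one, le_refl _⟩⟩
  rw [e]
  exact isPreconnected_Ioo.image _ (φ.cont.mono Ioo_subset_Icc_self)

namespace SCH

open H339

/-- **Side condition** in normal position: `D` is a compact set with frontier
`[b,c] ∪ R ∪ [b,d]`, `b = (0,1)`, `c = (1,0)`, `a = (-1,0)`, strictly below a supporting line at
`b`; then an open arc disjoint from the frontier and starting at `b` in the direction of `a` is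
outside `D`. -/
theorem side_condition {D R S : Set (ℝ × ℝ)} {d : ℝ × ℝ} {p q : ℝ} (hD : IsCompact D)
    (hf : frontier D = (segment ℝ (0, 1) (1, 0) ∪ R) ∪ segment ℝ (0, 1) d)
    (hR : IsClosed R) (hbR : ((0, 1) : ℝ × ℝ) ∉ R) (hd : |d.1| + d.2 < 1)
    (hpq : ∀ z ∈ frontier D, p * z.1 + q * z.2 ≤ q) (hpc : p < q)
    (hS : IsPreconnected S) (hSf : Disjoint S (frontier D))
    (hSa : ∀ t : ℝ, 0 < t → t < 1 → ((-t, 1 - t) : ℝ × ℝ) ∈ S) : Disjoint S D := by
  have hd1 := abs_nonneg d.1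
  have hκ1 : d.1 < 1 - d.2 := by have := le_abs_self d.1; linarith
  have hκ2 : -d.1 < 1 - d.2 := by have := neg_le_abs d.1; linarith
  have hκ : 0 < 1 - d.2 := by linarith
  obtain ⟨r, hr, hrb⟩ := Metric.nhds_basis_ball.mem_iff.1 (hR.isOpen_compl.mem_nhds hbR)
  -- the half disc
  let H : Set (ℝ × ℝ) := ball (0, 1) r ∩ {z | (1 - d.2) * z.1 + d.1 * (z.2 - 1) < 0}
  have hHc : Convex ℝ H := by
    refine (convex_ball _ _).inter ?_
    have h1 : Convex ℝ {z : ℝ × ℝ | ((1 - d.2) • LinearMap.fst ℝ ℝ ℝ + d.1 • LinearMap.snd ℝ ℝ ℝ) z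
        < d.1} := convex_halfSpace_lt (LinearMap.isLinear _) _
    have h2 : {z : ℝ × ℝ | (1 - d.2) * z.1 + d.1 * (z.2 - 1) < 0} =
        {z : ℝ × ℝ | ((1 - d.2) • LinearMap.fst ℝ ℝ ℝ + d.1 • LinearMap.snd ℝ ℝ ℝ) z < d.1} := by
      ext z
      simp only [mem_ofPred_eq, LinearMap.add_apply, LinearMap.smul_apply, LinearMap.fst_apply,
        LinearMap.snd_apply, smul_eq_mul]
      constructor <;> intro h <;> linarith
    rw [h2]
    exact h1
  have hHf : Disjoint H (frontier D) := by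
    rw [Set.disjoint_left]
    rintro z ⟨hz1, hz2⟩ hz3
    rw [mem_ofPred_eq] at hz2
    rw [hf] at hz3
    rcases hz3 with (hz3 | hz3) | hz3
    · obtain ⟨t, ht, e1, e2⟩ := mem_segment_prod hz3
      simp only [mul_zero, mul_one, zero_add, add_zero] at e1 e2
      rw [e1, e2] at hz2
      have := mul_nonneg ht.1 (sub_nonneg.2 hκ1.le)
      linarith
    · exact hrb hz1 hz3
    · obtain ⟨t, ht, e1, e2⟩ := mem_segment_prod hz3
      simp only [mul_zero, mul_one, zero_add] at e1 e2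
      rw [e1, e2] at hz2
      have : (1 - d.2) * (t * d.1) + d.1 * (1 - t + t * d.2 - 1) = 0 := by ring
      linarith
  -- the ray
  let T : Set (ℝ × ℝ) := (fun s : ℝ => ((-s, 1 + s) : ℝ × ℝ)) '' Ioi 0
  have hTc : IsPreconnected T := isPreconnected_Ioi.image _ (by fun_prop)
  have hTf : Disjoint T (frontier D) := by
    rw [Set.disjoint_left]
    rintro _ ⟨s, hs, rfl⟩ h
    have := hpq _ h
    simp only at this
    have h2 : 0 < s * (q - p) := mul_pos hs (sub_pos.2 hpc)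
    linarith
  -- intersections
  have hnorm : ∀ x y s : ℝ, |x| ≤ s → |y| ≤ s → s < r → ((x, 1 + y) : ℝ × ℝ) ∈ ball ((0, 1) : ℝ × ℝ) r := by
    intro x y s hx hy hs
    rw [mem_ball, dist_eq_norm, Prod.norm_def]
    simp only [Prod.fst_sub, Prod.snd_sub, sub_zero, add_sub_cancel_left, Real.norm_eq_abs]
    exact lt_of_le_of_lt (max_le hx hy) hs
  obtain ⟨s, hs0, hs1, hsr⟩ : ∃ s : ℝ, 0 < s ∧ s < 1 ∧ s < r :=
    ⟨min 1 r / 2, by positivity, by linarith [min_le_left 1 r], by linarith [min_le_right 1 r]⟩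
  have hHT : ((-s, 1 + s) : ℝ × ℝ) ∈ H ∩ T := by
    refine ⟨⟨hnorm _ _ s (by rw [abs_neg, abs_of_pos hs0]) (by rw [abs_of_pos hs0]) hsr, ?_⟩,
      ⟨s, hs0, rfl⟩⟩
    show (1 - d.2) * (-s) + d.1 * (1 + s - 1) < 0
    have := mul_pos hs0 (sub_pos.2 hκ1)
    linarith
  have hHS : ((-s, 1 - s) : ℝ × ℝ) ∈ H ∩ S := by
    refine ⟨⟨?_, ?_⟩, hSa s hs0 hs1⟩
    · have := hnorm (-s) (-s) s (by rw [abs_neg, abs_of_pos hs0]) (by rw [abs_neg, abs_of_pos hs0]) hsr
      rwa [← sub_eq_add_neg] at this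
    · show (1 - d.2) * (-s) + d.1 * (1 - s - 1) < 0
      have := mul_pos hs0 (show 0 < 1 - d.2 + d.1 by linarith)
      linarith
  have hU1 : IsPreconnected (H ∪ T) :=
    hHc.isPreconnected.union _ hHT.1 hHT.2 hTc
  have hU : IsPreconnected (S ∪ (H ∪ T)) :=
    hS.union _ hHS.2 (Or.inl hHS.1) hU1
  have hUf : Disjoint (S ∪ (H ∪ T)) (frontier D) := by
    rw [disjoint_union_left, disjoint_union_left]
    exact ⟨hSf, hHf, hTf⟩
  rcases subset_interior_or_compl hU hUf with h | h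
  · exfalso
    have hT : T ⊆ D := fun x hx => interior_subset (h (Or.inr (Or.inr hx)))
    obtain ⟨M, hM⟩ := hD.isBounded.exists_norm_le
    have h1 := hM _ (hT ⟨|M| + 1, by show (0:ℝ) < |M| + 1; positivity, rfl⟩)
    have h2 := norm_fst_le ((-(|M| + 1), 1 + (|M| + 1)) : ℝ × ℝ)
    simp only [norm_neg, Real.norm_eq_abs] at h2
    have h3 : |(|M| + 1)| = |M| + 1 := abs_of_pos (by positivity)
    rw [h3] at h2
    have := le_abs_self M
    linarith
  · rw [hD.isClosed.closure_eq] at h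
    rw [Set.disjoint_left]
    exact fun x hx => h (Or.inl hx)

end SCH

end P073
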