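import Vale.Agent.P073.SCH.Side

/-!
# P073, block SCH: the induction step of the polygonal Schoenflies theorem
-/

open Set Metric Topology Filter

namespace P073.SCH

open H339

/-- a planar set is an ambient circle if it is the frontier of an ambient disc -/
def Bounds (C : Set (ℝ × ℝ)) : Prop := ∃ D, AmbDisc D ∧ frontier D = C

theorem Bounds.of_image {C : Set (ℝ × ℝ)}
    (Φ : ConHomeo (univ : Set (ℝ × ℝ)) (univ : Set (ℝ × ℝ)))
    (h : Bounds (Φ.toFun '' C)) : Bounds C := by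
  obtain ⟨D, hD, hf⟩ := h
  refine ⟨Φ.symm.toFun '' D, hD.image Φ.symm, ?_⟩
  rw [← Φ.symm.image_frontier, hf]
  exact Φ.image_inv_image C

theorem roof_eq' : roof = segment ℝ (0, 1) (1, 0) ∪ segment ℝ ((-1, 0) : ℝ × ℝ) (0, 1) := by
  rw [roof_eq, union_comm]

/-- two segments from `b` in different directions -/
theorem seg_right_inter {d : ℝ × ℝ} (hd : |d.1| + d.2 < 1) :
    segment ℝ ((0, 1) : ℝ × ℝ) d ∩ segment ℝ (0, 1) (1, 0) ⊆ {(0, 1)} := by
  rintro ⟨x, y⟩ ⟨h1, h2⟩
  rw [mem_segment_right_roof] at h2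
  obtain ⟨t, ht, e1, e2⟩ := mem_segment_prod h1
  simp only [mul_zero, mul_one, zero_add] at e1 e2
  have hκ : 0 < 1 - d.2 - d.1 := by have := le_abs_self d.1; linarith
  have h3 : t * (1 - d.2 - d.1) = 0 := by
    have := h2.2.2
    rw [e1, e2] at this
    linarith
  have ht0 : t = 0 := by
    rcases mul_eq_zero.1 h3 with h | h
    · exact h
    · exact absurd h hκ.ne'
  rw [mem_singleton_iff, Prod.mk.injEq, e1, e2, ht0]
  constructor <;> ring

theorem seg_left_inter {d : ℝ × ℝ} (hd : |d.1| + d.2 < 1) :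
    segment ℝ ((0, 1) : ℝ × ℝ) d ∩ segment ℝ (-1, 0) (0, 1) ⊆ {(0, 1)} := by
  rintro ⟨x, y⟩ ⟨h1, h2⟩
  rw [mem_segment_left_roof] at h2
  obtain ⟨t, ht, e1, e2⟩ := mem_segment_prod h1
  simp only [mul_zero, mul_one, zero_add] at e1 e2
  have hκ : 0 < 1 - d.2 + d.1 := by have := neg_le_abs d.1; linarith
  have h3 : t * (1 - d.2 + d.1) = 0 := by
    have := h2.2.2
    rw [e1, e2] at this
    linarith
  have ht0 : t = 0 := by
    rcases mul_eq_zero.1 h3 with h | h
    · exact h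
    · exact absurd h hκ.ne'
  rw [mem_singleton_iff, Prod.mk.injEq, e1, e2, ht0]
  constructor <;> ring

/-- the shrinking move: `C = A₁ ∪ A₂`, `D₁` a disc with frontier `A₁ ∪ σ`, `A₂` outside `D₁`. -/
theorem exists_shrink_disc {D₁ A₁ A₂ σ : Set (ℝ × ℝ)} {p q : ℝ × ℝ} (hD₁ : AmbDisc D₁)
    (hf : frontier D₁ = A₁ ∪ σ) (hA₁ : IsArc A₁ p q) (hσ : IsArc σ p q) (hAσ : A₁ ∩ σ ⊆ {p, q})
    (hA₂ : IsClosed A₂) (hA₂c : LocCone A₂) (hside : A₂ ∩ D₁ ⊆ {p, q}) :
    ∃ Φ : ConHomeo (univ : Set (ℝ × ℝ)) (univ : Set (ℝ × ℝ)), (∀ z ∈ A₂, Φ.toFun z = z) ∧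
      Φ.toFun '' A₁ = σ := by
  obtain ⟨φ, h1, h2, h3, h4⟩ :=
    isArc_roof.exists_homeo_union isArc_bottom roof_inter_bottom hA₁ hσ hAσ
  obtain ⟨Φ₁, h5, h6⟩ := hD₁.exists_marked isCompact_tri convex_tri interior_tri_nonempty
    (φ.cast frontier_tri.symm hf.symm)
  have hroof : roof ⊆ frontier tri := by rw [frontier_tri]; exact subset_union_left
  have hbot : bottom ⊆ frontier tri := by rw [frontier_tri]; exact subset_union_right
  have e1 : Φ₁.toFun '' roof = A₁ := by
    rw [image_congr (fun x hx => h5 (hroof hx))]; exact h3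
  have e2 : Φ₁.toFun '' bottom = σ := by
    rw [image_congr (fun x hx => h5 (hbot hx))]; exact h4
  have e3 : Φ₁.toFun (-1, 0) = p := by
    rw [h5 (hroof isArc_roof.left_mem)]; exact h1
  have e4 : Φ₁.toFun (1, 0) = q := by
    rw [h5 (hroof isArc_roof.right_mem)]; exact h2
  refine exists_shrink Φ₁.symm ?_ ?_ hA₂ hA₂c ?_
  · rw [← e1]; exact Φ₁.image_inv_image roof
  · rw [← e2]; exact Φ₁.image_inv_image bottom
  · intro z hz hzt
    have hzt' : Φ₁.invFun z ∈ tri := hzt
    have hzD : z ∈ D₁ := by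
      rw [← h6, Φ₁.mem_image_iff]; exact hzt'
    rcases hside ⟨hz, hzD⟩ with h | h
    · left
      show Φ₁.invFun z = _
      rw [h, ← e3, Φ₁.inv_apply]
    · right
      show Φ₁.invFun z = _
      rw [mem_singleton_iff.1 h, ← e4, Φ₁.inv_apply]

/-- **Induction step** in normal position. -/
theorem step {m : List (ℝ × ℝ)} {p q : ℝ} {n : ℕ}
    (IH : ∀ l : List (ℝ × ℝ), l.length ≤ n → CPoly l → Bounds (ccar l))
    (hl : m.length + 3 ≤ n + 1) (h : CPoly ((0, 1) :: (((1, 0) :: m) ++ [(-1, 0)])))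
    (hf : ∀ w ∈ ((1, 0) :: (m ++ [(-1, 0)]) : List (ℝ × ℝ)), p * w.1 + q * w.2 < q) :
    Bounds (ccar ((0, 1) :: (((1, 0) :: m) ++ [(-1, 0)]))) := by
  have hC := ccar_cons_append ((0, 1) : ℝ × ℝ) ((1, 0) :: m) (-1, 0)
  rw [cpoly_cons_append] at h
  obtain ⟨-, hs, hi⟩ := h
  simp only [List.cons_append] at hC hs hi ⊢
  have ht := hs.tail
  have hb := hs.head_notMem
  have hbc := hs.2.1
  rw [pcar_cons_cons] at hC
  -- the arc `A' = pcar (c :: m ++ [a])` and the roof
  have hab : segment ℝ ((-1, 0) : ℝ × ℝ) (0, 1) ∩ pcar ((1, 0) :: (m ++ [(-1, 0)])) ⊆ {(-1, 0)} := by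
    rintro x ⟨hx1, hx2⟩
    rcases hi ⟨hx1, Or.inr hx2⟩ with h | h
    · exact h
    · exact absurd (mem_singleton_iff.1 h ▸ hx2) hb
  have hroof : pcar ((1, 0) :: (m ++ [(-1, 0)])) ∩ roof ⊆ {((-1, 0) : ℝ × ℝ), (1, 0)} := by
    rintro x ⟨hx1, hx2⟩
    rw [roof_eq'] at hx2
    rcases hx2 with hx2 | hx2
    · exact Or.inr (hbc ⟨hx2, hx1⟩)
    · exact Or.inl (hab ⟨hx2, hx1⟩)
  have hCr : ccar ((0, 1) :: (1, 0) :: (m ++ [(-1, 0)])) =
      roof ∪ pcar ((1, 0) :: (m ++ [((-1, 0) : ℝ × ℝ)])) := by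
    rw [hC, roof_eq']
    ext x
    simp only [mem_union]
    tauto
  rcases exists_diagonal ht hroof hb with hm | hcase | ⟨d, hdm, hd, hd0, hdA⟩
  · -- the triangle
    subst hm
    rw [hCr]
    refine ⟨tri, ambDisc_tri, ?_⟩
    rw [frontier_tri]
    congr 1
    show bottom = pcar [(1, 0), (-1, 0)]
    rw [pcar_pair, bottom_eq, segment_symm]
  · -- empty triangle
    by_cases hm : m = []
    · subst hm
      rw [hCr]
      refine ⟨tri, ambDisc_tri, ?_⟩
      rw [frontier_tri]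
      congr 1
      show bottom = pcar [(1, 0), (-1, 0)]
      rw [pcar_pair, bottom_eq, segment_symm]
    have hrefl : ConicalSet (univ : Set (ℝ × ℝ)) := IsOpen.conicalSet isOpen_univ
    obtain ⟨Φ, hΦ1, hΦ2⟩ := exists_shrink (A₁ := roof) (d := bottom)
      (A₂ := pcar ((1, 0) :: (m ++ [(-1, 0)]))) (ConHomeo.refl hrefl)
      (by show (fun x => x) '' roof = roof; exact image_id' _)
      (by show (fun x => x) '' bottom = bottom; exact image_id' _)
      (isClosed_pcar _) (locCone_pcar _) (by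
        intro z hz hzt
        rcases hcase ⟨hz, hzt⟩ with h | h
        · exact Or.inl h
        · exact Or.inr h)
    rw [hCr]
    refine Bounds.of_image Φ ?_
    have e : Φ.toFun '' (roof ∪ pcar ((1, 0) :: (m ++ [((-1, 0) : ℝ × ℝ)]))) =
        ccar ((1, 0) :: (m ++ [((-1, 0) : ℝ × ℝ)])) := by
      rw [image_union, hΦ2, image_congr (fun z hz => hΦ1 z hz), image_id', ccar_cons_append,
        ← bottom_eq, union_comm]
    rw [e]
    refine IH _ ?_ ?_
    · simp only [List.length_cons, List.length_append, List.length_nil]; omega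
    · rw [cpoly_cons_append]
      refine ⟨hm, ht, ?_⟩
      rw [← bottom_eq]
      rintro x ⟨hx1, hx2⟩
      refine hcase ⟨hx2, ?_⟩
      obtain ⟨h1, h2⟩ := hx1
      exact ⟨by rw [h2, add_zero]; exact h1, h2.ge⟩
  · -- diagonal `[b,d]`
    obtain ⟨m₁, m₂, rfl⟩ := List.append_of_mem hdm
    have hlist : (1, 0) :: (m₁ ++ d :: m₂ ++ [((-1, 0) : ℝ × ℝ)]) =
        ((1, 0) :: m₁) ++ d :: (m₂ ++ [(-1, 0)]) := by simp
    have hd1 : d.2 < 1 := by have := abs_nonneg d.1; linarith
    have hdb : d ≠ (0, 1) := by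
      intro h
      rw [h] at hd1
      exact lt_irrefl _ hd1
    rw [hlist] at ht hb hbc hab hroof hdA hCr hs
    have hcar : pcar (((1, 0) :: m₁) ++ d :: (m₂ ++ [((-1, 0) : ℝ × ℝ)])) =
        pcar (((1, 0) :: m₁) ++ [d]) ∪ pcar (d :: (m₂ ++ [(-1, 0)])) := pcar_append _ _ _
    obtain ⟨hs1, hs2, hs12⟩ := (psimple_append _ _ _).1 ht
    -- the two arcs
    have hA1s : psimple ((0, 1) :: ((((1, 0) :: m₁) : List (ℝ × ℝ)) ++ [d])) := by
      have := (psimple_append ((0, 1) :: (1, 0) :: m₁) d (m₂ ++ [((-1, 0) : ℝ × ℝ)])).1 (by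
        simpa using hs)
      simpa using this.1
    have hba : ((-1, 0) : ℝ × ℝ) ≠ (0, 1) := by
      intro h; have := congrArg Prod.fst h; norm_num at this
    have hA2s : psimple (d :: ((m₂ ++ [((-1, 0) : ℝ × ℝ)]) ++ [(0, 1)])) := by
      have h1 := (psimple_append (d :: m₂) ((-1, 0) : ℝ × ℝ) [(0, 1)]).2 ⟨by simpa using hs2,
        psimple_pair.2 hba, by
          rw [pcar_pair, inter_comm]
          intro x hx
          refine hab ⟨hx.1, ?_⟩
          rw [hcar]
          exact Or.inr (by simpa using hx.2)⟩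
      simpa using h1
    set A₁ : Set (ℝ × ℝ) := pcar ((0, 1) :: ((((1, 0) :: m₁) : List (ℝ × ℝ)) ++ [d])) with hA₁
    set A₂ : Set (ℝ × ℝ) := pcar (d :: ((m₂ ++ [((-1, 0) : ℝ × ℝ)]) ++ [(0, 1)])) with hA₂
    have hA₁arc : IsArc A₁ (0, 1) d := isArc_pcar hA1s
    have hA₂arc : IsArc A₂ d (0, 1) := isArc_pcar hA2s
    have hσarc : IsArc (segment ℝ (0, 1) d) (0, 1) d := isArc_segment hdb.symm
    have hA₁eq : A₁ = segment ℝ (0, 1) (1, 0) ∪ pcar (((1, 0) :: m₁) ++ [d]) := rfl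
    have hA₂eq : A₂ = pcar (d :: (m₂ ++ [((-1, 0) : ℝ × ℝ)])) ∪ segment ℝ (-1, 0) (0, 1) := by
      have h1 := pcar_append (d :: m₂) ((-1, 0) : ℝ × ℝ) [(0, 1)]
      rw [pcar_pair] at h1
      simpa [hA₂] using h1
    have hA₁σ : segment ℝ (0, 1) d ∩ A₁ ⊆ {(0, 1), d} := by
      rw [hA₁eq]
      rintro x ⟨hx1, hx2 | hx2⟩
      · exact Or.inl (seg_right_inter hd ⟨hx1, hx2⟩)
      · right
        refine hdA ⟨hx1, ?_⟩
        rw [hcar]; exact Or.inl hx2
    have hA₂σ : segment ℝ (0, 1) d ∩ A₂ ⊆ {(0, 1), d} := by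
      rw [hA₂eq]
      rintro x ⟨hx1, hx2 | hx2⟩
      · right
        refine hdA ⟨hx1, ?_⟩
        rw [hcar]; exact Or.inr hx2
      · exact Or.inl (seg_left_inter hd ⟨hx1, hx2⟩)
    -- the disc of the first polygon
    have hP₁ : CPoly ((0, 1) :: ((((1, 0) :: m₁) : List (ℝ × ℝ)) ++ [d])) := by
      rw [cpoly_cons_append]
      refine ⟨by simp, hA1s, ?_⟩
      rw [segment_symm, pair_comm]
      exact hA₁σ
    have hlen : (m₁ ++ d :: m₂).length = m₁.length + m₂.length + 1 := by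
      simp only [List.length_append, List.length_cons]; omega
    obtain ⟨D₁, hD₁, hfD₁⟩ := IH _ (by
      simp only [List.length_cons, List.length_append, List.length_nil]; omega) hP₁
    rw [ccar_cons_append, segment_symm] at hfD₁
    -- side condition
    have hA12 : A₁ ∩ A₂ ⊆ {(0, 1), d} := by
      rw [hA₁eq, hA₂eq]
      rintro x ⟨hx1 | hx1, hx2 | hx2⟩
      · -- x in [b,c] and in the second half of the arc
        have h1 : x = (1, 0) := hbc ⟨hx1, by rw [hcar]; exact Or.inr hx2⟩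
        right
        exact hs12 ⟨by rw [h1]; exact head_mem_pcar _ _, hx2⟩
      · left
        obtain ⟨x1, x2⟩ := x
        rw [mem_segment_right_roof] at hx1
        rw [mem_segment_left_roof] at hx2
        have : x1 = 0 := le_antisymm hx2.2.1 hx1.1
        rw [Prod.mk.injEq]
        exact ⟨this, by rw [hx1.2.2, this, sub_zero]⟩
      · exact Or.inr (hs12 ⟨hx1, hx2⟩)
      · -- x in [a,b] and in the first half
        have h1 : x = (-1, 0) := hab ⟨hx2, by rw [hcar]; exact Or.inl hx1⟩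
        right
        refine hs12 ⟨hx1, ?_⟩
        rw [h1]
        exact last_mem_pcar (d :: m₂) _
    have hvert : ∀ z ∈ frontier D₁, p * z.1 + q * z.2 ≤ q := by
      have hlin : IsLinearMap ℝ (fun z : ℝ × ℝ => p * z.1 + q * z.2) :=
        ⟨fun x y => by simp only [Prod.fst_add, Prod.snd_add]; ring,
          fun c x => by simp only [Prod.smul_fst, Prod.smul_snd, smul_eq_mul]; ring⟩
      have hconv : Convex ℝ {z : ℝ × ℝ | p * z.1 + q * z.2 ≤ q} := convex_halfSpace_le hlin q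
      have hdf : p * d.1 + q * d.2 ≤ q := (hf d (by simp)).le
      intro z hz
      rw [hfD₁] at hz
      rcases hz with hz | hz
      · refine pcar_subset_of_convex hconv ?_ hz
        intro w hw
        simp only [List.cons_append, List.mem_cons, List.mem_append, List.not_mem_nil,
          or_false] at hw
        rcases hw with h | h | h | h
        · rw [h]; show p * 0 + q * 1 ≤ q
          linarith
        · rw [h]; exact (hf (1, 0) (by simp)).le
        · exact (hf w (by simp [h])).le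
        · rw [h]; exact hdf
      · refine hconv.segment_subset ?_ hdf hz
        show p * 0 + q * 1 ≤ q
        linarith
    have hbR : ((0, 1) : ℝ × ℝ) ∉ pcar ((((1, 0) :: m₁) : List (ℝ × ℝ)) ++ [d]) := by
      intro h
      exact hb (by rw [hcar]; exact Or.inl h)
    have hside : Disjoint (A₂ \ {d, (0, 1)}) D₁ := by
      refine side_condition (p := p) (q := q) hD₁.isCompact (by rw [hfD₁]; rfl)
        (isClosed_pcar _) hbR hd hvert ?_ hA₂arc.isPreconnected_interior ?_ ?_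
      · have := hf (1, 0) (by simp)
        simpa using this
      · rw [Set.disjoint_left]
        rintro x ⟨hx1, hx2⟩ hx3
        apply hx2
        rw [hfD₁] at hx3
        rw [pair_comm]
        rcases hx3 with hx3 | hx3
        · exact hA12 ⟨hx3, hx1⟩
        · exact hA₂σ ⟨hx3, hx1⟩
      · intro t ht0 ht1
        have hmem : ((-t, 1 - t) : ℝ × ℝ) ∈ segment ℝ (-1, 0) (0, 1) := by
          rw [mem_segment_left_roof]
          exact ⟨by linarith, by linarith, by ring⟩
        refine ⟨by rw [hA₂eq]; exact Or.inr hmem, ?_⟩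
        rintro (h | h)
        · have e1 : d.1 = -t := (congrArg Prod.fst h).symm
          have e2 : d.2 = 1 - t := (congrArg Prod.snd h).symm
          rw [e1, e2, abs_neg, abs_of_pos ht0] at hd
          linarith
        · have := congrArg Prod.fst (mem_singleton_iff.1 h)
          simp only at this
          linarith
    -- shrink
    obtain ⟨Φ, hΦ1, hΦ2⟩ := exists_shrink_disc hD₁ hfD₁ hA₁arc hσarc (by
        rw [inter_comm]; exact hA₁σ) hA₂arc.isClosed hA₂arc.locCone (by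
        rintro x ⟨hx1, hx2⟩
        by_contra hx3
        exact Set.disjoint_left.1 hside ⟨hx1, by rw [pair_comm]; exact hx3⟩ hx2)
    have hP₂ : CPoly (d :: ((m₂ ++ [((-1, 0) : ℝ × ℝ)]) ++ [(0, 1)])) := by
      rw [cpoly_cons_append]
      exact ⟨by simp, hA2s, hA₂σ⟩
    have hCeq : ccar ((0, 1) :: (1, 0) :: (m₁ ++ d :: m₂ ++ [((-1, 0) : ℝ × ℝ)])) = A₁ ∪ A₂ := by
      rw [hlist, hCr, hcar, roof_eq', hA₁eq, hA₂eq]
      ext x
      simp only [mem_union]
      tauto
    rw [hCeq]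
    refine Bounds.of_image Φ ?_
    have e : Φ.toFun '' (A₁ ∪ A₂) = ccar (d :: ((m₂ ++ [((-1, 0) : ℝ × ℝ)]) ++ [(0, 1)])) := by
      rw [image_union, hΦ2, image_congr (fun z hz => hΦ1 z hz), image_id', ccar_cons_append,
        union_comm]
    rw [e]
    refine IH _ ?_ hP₂
    simp only [List.length_cons, List.length_append, List.length_nil] at hlen hl ⊢
    omega

end P073.SCH
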